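import Vale.Agent.P095.Finite.Fun

/-!
# P095: equivariant copies of countably generated invariant subalgebras of `F_ω(A)`

The reindexing of `Vale.P101.copyProp_central` for countably many generators, keeping the index map;
since the induced action is termwise, reindexed copies are equivariant.
-/

open scoped BoundedContinuousFunction
open Filter Topology

namespace Vale.P095

open Vale.P101

/-- Countable invariant sets have equivariant copies commuting with any prescribed countable set. -/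
def EqCopyProp {G E : Type*} [CStarAlgebra E] (β : G → E →⋆ₐ[ℂ] E) : Prop :=
  ∀ s t : Set E, s.Countable → t.Countable → (∀ g, ∀ b ∈ s, β g b ∈ s) →
    ∃ ρ : gen s →⋆ₐ[ℂ] E, (∀ b, ∀ c ∈ t, Commute (ρ b) c) ∧
      (∀ b, ‖ρ b‖ ≤ ‖(b : E)‖) ∧
      ∀ (g : G) (b c : gen s), (c : E) = β g b → ρ c = β g (ρ b)

noncomputable section

variable {A : Type*} [CStarAlgebra A] [TopologicalSpace.SeparableSpace A] {ω : Ultrafilter ℕ}

/-- Reindexing with a chosen countable set `F` of lifts. -/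
theorem exists_reindex_countable (hω : (ω : Filter ℕ) ≤ cofinite) {s t : Set (Central A ω)}
    {F : Set (ℕ →ᵇ A)} (hF : F.Countable) (ht : t.Countable)
    (hFs : (fun f => cls ω f) '' F = (fun b : Central A ω => (b : Ultrapower A ω)) '' s) :
    ∃ (ρ : gen s →⋆ₐ[ℂ] Central A ω) (m : ℕ → ℕ), (∀ b, ∀ c ∈ t, Commute (ρ b) c) ∧
      (∀ b, ‖ρ b‖ ≤ ‖(b : Central A ω)‖) ∧
      (∀ b : gen s, ∃ l ∈ StarAlgebra.adjoin ℂ F,
        cls ω l = ((b : Central A ω) : Ultrapower A ω)) ∧
      ∀ (b : gen s) (l : ℕ →ᵇ A), l ∈ StarAlgebra.adjoin ℂ F →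
        cls ω l = ((b : Central A ω) : Ultrapower A ω) →
        (ρ b : Ultrapower A ω) = cls ω (reindex m l) := by
  classical
  choose lift hlift using fun b : Central A ω => cls_surjective ω (b : Ultrapower A ω)
  let L : StarSubalgebra ℂ (ℕ →ᵇ A) := StarAlgebra.adjoin ℂ F
  let s' : Set (ℕ →ᵇ A) := F ∪ star '' F
  have hs' : s'.Countable := hF.union (hF.image _)
  have hcF : ∀ f ∈ F, cls ω f ∈ Central A ω := fun f hf => by
    obtain ⟨b, -, hb⟩ := hFs ▸ Set.mem_image_of_mem (fun f => cls ω f) hf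
    rw [← hb]; exact b.2
  have hcen : ∀ f ∈ s', ∀ a : A, Tendsto (fun k => ‖f k * a - a * f k‖) ω (𝓝 0) := by
    intro f hf a
    have : cls ω f ∈ Central A ω := by
      rcases hf with hf | ⟨f₀, hf₀, rfl⟩
      · exact hcF f hf
      · rw [← star_cls]; exact star_mem (hcF f₀ hf₀)
    simpa using tendsto_of_commute_cls ω ((mem_central ω).1 this a).symm
  obtain ⟨D, hD, hLD⟩ := isSeparable_adjoin hF
  obtain ⟨x, hx⟩ := (hD.insert 0).exists_eq_range (Set.insert_nonempty _ _)
  obtain ⟨a, ha⟩ := TopologicalSpace.exists_dense_seq A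
  obtain ⟨e, he⟩ := (hs'.insert 0).exists_eq_range (Set.insert_nonempty _ _)
  obtain ⟨d, hd⟩ := (ht.insert 0).exists_eq_range (Set.insert_nonempty _ _)
  -- the index map
  let P : ℕ → ℕ → Prop := fun n k => (∀ j ∈ Finset.range (n + 1),
      ‖x j k‖ ≤ limNorm ω (x j) + 1 / ((n : ℝ) + 1)) ∧
    (∀ i ∈ Finset.range (n + 1), ∀ j ∈ Finset.range (n + 1),
      ‖e i k * a j - a j * e i k‖ ≤ 1 / ((n : ℝ) + 1)) ∧
    ∀ i ∈ Finset.range (n + 1), ∀ j ∈ Finset.range (n + 1),
      ‖e i k * lift (d j) n - lift (d j) n * e i k‖ ≤ 1 / ((n : ℝ) + 1)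
  have hcen' : ∀ i (b : A), Tendsto (fun k => ‖e i k * b - b * e i k‖) ω (𝓝 0) := by
    intro i b
    have hi : e i ∈ insert 0 s' := by rw [he]; exact Set.mem_range_self i
    rcases hi with h0 | hi
    · simp [h0]
    · exact hcen _ hi b
  have hP : ∀ n, ∃ k, P n k := fun n => by
    have hpos : (0 : ℝ) < 1 / ((n : ℝ) + 1) := by positivity
    refine Filter.Eventually.exists (f := (ω : Filter ℕ)) ?_
    simp only [P, Filter.eventually_and, Filter.eventually_all_finset]
    refine ⟨fun j _ => (tendsto_limNorm ω (x j)).eventually (eventually_le_nhds (by linarith)),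
      fun i _ j _ => ?_, fun i _ j _ => ?_⟩
    · exact (hcen' i (a j)).eventually (eventually_le_nhds hpos)
    · exact (hcen' i (lift (d j) n)).eventually (eventually_le_nhds hpos)
  choose m hm using hP
  have hmem_e : ∀ f ∈ s', ∃ i, e i = f := fun f hf => by
    have : f ∈ insert 0 s' := Set.mem_insert_of_mem _ hf
    rwa [he] at this
  have hmem_d : ∀ c ∈ t, ∃ j, d j = c := fun c hc => by
    have : c ∈ insert 0 t := Set.mem_insert_of_mem _ hc
    rwa [hd] at this
  have hone : Tendsto (fun n : ℕ => 1 / ((n : ℝ) + 1)) ω (𝓝 0) :=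
    (tendsto_one_div_add_atTop_nhds_zero_nat (𝕜 := ℝ)).mono_left (Nat.cofinite_eq_atTop ▸ hω)
  have hbig : ∀ j, ∀ᶠ n in (ω : Filter ℕ), j ∈ Finset.range (n + 1) := fun j => by
    refine hω ?_
    rw [Nat.cofinite_eq_atTop]
    exact (eventually_ge_atTop j).mono fun n hn => Finset.mem_range.2 (by omega)
  let θ₀ : (ℕ →ᵇ A) →⋆ₐ[ℂ] Ultrapower A ω := (clsStar ω).comp (reindex m)
  have hθ₀ : ∀ f, θ₀ f = cls ω (reindex m f) := fun f => rfl
  -- norms do not grow
  have hnorm : ∀ f ∈ L, ‖θ₀ f‖ ≤ ‖cls ω f‖ := by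
    have hcl : IsClosed {f : ℕ →ᵇ A | ‖θ₀ f‖ ≤ ‖cls ω f‖} := by
      have c1 : Continuous fun f : ℕ →ᵇ A => cls ω (reindex m f) :=
        AddMonoidHomClass.continuous_of_bound
          ((cls ω).toLinearMap.comp (reindex m).toAlgHom.toLinearMap) 1 fun f => by
            rw [one_mul]
            exact (quot_norm_mk_le (NullSeq A ω) _).trans (norm_reindex_le m f)
      have c2 : Continuous fun f : ℕ →ᵇ A => cls ω f :=
        AddMonoidHomClass.continuous_of_bound (cls ω).toLinearMap 1 fun f => by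
          rw [one_mul]
          exact quot_norm_mk_le (NullSeq A ω) f
      exact isClosed_le c1.norm c2.norm
    intro f hf
    refine closure_minimal ?_ hcl (closure_mono (Set.subset_insert 0 D) (hLD hf))
    rw [hx]
    rintro _ ⟨j, rfl⟩
    show ‖θ₀ (x j)‖ ≤ ‖cls ω (x j)‖
    rw [hθ₀, norm_cls, norm_cls]
    refine le_of_tendsto_of_tendsto (tendsto_limNorm ω _)
      (by simpa using tendsto_const_nhds.add hone) ?_
    filter_upwards [hbig j] with n hn
    simpa [reindex_apply] using (hm n).1 j hn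
  have hcomm_const : ∀ f ∈ s', ∀ b : A, Commute (constSeq ω b) (θ₀ f) := by
    intro f hf
    have hcl : IsClosed {b : A | Commute (constSeq ω b) (θ₀ f)} := by
      have hc : Continuous fun b : A => constSeq ω b :=
        (AddMonoidHomClass.continuous_of_bound (cls ω).toLinearMap 1 fun g => by
          rw [one_mul]
          exact quot_norm_mk_le (NullSeq A ω) g).comp
        (Isometry.continuous (Isometry.of_dist_eq fun p q => by
          simp [dist_eq_norm, BoundedContinuousFunction.norm_eq_iSup_norm]))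
      exact isClosed_eq (hc.mul continuous_const) (continuous_const.mul hc)
    intro b
    refine closure_minimal ?_ hcl (ha b)
    rintro _ ⟨j, rfl⟩
    refine (commute_cls_of_tendsto ω ?_).symm
    refine squeeze_zero' (Eventually.of_forall fun n => norm_nonneg _) ?_ hone
    obtain ⟨i, rfl⟩ := hmem_e f hf
    filter_upwards [hbig j, hbig i] with n hn hn'
    simpa [reindex_apply] using (hm n).2.1 i hn' j hn
  have hcomm_t : ∀ f ∈ s', ∀ c ∈ t, Commute (θ₀ f) (c : Ultrapower A ω) := by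
    intro f hf c hc
    rw [← hlift c]
    refine commute_cls_of_tendsto ω ?_
    refine squeeze_zero' (Eventually.of_forall fun n => norm_nonneg _) ?_ hone
    obtain ⟨i, rfl⟩ := hmem_e f hf
    obtain ⟨j, rfl⟩ := hmem_d c hc
    filter_upwards [hbig j, hbig i] with n hn hn'
    exact (hm n).2.2 i hn' j hn
  have hbase : ∀ f ∈ F, f ∈ s' ∧ star f ∈ s' := fun f hf =>
    ⟨Or.inl hf, Or.inr ⟨f, hf, rfl⟩⟩
  -- the image commutes with the constants and with `t`
  have hθ : ∀ f ∈ L, θ₀ f ∈ Central A ω ∧ ∀ c ∈ t, Commute (θ₀ f) (c : Ultrapower A ω) ∧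
      Commute (θ₀ (star f)) (c : Ultrapower A ω) := by
    intro f hf
    induction hf using StarAlgebra.adjoin_induction with
    | mem f hf =>
      exact ⟨(mem_central ω).2 (hcomm_const f (hbase f hf).1),
        fun c hc => ⟨hcomm_t f (hbase f hf).1 c hc, hcomm_t _ (hbase f hf).2 c hc⟩⟩
    | algebraMap r =>
      refine ⟨by rw [AlgHomClass.commutes]; exact algebraMap_mem _ r, fun c _ => ?_⟩
      rw [← algebraMap_star_comm, AlgHomClass.commutes, AlgHomClass.commutes]
      exact ⟨Algebra.commute_algebraMap_left r _, Algebra.commute_algebraMap_left _ _⟩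
    | add f g _ _ ihf ihg =>
      refine ⟨by rw [map_add]; exact add_mem ihf.1 ihg.1, fun c hc => ?_⟩
      rw [star_add, map_add, map_add]
      exact ⟨(ihf.2 c hc).1.add_left (ihg.2 c hc).1, (ihf.2 c hc).2.add_left (ihg.2 c hc).2⟩
    | mul f g _ _ ihf ihg =>
      refine ⟨by rw [map_mul]; exact mul_mem ihf.1 ihg.1, fun c hc => ?_⟩
      rw [star_mul, map_mul, map_mul]
      exact ⟨(ihf.2 c hc).1.mul_left (ihg.2 c hc).1, (ihg.2 c hc).2.mul_left (ihf.2 c hc).2⟩
    | star f _ ih =>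
      refine ⟨by rw [map_star]; exact star_mem ih.1, fun c hc => ?_⟩
      rw [star_star]
      exact ⟨(ih.2 c hc).2, (ih.2 c hc).1⟩
  let incl : Central A ω →⋆ₐ[ℂ] Ultrapower A ω := (Central A ω).subtype
  have hmap : L.map (clsStar ω) = (gen s).map incl := by
    rw [show L.map (clsStar ω) = StarAlgebra.adjoin ℂ (clsStar ω '' F) from
      (StarAlgHom.map_adjoin _ _),
      show (gen s).map incl = StarAlgebra.adjoin ℂ (incl '' s) from (StarAlgHom.map_adjoin _ _)]
    congr 1
  have hfrom : ∀ l : L, cls ω (l : ℕ →ᵇ A) ∈ Central A ω := fun l => by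
    have : clsStar ω (l : ℕ →ᵇ A) ∈ L.map (clsStar ω) := ⟨l, l.2, rfl⟩
    rw [hmap] at this
    obtain ⟨b, -, hb⟩ := this
    rw [← clsStar_apply, ← hb]
    exact b.2
  let π₁ : L →⋆ₐ[ℂ] Central A ω := ((clsStar ω).comp L.subtype).codRestrict (Central A ω) hfrom
  have hπ₁ : ∀ l, π₁ l ∈ gen s := fun l => by
    have : clsStar ω (l : ℕ →ᵇ A) ∈ L.map (clsStar ω) := ⟨l, l.2, rfl⟩
    rw [hmap] at this
    obtain ⟨b, hb, hbe⟩ := this
    rwa [show π₁ l = b from Subtype.ext hbe.symm]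
  let π : L →⋆ₐ[ℂ] gen s := π₁.codRestrict (gen s) hπ₁
  have hπ : Function.Surjective π := fun b => by
    have : incl b ∈ (gen s).map incl := ⟨b, b.2, rfl⟩
    rw [← hmap] at this
    obtain ⟨l, hl, hle⟩ := this
    exact ⟨⟨l, hl⟩, Subtype.ext (Subtype.ext hle)⟩
  let θ : L →⋆ₐ[ℂ] Central A ω :=
    (θ₀.comp L.subtype).codRestrict (Central A ω) fun l => (hθ l l.2).1
  have hker : ∀ l, π l = 0 → θ l = 0 := fun l hl => by
    have h0 : cls ω (l : ℕ →ᵇ A) = 0 :=
      congrArg (fun b : gen s => ((b : Central A ω) : Ultrapower A ω)) hl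
    have := hnorm l l.2
    rw [h0, norm_zero] at this
    exact Subtype.ext (norm_le_zero_iff.1 this)
  obtain ⟨ρ, hρ⟩ := exists_desc π hπ θ hker
  refine ⟨ρ, m, fun b c hc => ?_, fun b => ?_, fun b => ?_, fun b l hl hb => ?_⟩
  · obtain ⟨l, rfl⟩ := hπ b
    rw [hρ]
    exact Subtype.ext ((hθ l l.2).2 c hc).1
  · obtain ⟨l, rfl⟩ := hπ b
    rw [hρ]
    exact hnorm l l.2
  · obtain ⟨l, rfl⟩ := hπ b
    exact ⟨l, l.2, rfl⟩
  · have he : π ⟨l, hl⟩ = b := Subtype.ext (Subtype.ext hb)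
    rw [← he, hρ]
    rfl

variable {G : Type*} [Group G] [Countable G] (α : G →* (A ≃⋆ₐ[ℂ] A))

/-- The central sequence algebra has equivariant copies. -/
theorem eqCopyProp_central (hω : (ω : Filter ℕ) ≤ cofinite) : EqCopyProp (actC ω α) := by
  intro s t hs ht hst
  choose lift hlift using fun b : Central A ω => cls_surjective ω (b : Ultrapower A ω)
  let F : Set (ℕ →ᵇ A) :=
    ⋃ g : G, bmap (StarAlgHomClass.toStarAlgHom (α g)) '' (lift '' s)
  have hF : F.Countable := Set.countable_iUnion fun g => (hs.image _).image _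
  have hact : ∀ (g : G) (f : ℕ →ᵇ A) (b : Central A ω), cls ω f = b →
      cls ω (bmap (StarAlgHomClass.toStarAlgHom (α g)) f) = actC ω α g b := fun g f b h => by
    rw [← actU_cls, h, actC_val]
  have hFs : (fun f => cls ω f) '' F = (fun b : Central A ω => (b : Ultrapower A ω)) '' s := by
    ext x
    constructor
    · rintro ⟨f, hf, rfl⟩
      obtain ⟨g, _, ⟨b, hb, rfl⟩, rfl⟩ := Set.mem_iUnion.1 hf
      exact ⟨_, hst g b hb, (hact g _ b (hlift b)).symm⟩
    · rintro ⟨b, hb, rfl⟩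
      refine ⟨_, Set.mem_iUnion.2 ⟨1, _, ⟨b, hb, rfl⟩, rfl⟩, ?_⟩
      show cls ω _ = _
      rw [hact 1 _ b (hlift b), actC_one]
  obtain ⟨ρ, m, h1, h2, hsur, h3⟩ := exists_reindex_countable hω hF ht hFs
  refine ⟨ρ, h1, h2, fun g b c hc => Subtype.ext ?_⟩
  obtain ⟨l, hl, hlb⟩ := hsur b
  set β := StarAlgHomClass.toStarAlgHom (α g) with hβ
  have hmem : bmap β l ∈ StarAlgebra.adjoin ℂ F := by
    have : bmap β l ∈ (StarAlgebra.adjoin ℂ F).map (bmap β) := ⟨l, hl, rfl⟩
    rw [StarAlgHom.map_adjoin] at this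
    refine StarAlgebra.adjoin_le ?_ this
    rintro _ ⟨f, hf, rfl⟩
    obtain ⟨h, _, ⟨b₀, hb₀, rfl⟩, rfl⟩ := Set.mem_iUnion.1 hf
    refine StarAlgebra.subset_adjoin ℂ F (Set.mem_iUnion.2 ⟨g * h, _, ⟨b₀, hb₀, rfl⟩, ?_⟩)
    ext n
    simp [bmap_apply, hβ]
  rw [h3 c (bmap β l) hmem (by rw [hact g l b hlb, hc]), actC_val, h3 b l hl hlb, actU_cls]
  congr 1

end

end Vale.P095
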