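import Mathlib

/-!
# P095: tracial states and the Foelner condition
-/

namespace Vale.P095.Tracial

/-- A tracial state. -/
structure TracialState (A : Type*) [CStarAlgebra A] where
  /-- The underlying linear functional. -/
  toLin : A →ₗ[ℂ] ℂ
  map_one : toLin 1 = 1
  nonneg : ∀ x, 0 ≤ (toLin (star x * x)).re ∧ (toLin (star x * x)).im = 0
  tracial : ∀ x y, toLin (x * y) = toLin (y * x)

open scoped Classical in
/-- The (left) Følner condition. -/
def IsFolner (G : Type*) [Group G] : Prop :=
  ∀ S : Finset G, ∀ ε : ℝ, 0 < ε → ∃ F : Finset G, F.Nonempty ∧ ∀ g ∈ S,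
    (((F.image (g * ·)) \ F).card : ℝ) ≤ ε * F.card

end Vale.P095.Tracial
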