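import Vale.Agent.P095.Tracial.Weight

/-!
# P095 (tracial route): saturation

`u' = u + γ (1 - u²) X`: polynomial, so no square roots or absolute values are needed.
-/

set_option linter.unusedSectionVars false
set_option linter.unusedVariables false

namespace Vale.P095.Tracial

variable {B C : Type*} [CStarAlgebra B] [CStarAlgebra C]

/-- The saturation recursion. -/
noncomputable def sat (γ : ℝ) (π : ℕ → B →⋆ₐ[ℂ] C) (X : B) : ℕ → C
  | 0 => 0
  | m + 1 => sat γ π X m + γ • ((1 - sat γ π X m * sat γ π X m) * π m X)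

variable {γ : ℝ} {π : ℕ → B →⋆ₐ[ℂ] C} {X : B} {T : ℕ}

section Order

attribute [local instance] CStarAlgebra.spectralOrder CStarAlgebra.spectralOrderedRing

theorem norm_le_one_of_one_sub_one_add {u : C} (hu : IsSelfAdjoint u) (h1 : 0 ≤ 1 - u)
    (h2 : 0 ≤ 1 + u) : ‖u‖ ≤ 1 := by
  have hc : Commute (1 - u) (1 + u) :=
    ((Commute.one_left _).sub_left ((Commute.one_right u).add_right (Commute.refl u)))
  have h3 : 0 ≤ (1 - u) * (1 + u) := hc.mul_nonneg h1 h2
  have h4 : 0 ≤ star u * u := star_mul_self_nonneg u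
  have h5 : star u * u ≤ 1 := by
    rw [← sub_nonneg, hu.star_eq]
    rwa [show 1 - u * u = (1 - u) * (1 + u) by noncomm_ring]
  have h6 : ‖star u * u‖ ≤ 1 := (CStarAlgebra.norm_le_one_iff_of_nonneg _ h4).mpr h5
  rw [CStarRing.norm_star_mul_self] at h6
  nlinarith [norm_nonneg u]

theorem one_sub_nonneg_of_norm_le {u : C} (hu : IsSelfAdjoint u) (h : ‖u‖ ≤ 1) :
    0 ≤ 1 - u ∧ 0 ≤ 1 + u := by
  have key : ∀ v : C, IsSelfAdjoint v → ‖v‖ ≤ 1 → 0 ≤ 1 - v := by
    intro v hv hv1
    refine sub_nonneg.mpr (hv.le_algebraMap_norm_self.trans ?_)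
    simpa [Algebra.algebraMap_eq_smul_one] using
      smul_le_smul_of_nonneg_right hv1 (zero_le_one (α := C))
  exact ⟨key u hu h, by simpa using key (-u) hu.neg (by rwa [norm_neg])⟩

/-- One step stays a self-adjoint contraction. -/
theorem step_props {u Y : C} (hu : IsSelfAdjoint u) (hu1 : ‖u‖ ≤ 1) (hY : IsSelfAdjoint Y)
    (hY1 : ‖Y‖ ≤ 1 / 2) (hc : Commute u Y) :
    IsSelfAdjoint (u + (1 - u * u) * Y) ∧ ‖u + (1 - u * u) * Y‖ ≤ 1 := by
  rcases subsingleton_or_nontrivial C with _ | _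
  · exact ⟨Subsingleton.elim _ _, by simp [Subsingleton.elim (u + (1 - u * u) * Y) 0]⟩
  have hw : Commute (1 - u * u) Y := (Commute.one_left Y).sub_left (hc.mul_left hc)
  have hsa : IsSelfAdjoint (u + (1 - u * u) * Y) := by
    refine hu.add (IsSelfAdjoint.commute_iff ?_ hY |>.mp hw)
    exact (IsSelfAdjoint.one C).sub (by simpa [hu.star_eq] using IsSelfAdjoint.star_mul_self u)
  refine ⟨hsa, ?_⟩
  obtain ⟨hm, hp⟩ := one_sub_nonneg_of_norm_le hu hu1
  have hcu : Commute u ((1 + u) * Y) :=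
    (((Commute.one_right u).add_right (Commute.refl u)).mul_right hc)
  have hcu' : Commute u ((1 - u) * Y) :=
    (((Commute.one_right u).sub_right (Commute.refl u)).mul_right hc)
  have s1 : IsSelfAdjoint ((1 + u) * Y) :=
    (IsSelfAdjoint.commute_iff ((IsSelfAdjoint.one C).add hu) hY).mp
      ((Commute.one_left Y).add_left hc)
  have s2 : IsSelfAdjoint ((1 - u) * Y) :=
    (IsSelfAdjoint.commute_iff ((IsSelfAdjoint.one C).sub hu) hY).mp
      ((Commute.one_left Y).sub_left hc)
  have n1 : ‖(1 + u) * Y‖ ≤ 1 := by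
    refine (norm_mul_le _ _).trans ?_
    have := norm_add_le (1 : C) u
    rw [CStarRing.norm_one] at this
    nlinarith [norm_nonneg (1 + u), norm_nonneg Y]
  have n2 : ‖(1 - u) * Y‖ ≤ 1 := by
    refine (norm_mul_le _ _).trans ?_
    have := norm_sub_le (1 : C) u
    rw [CStarRing.norm_one] at this
    nlinarith [norm_nonneg (1 - u), norm_nonneg Y]
  have a1 := (one_sub_nonneg_of_norm_le s1 n1).1
  have a2 := (one_sub_nonneg_of_norm_le s2 n2).2
  refine norm_le_one_of_one_sub_one_add hsa ?_ ?_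
  · have h := Commute.mul_nonneg hm a1
      ((Commute.one_left _).sub_left ((Commute.one_right u).sub_right hcu))
    convert h using 1
    noncomm_ring
  · have h := Commute.mul_nonneg hp a2
      ((Commute.one_left _).add_left ((Commute.one_right u).add_right hcu'))
    convert h using 1
    noncomm_ring

/-- The basic invariant of the recursion. -/
theorem sat_inv (hγ : 0 ≤ γ) (hγX : γ * ‖X‖ ≤ 1 / 2) (hX : IsSelfAdjoint X)
    (hπ : ∀ i j, i < T → j < T → i ≠ j → ∀ a b, Commute (π i a) (π j b)) :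
    ∀ m, m ≤ T → IsSelfAdjoint (sat γ π X m) ∧ ‖sat γ π X m‖ ≤ 1 ∧
      ∀ j, m ≤ j → j < T → ∀ b, Commute (sat γ π X m) (π j b) := by
  intro m
  induction m with
  | zero => exact fun _ => ⟨IsSelfAdjoint.zero C, by simp [sat], fun _ _ _ b => Commute.zero_left _⟩
  | succ m ih =>
    intro hm
    obtain ⟨hu, hu1, huc⟩ := ih (Nat.le_of_succ_le hm)
    have hY : IsSelfAdjoint (γ • π m X) := (IsSelfAdjoint.all γ).smul (hX.map (π m))
    have hY1 : ‖γ • π m X‖ ≤ 1 / 2 := by
      rw [norm_smul, Real.norm_of_nonneg hγ]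
      exact (mul_le_mul_of_nonneg_left (NonUnitalStarAlgHom.norm_apply_le (π m) X) hγ).trans hγX
    have hc : Commute (sat γ π X m) (γ • π m X) := (huc m le_rfl (by omega) X).smul_right γ
    have he : sat γ π X (m + 1)
        = sat γ π X m + (1 - sat γ π X m * sat γ π X m) * (γ • π m X) := by
      rw [sat, mul_smul_comm]
    obtain ⟨h1, h2⟩ := step_props hu hu1 hY hY1 hc
    refine ⟨he ▸ h1, he ▸ h2, fun j hj hjT b => ?_⟩
    have hcb := huc j (by omega) hjT b
    rw [he]
    exact hcb.add_left (((Commute.one_left _).sub_left (hcb.mul_left hcb)).mul_left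
      ((hπ m j (by omega) hjT (by omega) X b).smul_left γ))

theorem sat_props (hγ : 0 < γ) (hγX : γ * ‖X‖ ≤ 1 / 2) (hX : IsSelfAdjoint X)
    (hπ : ∀ i j, i < T → j < T → i ≠ j → ∀ a b, Commute (π i a) (π j b)) :
    IsSelfAdjoint (sat γ π X T) ∧ ‖sat γ π X T‖ ≤ 1 := by
  obtain ⟨h1, h2, -⟩ := sat_inv hγ.le hγX hX hπ T le_rfl
  exact ⟨h1, h2⟩

theorem sat_balanced (hγ : 0 < γ) (hγX : γ * ‖X‖ ≤ 1 / 2) (hX : IsSelfAdjoint X)
    (hπ : ∀ i j, i < T → j < T → i ≠ j → ∀ a b, Commute (π i a) (π j b))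
    (hbal : ∀ t : B →ₗ[ℝ] ℝ, IsTrace t → t X = 0) (t : C →ₗ[ℝ] ℝ) (ht : IsTrace t) :
    t (sat γ π X T) = 0 := by
  suffices h : ∀ m, m ≤ T → t (sat γ π X m) = 0 from h T le_rfl
  intro m
  induction m with
  | zero => intro _; simp [sat]
  | succ m ih =>
    intro hm
    obtain ⟨-, -, huc⟩ := sat_inv hγ.le hγX hX hπ m (Nat.le_of_succ_le hm)
    have hM : ∀ b, Commute (1 - sat γ π X m * sat γ π X m) (π m b) := fun b =>
      (Commute.one_left _).sub_left ((huc m le_rfl (by omega) b).mul_left (huc m le_rfl (by omega) b))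
    rw [sat, map_add, map_smul, ht.balanced_mul (π m) hX hbal hM, ih (Nat.le_of_succ_le hm)]
    simp

/-- The scalar recursion behind the defect bound. -/
theorem defect_step {a D D' q s : ℝ} (ha : 0 ≤ a) (hD : 0 ≤ D) (hD' : 0 ≤ D') (hq : 0 ≤ q)
    (hs : 1 ≤ s) (h : D * s ≤ a) (h' : D' ≤ D) (hr : a * D' ≤ a * D - q * D ^ 2) :
    D' * (s + q) ≤ a := by
  rcases ha.eq_or_lt with rfl | ha'
  · have hD0 : D = 0 := by nlinarith
    have : D' = 0 := by linarith
    simp [this]
  · have key : (a * D - q * D ^ 2) * (s + q) ≤ a * a := by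
      rcases le_or_gt (q * D) a with hq' | hq'
      · nlinarith [mul_nonneg (sub_nonneg.mpr h) (sub_nonneg.mpr hq'), _root_.sq_nonneg (q * D)]
      · nlinarith [mul_nonneg (mul_nonneg hD (by linarith : (0:ℝ) ≤ s + q)) (sub_nonneg.mpr hq'.le)]
    nlinarith [mul_le_mul_of_nonneg_right hr (by linarith : (0:ℝ) ≤ s + q)]

theorem sat_defect {c : ℝ} (hc : 0 < c) (hγ : 0 < γ) (hγX : γ * ‖X‖ ≤ 1 / 2)
    (hX : IsSelfAdjoint X) (hT : 0 < T)
    (hπ : ∀ i j, i < T → j < T → i ≠ j → ∀ a b, Commute (π i a) (π j b))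
    (hbal : ∀ t : B →ₗ[ℝ] ℝ, IsTrace t → t X = 0)
    (hlow : ∀ t : B →ₗ[ℝ] ℝ, IsTrace t → c * t 1 ≤ t (X * X)) (t : C →ₗ[ℝ] ℝ) (ht : IsTrace t) :
    t (1 - sat γ π X T * sat γ π X T) ≤ 4 / (c * γ ^ 2 * T) * t 1 := by
  have ha : 0 ≤ t 1 := ht.one_nonneg
  have hnn : ∀ m, m ≤ T → 0 ≤ 1 - sat γ π X m * sat γ π X m := by
    intro m hm
    obtain ⟨hu, hu1, -⟩ := sat_inv hγ.le hγX hX hπ m hm
    obtain ⟨h1, h2⟩ := one_sub_nonneg_of_norm_le hu hu1
    have h := Commute.mul_nonneg h1 h2
      ((Commute.one_left _).sub_left ((Commute.one_right _).add_right (Commute.refl _)))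
    convert h using 1
    noncomm_ring
  have main : ∀ m, m ≤ T →
      t (1 - sat γ π X m * sat γ π X m) * (1 + c * γ ^ 2 * m) ≤ t 1 := by
    intro m
    induction m with
    | zero => intro _; simp [sat]
    | succ m ih =>
      intro hm
      have hm' : m ≤ T := Nat.le_of_succ_le hm
      obtain ⟨hu, hu1, huc⟩ := sat_inv hγ.le hγX hX hπ m hm'
      set u := sat γ π X m with hu_def
      set k : C := 1 - u * u with hk_def
      set Y : C := π m X with hY_def
      have hk0 : 0 ≤ k := hnn m hm'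
      have hks : star k = k := hk0.isSelfAdjoint.star_eq
      have hkc : ∀ b, Commute k (π m b) := fun b =>
        (Commute.one_left _).sub_left
          ((huc m le_rfl (by omega) b).mul_left (huc m le_rfl (by omega) b))
      have h1 : t ((k * u + u * k) * Y) = 0 :=
        ht.balanced_mul (π m) hX hbal fun b =>
          ((hkc b).mul_left (huc m le_rfl (by omega) b)).add_left
            ((huc m le_rfl (by omega) b).mul_left (hkc b))
      have h2 : c * t (k * k) ≤ t (k * k * (Y * Y)) := by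
        have h := hlow _ (ht.weight (π m) hkc)
        rw [weightLin_apply, weightLin_apply, map_one (π m), mul_one, hks, map_mul (π m), ← hY_def] at h
        refine h.trans_eq (congrArg t ?_)
        rw [mul_assoc k (Y * Y), ← ((hkc X).mul_right (hkc X)).eq, ← mul_assoc]
      have hcu : Commute u Y := huc m le_rfl (by omega) X
      have hck : Commute k Y := hkc X
      have e : (u + γ • (k * Y)) * (u + γ • (k * Y))
          = u * u + γ • ((k * u + u * k) * Y) + (γ * γ) • (k * k * (Y * Y)) := by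
        have e1 : k * Y * u = k * u * Y := by rw [mul_assoc, ← hcu.eq, ← mul_assoc]
        have e2 : k * Y * (k * Y) = k * k * (Y * Y) := by
          rw [mul_assoc, ← mul_assoc Y, ← hck.eq, mul_assoc, ← mul_assoc k k]
        simp only [add_mul, mul_add, smul_mul_assoc, mul_smul_comm, smul_smul, e1, e2, smul_add]
        simp only [← mul_assoc]
        abel
      set D := t k with hD_def
      set D' := t (1 - sat γ π X (m + 1) * sat γ π X (m + 1)) with hD'_def
      have hrec : D' ≤ D - γ ^ 2 * c * t (k * k) := by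
        have hD2 : D' = D - γ * γ * t (k * k * (Y * Y)) := by
          rw [hD'_def, sat, ← hu_def, ← hk_def, ← hY_def, e, hD_def, hk_def]
          simp only [map_sub, map_add, map_smul, smul_eq_mul]
          rw [← hk_def, h1]
          ring
        rw [hD2]
        nlinarith [mul_le_mul_of_nonneg_left h2 (mul_self_nonneg γ)]
      have hD0 : 0 ≤ D := ht.of_nonneg hk0
      have hkk : 0 ≤ t (k * k) := ht.sq_nonneg hk0.isSelfAdjoint
      have hcs : D ^ 2 ≤ t 1 * t (k * k) := by
        simpa using ht.cauchy_schwarz_sa (IsSelfAdjoint.one C) hk0.isSelfAdjoint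
      have hq : 0 ≤ c * γ ^ 2 := by positivity
      have hs : (1 : ℝ) ≤ 1 + c * γ ^ 2 * m := le_add_of_nonneg_right (by positivity)
      have h := defect_step ha hD0 (ht.of_nonneg (hnn (m + 1) hm)) hq hs (ih hm')
        (by nlinarith) (by nlinarith [mul_le_mul_of_nonneg_left hrec ha, mul_le_mul_of_nonneg_left hcs hq])
      refine le_trans (le_of_eq ?_) h
      push_cast
      ring
  have hpos : 0 < c * γ ^ 2 * T := by positivity
  have h := main T le_rfl
  have h0 := ht.of_nonneg (hnn T le_rfl)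
  rw [div_mul_eq_mul_div, le_div_iff₀ hpos]
  nlinarith

/-- The recursion commutes with homomorphisms. -/
theorem map_sat (φ : B →⋆ₐ[ℂ] B) (φ' : C →⋆ₐ[ℂ] C)
    (heq : ∀ i, i < T → ∀ b, φ' (π i b) = π i (φ b)) :
    ∀ m, m ≤ T → φ' (sat γ π X m) = sat γ π (φ X) m := by
  intro m
  induction m with
  | zero => intro _; simp [sat]
  | succ m ih =>
    intro hm
    have hs : φ' (γ • ((1 - sat γ π X m * sat γ π X m) * π m X))
        = γ • φ' ((1 - sat γ π X m * sat γ π X m) * π m X) :=
      (φ'.toAlgHom.toLinearMap.restrictScalars ℝ).map_smul γ _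
    rw [sat, sat, map_add, hs, map_mul, map_sub, map_one, map_mul, ih (Nat.le_of_succ_le hm),
      heq m (by omega)]

theorem sat_stable {K e : ℝ} (he : 0 ≤ e) (hK : 0 ≤ K) (hγ : 0 < γ) (hγX : γ * ‖X‖ ≤ 1 / 2)
    (hX : IsSelfAdjoint X)
    (hπ : ∀ i j, i < T → j < T → i ≠ j → ∀ a b, Commute (π i a) (π j b))
    (hbal : ∀ t : B →ₗ[ℝ] ℝ, IsTrace t → t X = 0)
    (hup : ∀ t : B →ₗ[ℝ] ℝ, IsTrace t → t (X * X) ≤ K * t 1)
    (φ : B →⋆ₐ[ℂ] B) (φ' : C →⋆ₐ[ℂ] C) (heq : ∀ i, i < T → ∀ b, φ' (π i b) = π i (φ b))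
    (hst : ∀ t : B →ₗ[ℝ] ℝ, IsTrace t → t ((φ X - X) * (φ X - X)) ≤ e * t 1)
    (t : C →ₗ[ℝ] ℝ) (ht : IsTrace t) :
    t ((φ' (sat γ π X T) - sat γ π X T) * (φ' (sat γ π X T) - sat γ π X T)) ≤
      Real.exp (16 * K * γ ^ 2 * T) * (16 * γ ^ 2 * T * e) * t 1 := by
  have hX' : IsSelfAdjoint (φ X) := hX.map φ
  have hγX' : γ * ‖φ X‖ ≤ 1 / 2 :=
    (mul_le_mul_of_nonneg_left (NonUnitalStarAlgHom.norm_apply_le φ X) hγ.le).trans hγX
  have hbal' : ∀ t' : B →ₗ[ℝ] ℝ, IsTrace t' → t' (φ X) = 0 := fun t' h => hbal _ (h.pull φ)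
  have hup' : ∀ t' : B →ₗ[ℝ] ℝ, IsTrace t' → t' (φ X * φ X) ≤ K * t' 1 := fun t' h => by
    simpa [pullLin_apply] using hup _ (h.pull φ)
  have hX'' : IsSelfAdjoint (φ X - X) := hX'.sub hX
  have hbal'' : ∀ t' : B →ₗ[ℝ] ℝ, IsTrace t' → t' (φ X - X) = 0 := fun t' h => by
    rw [map_sub, hbal' t' h, hbal t' h, sub_zero]
  have ha : 0 ≤ t 1 := ht.one_nonneg
  rw [map_sat φ φ' heq T le_rfl]
  suffices h : ∀ m, m ≤ T →
      t ((sat γ π (φ X) m - sat γ π X m) * (sat γ π (φ X) m - sat γ π X m)) ≤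
        Real.exp (8 * K * γ ^ 2 * m) * (2 * γ ^ 2 * m * e) * t 1 by
    refine (h T le_rfl).trans (mul_le_mul_of_nonneg_right ?_ ha)
    exact mul_le_mul (Real.exp_le_exp.mpr (by nlinarith [mul_nonneg (mul_nonneg hK (sq_nonneg γ)) (Nat.cast_nonneg (α := ℝ) T)]))
      (by nlinarith [mul_nonneg (mul_nonneg (sq_nonneg γ) (Nat.cast_nonneg (α := ℝ) T)) he])
      (by positivity) (Real.exp_pos _).le
  intro m
  induction m with
  | zero => intro _; simp [sat]
  | succ m ih =>
    intro hm
    have hm' : m ≤ T := Nat.le_of_succ_le hm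
    obtain ⟨hu, hu1, huc⟩ := sat_inv hγ.le hγX hX hπ m hm'
    obtain ⟨hv, hv1, hvc⟩ := sat_inv hγ.le hγX' hX' hπ m hm'
    set u := sat γ π X m with hu_def
    set v := sat γ π (φ X) m with hv_def
    set w : C := u * u - v * v with hw_def
    set k : C := 1 - u * u with hk_def
    set Δ : C := v - u with hΔ_def
    set Y' : C := π m (φ X) with hY'_def
    set Z : C := π m (φ X - X) with hZ_def
    have hsq : ∀ x : C, IsSelfAdjoint x → IsSelfAdjoint (x * x) := fun x hx => by
      simpa [hx.star_eq] using IsSelfAdjoint.star_mul_self x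
    have hws : IsSelfAdjoint w := (hsq u hu).sub (hsq v hv)
    have hks : IsSelfAdjoint k := (IsSelfAdjoint.one C).sub (hsq u hu)
    have hΔs : IsSelfAdjoint Δ := hv.sub hu
    have hcu := fun b => huc m le_rfl (by omega) b
    have hcv := fun b => hvc m le_rfl (by omega) b
    have hwc : ∀ b, Commute w (π m b) := fun b =>
      ((hcu b).mul_left (hcu b)).sub_left ((hcv b).mul_left (hcv b))
    have hkc : ∀ b, Commute k (π m b) := fun b =>
      (Commute.one_left _).sub_left ((hcu b).mul_left (hcu b))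
    have hΔc : ∀ b, Commute Δ (π m b) := fun b => (hcv b).sub_left (hcu b)
    set G : C := w * Y' + k * Z with hG_def
    have hstep : sat γ π (φ X) (m + 1) - sat γ π X (m + 1) = Δ + γ • G := by
      rw [sat, sat, ← hu_def, ← hv_def, hG_def, hΔ_def, hw_def, hk_def, hZ_def, map_sub]
      rw [add_sub_add_comm, ← smul_sub]
      congr 2
      simp only [sub_mul, mul_sub, one_mul]
      abel
    have c1 : t (Δ * G) = 0 := by
      rw [hG_def, mul_add, map_add, ← mul_assoc, ← mul_assoc,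
        ht.balanced_mul (π m) hX' hbal' (fun b => (hΔc b).mul_left (hwc b)),
        ht.balanced_mul (π m) hX'' hbal'' (fun b => (hΔc b).mul_left (hkc b)), add_zero]
    have c2 : t (G * Δ) = 0 := by rw [ht.comm, c1]
    have s1 : IsSelfAdjoint (w * Y') :=
      (IsSelfAdjoint.commute_iff hws (hX'.map (π m))).mp (hwc _)
    have s2 : IsSelfAdjoint (k * Z) :=
      (IsSelfAdjoint.commute_iff hks (hX''.map (π m))).mp (hkc _)
    have hww : t (w * Y' * (w * Y')) ≤ K * t (w * w) := by
      have h := hup' _ (ht.weight (π m) hwc)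
      rw [weightLin_apply, weightLin_apply, map_one (π m), mul_one, hws.star_eq, map_mul (π m),
        ← hY'_def] at h
      refine le_trans (le_of_eq (congrArg t ?_)) h
      rw [show w * Y' * (w * Y') = w * (Y' * w) * Y' by simp only [mul_assoc],
        show w * (Y' * Y') * w = w * Y' * (Y' * w) by simp only [mul_assoc],
        hY'_def, ← (hwc (φ X)).eq]
      simp only [mul_assoc]
      rw [← mul_assoc (π m (φ X)) w, ← (hwc (φ X)).eq, mul_assoc]
    have hkk : t (k * Z * (k * Z)) ≤ e * t (k * k) := by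
      have h := hst _ (ht.weight (π m) hkc)
      rw [weightLin_apply, weightLin_apply, map_one (π m), mul_one, hks.star_eq, map_mul (π m),
        ← hZ_def] at h
      refine le_trans (le_of_eq (congrArg t ?_)) h
      rw [hZ_def]
      simp only [mul_assoc]
      rw [← (hkc (φ X - X)).eq]
    have hk1 : t (k * k) ≤ t 1 := by
      obtain ⟨h1, h2⟩ := one_sub_nonneg_of_norm_le hu hu1
      have hk0 : 0 ≤ k := by
        have h := Commute.mul_nonneg h1 h2
          ((Commute.one_left _).sub_left ((Commute.one_right _).add_right (Commute.refl _)))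
        convert h using 1
        rw [hk_def]; noncomm_ring
      have hk1' : k ≤ 1 := sub_le_self _ (by simpa [hu.star_eq] using star_mul_self_nonneg u)
      calc t (k * k) ≤ t (1 * k) := ht.mul_le_mul_left hk1' hk0
        _ ≤ t 1 := by rw [one_mul]; exact ht.mono hk1'
    have hw2 : t (w * w) ≤ 4 * t (Δ * Δ) := by
      have hwe : -w = v * Δ + Δ * u := by rw [hw_def, hΔ_def]; noncomm_ring
      have h := ht.add_mul_self_le (v * Δ) (Δ * u)
      rw [← hwe, star_neg, neg_mul_neg, hws.star_eq] at h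
      have b1 : t (star (v * Δ) * (v * Δ)) ≤ t (Δ * Δ) := by
        have h' := ht.conj_le (hsq v hv) Δ
        rw [hΔs.star_eq] at h'
        rw [star_mul, hv.star_eq, hΔs.star_eq]
        refine (le_of_eq (by simp only [mul_assoc])).trans (h'.trans ?_)
        refine mul_le_of_le_one_left (ht.sq_nonneg hΔs) ((norm_mul_le _ _).trans ?_)
        nlinarith [norm_nonneg v]
      have b2 : t (star (Δ * u) * (Δ * u)) ≤ t (Δ * Δ) := by
        have h' := ht.conj_le (hsq u hu) Δ
        rw [hΔs.star_eq] at h'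
        rw [star_mul, hu.star_eq, hΔs.star_eq, ← mul_assoc, ht.comm]
        simp only [← mul_assoc]
        rw [show t (u * u * Δ * Δ) = t (Δ * (u * u) * Δ) by
          rw [ht.comm (u * u * Δ) Δ]; simp only [mul_assoc]]
        refine h'.trans ?_
        refine mul_le_of_le_one_left (ht.sq_nonneg hΔs) ((norm_mul_le _ _).trans ?_)
        nlinarith [norm_nonneg u]
      linarith
    have hG2 : t (G * G) ≤ 8 * K * t (Δ * Δ) + 2 * e * t 1 := by
      have h := ht.add_sq_le s1 s2
      rw [← hG_def] at h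
      have := mul_le_mul_of_nonneg_left hw2 hK
      have := mul_le_mul_of_nonneg_left hk1 he
      linarith
    rw [hstep]
    have hexp : Real.exp (8 * K * γ ^ 2 * (m + 1 : ℕ))
        = Real.exp (8 * K * γ ^ 2 * m) * Real.exp (8 * K * γ ^ 2) := by
      rw [← Real.exp_add]; push_cast; ring_nf
    rw [hexp]
    simp only [add_mul, mul_add, smul_mul_assoc, mul_smul_comm, map_add, map_smul,
      smul_eq_mul, c1, c2]
    have ihh := ih hm'
    have h0 := ht.sq_nonneg hΔs
    set x := 8 * K * γ ^ 2 with hx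
    set E := Real.exp (x * m)
    have hx0 : 0 ≤ x := by positivity
    have h1x : 1 + x ≤ Real.exp x := by linarith [Real.add_one_le_exp x]
    have hE : 1 ≤ E := Real.one_le_exp (by positivity)
    have hEx : 1 ≤ Real.exp x := Real.one_le_exp hx0
    have hb : 0 ≤ E * (2 * γ ^ 2 * m * e) * t 1 := by positivity
    have p1 := mul_le_mul_of_nonneg_left hG2 (mul_self_nonneg γ)
    have p2 : (1 + x) * t (Δ * Δ) ≤ Real.exp x * (E * (2 * γ ^ 2 * m * e) * t 1) :=
      mul_le_mul h1x ihh h0 (Real.exp_pos _).le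
    have p3 : 2 * γ ^ 2 * e * t 1 ≤ E * Real.exp x * (2 * γ ^ 2 * e * t 1) :=
      le_mul_of_one_le_left (by positivity) (one_le_mul_of_one_le_of_one_le hE hEx)
    push_cast
    nlinarith [p1, p2, p3]

end Order

end Vale.P095.Tracial
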