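import Vale.Agent.P095.Tracial.Copies
import Vale.Agent.P095.Tracial.Saturate

/-!
# P095 (tracial route): the payload

A central sequence algebra without characters contains, inside a closed separable invariant
subalgebra, self-adjoint contractions which every trace of that subalgebra kills and which are
approximate symmetries for every trace of that subalgebra.
-/

open Vale.P101

namespace Vale.P095.Tracial

variable {G : Type*} [Group G] {A : Type*} [CStarAlgebra A] {ω : Ultrafilter ℕ}

/-- A countable set lies in a closed separable star subalgebra invariant under a countable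
semigroup of endomorphisms. -/
theorem exists_invariant_subalgebra {E : Type*} [CStarAlgebra E] (f : G → (E →⋆ₐ[ℂ] E)) [Countable G]
    (hf : ∀ g h x, f (g * h) x = f g (f h x)) (hf1 : ∀ x, f 1 x = x) (P : Set E) (hP : P.Countable) :
    ∃ S : StarSubalgebra ℂ E, IsClosed (S : Set E) ∧ TopologicalSpace.IsSeparable (S : Set E) ∧
      (∀ g, ∀ x ∈ S, f g x ∈ S) ∧ P ⊆ (S : Set E) := by
  set gens : Set E := ⋃ g : G, f g '' P with hgens
  have hc : gens.Countable := Set.countable_iUnion fun g => hP.image _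
  set S₀ : StarSubalgebra ℂ E := StarAlgebra.adjoin ℂ gens with hS₀
  have hinv₀ : ∀ g, ∀ x ∈ S₀, f g x ∈ S₀ := by
    intro g x hx
    have h : S₀ ≤ S₀.comap (f g) := by
      refine StarAlgebra.adjoin_le ?_
      intro y hy
      obtain ⟨g', p, hp, rfl⟩ := Set.mem_iUnion.1 hy
      show f g (f g' p) ∈ S₀
      rw [← hf]
      exact StarAlgebra.subset_adjoin ℂ _ (Set.mem_iUnion.2 ⟨g * g', p, hp, rfl⟩)
    exact h hx
  refine ⟨S₀.topologicalClosure, S₀.isClosed_topologicalClosure, ?_, ?_, ?_⟩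
  · rw [StarSubalgebra.topologicalClosure_coe]
    exact (isSeparable_adjoin hc).closure
  · intro g x hx
    rw [← SetLike.mem_coe, StarSubalgebra.topologicalClosure_coe] at hx ⊢
    exact map_mem_closure (AddMonoidHomClass.continuous_of_bound (f g) 1 fun z => by
      rw [one_mul]; exact NonUnitalStarAlgHom.norm_apply_le (f g) z) hx (hinv₀ g)
  · intro p hp
    exact S₀.le_topologicalClosure
      (StarAlgebra.subset_adjoin ℂ _ (Set.mem_iUnion.2 ⟨1, p, hp, hf1 p⟩))

/-- A countable set lies in a closed separable invariant subalgebra. -/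
theorem exists_sub_of_countable (α : G →* (A ≃⋆ₐ[ℂ] A)) [Countable G] (P : Set (FOmega A ω))
    (hP : P.Countable) : ∃ S : Sub α ω, P ⊆ (S.S : Set (FOmega A ω)) := by
  obtain ⟨S, hcl, hsep, hinv, hPS⟩ :=
    exists_invariant_subalgebra (act α (ω := ω)) (act_mul α) (act_one α) P hP
  exact ⟨⟨S, hcl, hsep, hinv⟩, hPS⟩

/-- A full square-zero element gives a balanced element which is bounded below in every trace. -/
theorem exists_balanced {B : Type*} [CStarAlgebra B] {n : ℕ} {y : B} {u v : Fin n → B}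
    (hy : y * y = 0) (hsum : ∑ i, u i * y * v i = 1) :
    ∃ X : B, IsSelfAdjoint X ∧ ∃ c : ℝ, 0 < c ∧
      ∀ t : B →ₗ[ℝ] ℝ, IsTrace t → t X = 0 ∧ c * t 1 ≤ t (X * X) := by
  let _ := CStarAlgebra.spectralOrder B
  have _ := CStarAlgebra.spectralOrderedRing B
  set a : B := star y * y with ha
  set b : B := y * star y with hb
  set w : B := ∑ i, v i * u i with hw
  set k : ℝ := ‖w * star w‖ + 1 with hk
  have hk0 : 0 < k := by positivity
  refine ⟨a - b, (IsSelfAdjoint.star_mul_self y).sub (IsSelfAdjoint.mul_star_self y), 2 / k ^ 2,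
    by positivity, fun t ht => ⟨by rw [map_sub, ha, hb, ht.comm, sub_self], ?_⟩⟩
  have hba : b * a = y * (star y * star y) * y := by rw [ha, hb]; simp only [mul_assoc]
  have hab : a * b = star y * (y * y) * star y := by rw [ha, hb]; simp only [mul_assoc]
  have hyy : star y * star y = 0 := by rw [← star_mul, hy, star_zero]
  have hXX : t ((a - b) * (a - b)) = 2 * t (a * a) := by
    have hbb : t (b * b) = t (a * a) := by
      rw [show b * b = y * (star y * y * star y) by rw [hb]; simp only [mul_assoc], ht.comm]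
      congr 1
      rw [ha]; simp only [mul_assoc]
    simp only [sub_mul, mul_sub, map_sub, hab, hba, hy, hyy, mul_zero, zero_mul, map_zero, hbb]
    ring
  have h1 : t 1 = t (w * y) := by
    rw [← hsum, hw, Finset.sum_mul, map_sum, map_sum]
    exact Finset.sum_congr rfl fun i _ => by rw [ht.comm, mul_assoc]
  have hcs : t 1 ^ 2 ≤ k * t 1 * t a := by
    have h := ht.cauchy_schwarz (star w) y
    rw [star_star, ← h1] at h
    refine h.trans (mul_le_mul_of_nonneg_right ?_ (ht.nonneg y))
    have hwle := ht.mono (IsSelfAdjoint.mul_star_self w).le_algebraMap_norm_self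
    rw [Algebra.algebraMap_eq_smul_one, map_smul, smul_eq_mul] at hwle
    exact hwle.trans (mul_le_mul_of_nonneg_right (by linarith) ht.one_nonneg)
  have hcs' : t a ^ 2 ≤ t (a * a) * t 1 := by
    simpa using ht.cauchy_schwarz_sa (IsSelfAdjoint.star_mul_self y) (IsSelfAdjoint.one B)
  rw [hXX]
  rcases ht.one_nonneg.eq_or_lt with h0 | h0
  · rw [← h0, mul_zero]
    exact mul_nonneg zero_le_two (ht.sq_nonneg (IsSelfAdjoint.star_mul_self y))
  · have hta : t 1 ≤ k * t a := by nlinarith
    have : t 1 ≤ k ^ 2 * t (a * a) := by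
      have := pow_le_pow_left₀ h0.le hta 2
      nlinarith [mul_le_mul_of_nonneg_left hcs' (sq_nonneg k)]
    rw [div_mul_eq_mul_div, div_le_iff₀ (by positivity)]
    nlinarith

/-- The payload: a balanced approximate symmetry. -/
theorem exists_payload (α : G →* (A ≃⋆ₐ[ℂ] A)) [Countable G] [TopologicalSpace.SeparableSpace A]
    (hω : (ω : Filter ℕ) ≤ Filter.cofinite) (h : NoCharacters (FOmega A ω)) {δ : ℝ}
    (hδ : 0 < δ) :
    ∃ (S : Sub α ω) (s : S.S), IsSelfAdjoint s ∧ ‖s‖ ≤ 1 ∧
      ∀ t : S.S →ₗ[ℝ] ℝ, IsTrace t → t s = 0 ∧ t (1 - s * s) ≤ δ * t 1 := by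
  have hfull : Full (commSet (FOmega A ω)) := full_commSet ⟨fun χ => by
    have := congrArg (fun f : FOmega A ω →⋆ₙₐ[ℂ] ℂ => f 1) (h χ.toNonUnitalStarAlgHom)
    exact one_ne_zero ((map_one χ).symm.trans this)⟩
  obtain ⟨y, hy, hfy⟩ := exists_full_square_zero (copyProp_central ω hω) hfull
  obtain ⟨n, u, c, v, hc, hsum⟩ := Full.exists_sum hfy
  obtain ⟨S, hS⟩ := exists_sub_of_countable α ({y} ∪ Set.range u ∪ Set.range v)
    (((Set.finite_singleton y).union (Set.finite_range u)).union (Set.finite_range v)).countable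
  let y' : S.S := ⟨y, hS (Or.inl (Or.inl rfl))⟩
  let u' : Fin n → S.S := fun i => ⟨u i, hS (Or.inl (Or.inr ⟨i, rfl⟩))⟩
  let v' : Fin n → S.S := fun i => ⟨v i, hS (Or.inr ⟨i, rfl⟩)⟩
  obtain ⟨X, hX, c₀, hc₀, hXt⟩ := exists_balanced (y := y') (u := u') (v := v')
    (Subtype.ext hy) (Subtype.ext (by
      simp only [AddSubmonoidClass.coe_finsetSum, OneMemClass.coe_one, MulMemClass.coe_mul, u', v',
        y']
      simp only [Set.mem_singleton_iff] at hc
      simp only [hc] at hsum
      exact hsum))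
  set γ : ℝ := 1 / (2 * (‖X‖ + 1)) with hγ
  have hγ0 : 0 < γ := by positivity
  have hγX : γ * ‖X‖ ≤ 1 / 2 := by
    rw [hγ, div_mul_eq_mul_div, one_mul, div_le_iff₀ (by positivity)]
    linarith [norm_nonneg X]
  obtain ⟨T, hT⟩ := exists_nat_gt (4 / (c₀ * γ ^ 2 * δ))
  have hT0 : 0 < T := by
    have h4 : (0 : ℝ) < 4 / (c₀ * γ ^ 2 * δ) := by positivity
    exact_mod_cast h4.trans hT
  obtain ⟨S', π, hπ, -⟩ := exists_copies hω S (Fin T)
  let π' : ℕ → (S.S →⋆ₐ[ℂ] S'.S) := fun i => if hi : i < T then π ⟨i, hi⟩ else π ⟨0, hT0⟩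
  have hπ' : ∀ i j, i < T → j < T → i ≠ j → ∀ a b, Commute (π' i a) (π' j b) := by
    intro i j hi hj hij a b
    simp only [π', dif_pos hi, dif_pos hj]
    exact hπ _ _ (fun he => hij (Fin.mk.inj he)) a b
  have hbal : ∀ t : S.S →ₗ[ℝ] ℝ, IsTrace t → t X = 0 := fun t ht => (hXt t ht).1
  obtain ⟨hs, hs1⟩ := sat_props hγ0 hγX hX hπ'
  refine ⟨S', sat γ π' X T, hs, hs1, fun t ht => ⟨sat_balanced hγ0 hγX hX hπ' hbal t ht, ?_⟩⟩
  refine (sat_defect hc₀ hγ0 hγX hX hT0 hπ' hbal (fun τ hτ => (hXt τ hτ).2) t ht).trans ?_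
  let _ := CStarAlgebra.spectralOrder S'.S
  have _ := CStarAlgebra.spectralOrderedRing S'.S
  refine mul_le_mul_of_nonneg_right ?_ ht.one_nonneg
  rw [div_lt_iff₀ (by positivity)] at hT
  rw [div_le_iff₀ (by positivity)]
  nlinarith

end Vale.P095.Tracial
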