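import Vale.Agent.P095.Tracial.Compress

/-!
# P095 (tracial route): trace bounds for the compression
-/

open scoped CStarAlgebra

set_option linter.unusedSectionVars false

namespace Vale.P095

open Tracial (oddRoot oddSqrt IsTrace)

variable {E : Type*} [CStarAlgebra E] [PartialOrder E] [StarOrderedRing E]
variable {ι : Type*} [Fintype ι] [DecidableEq ι] {τ : E →ₗ[ℝ] ℝ}

/-- `τ (M a a * M a a) ≤ Tr τ (M* M)`. -/
theorem entry_sq_le {κ : Type*} [Fintype κ] [DecidableEq κ] (hτ : IsTrace τ)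
    (M : CStarMatrix κ κ E) (a : κ) :
    τ (star (M a a) * M a a) ≤ matTrace τ (star M * M) := by
  have hsum : ∀ b, τ ((star M * M) b b) = ∑ c, τ (star (M c b) * M c b) := fun b => by
    simp [CStarMatrix.mul_apply, CStarMatrix.star_apply]
  rw [matTrace_apply]
  have h2 : τ (star (M a a) * M a a) ≤ τ ((star M * M) a a) := by
    rw [hsum]
    exact Finset.single_le_sum (f := fun c => τ (star (M c a) * M c a))
      (fun c _ => hτ.nonneg _) (Finset.mem_univ a)
  refine h2.trans (Finset.single_le_sum (f := fun b => τ ((star M * M) b b)) (fun b _ => ?_)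
    (Finset.mem_univ a))
  rw [hsum]
  exact Finset.sum_nonneg fun c _ => hτ.nonneg _

theorem matTrace_dil_sq (hτ : IsTrace τ) (v : ι → E) :
    matTrace τ (dil v * dil v) = 2 * τ (colSq v) := by
  have h2 : ∑ i, τ (v i * star (v i)) = τ (colSq v) := by
    simp [colSq, hτ.comm (v _)]
  rw [matTrace_apply, Fintype.sum_option]
  simp only [CStarMatrix.mul_apply, Fintype.sum_option, dil_none_none, dil_none_some,
    dil_some_none, dil_some_some, mul_zero, zero_add, Finset.sum_const_zero, add_zero]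
  rw [h2, show ∑ i, star (v i) * v i = colSq v from rfl]
  ring

theorem oddRoot_sq_sq (v : ι → E) :
    oddSqrt (dil v) * oddSqrt (dil v) * (oddSqrt (dil v) * oddSqrt (dil v)) = dil v * dil v := by
  rw [← Tracial.oddSqrt_pow_four (dil v) (dil_isSelfAdjoint v)]
  simp [pow_succ, mul_assoc]

theorem oddSqrt_dil_eq (v : ι → E) : cfc oddRoot (dil v) = oddSqrt (dil v) := rfl

theorem one_sub_sgnMat_sq {σ : ι → ℝ} (hσ : ∀ i, σ i * σ i = 1) :
    (1 : CStarMatrix (Option ι) (Option ι) E) - sgnMat σ * sgnMat σ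
      = star (CStarMatrix.ofMatrix (Matrix.single none none 1))
        * CStarMatrix.ofMatrix (Matrix.single none none 1) := by
  refine CStarMatrix.ext fun p q => ?_
  rcases p with _ | i <;> rcases q with _ | j <;>
    simp [CStarMatrix.mul_apply, CStarMatrix.star_apply, Fintype.sum_option,
      CStarMatrix.one_apply, Matrix.single_apply]
  by_cases h : i = j
  · subst h; simp [smul_smul, hσ]
  · simp [h]

theorem sgnMat_sq_le_one {σ : ι → ℝ} (hσ : ∀ i, σ i * σ i = 1) :
    (sgnMat σ * sgnMat σ : CStarMatrix (Option ι) (Option ι) E) ≤ 1 := by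
  rw [← sub_nonneg, one_sub_sgnMat_sq hσ]
  exact star_mul_self_nonneg _

/-- UPPER: `τ (A A) ≤ τ c`. -/
theorem comp_sq_le (hτ : IsTrace τ) (v : ι → E) {σ : ι → ℝ} (hσ : ∀ i, σ i * σ i = 1) :
    τ (comp v σ * comp v σ) ≤ τ (colSq v) := by
  have hm := isTrace_matTrace (κ := Option ι) hτ
  set S : CStarMatrix (Option ι) (Option ι) E := sgnMat σ
  set q := oddSqrt (dil v) * oddSqrt (dil v)
  have hf : IsSelfAdjoint (oddSqrt (dil v)) := Tracial.oddSqrt_isSelfAdjoint _
  have hS : IsSelfAdjoint S := sgnMat_isSelfAdjoint σ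
  have hq : IsSelfAdjoint q := hf.commute_iff hf |>.1 rfl
  have hnf : matTrace τ (S * q * (S * q)) ≤ matTrace τ (S * S * (q * q)) := by
    have h := hm.nonneg (S * q - q * S)
    simp only [star_sub, star_mul, hS.star_eq, hq.star_eq, sub_mul, mul_sub, map_sub] at h
    have h1 : matTrace τ (q * S * (q * S)) = matTrace τ (S * q * (S * q)) := by
      rw [mul_assoc q S, hm.comm q]; simp only [mul_assoc]
    have h2 : matTrace τ (q * S * (S * q)) = matTrace τ (S * S * (q * q)) := by
      rw [mul_assoc q S, hm.comm q]; simp only [mul_assoc]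
    have h3 : matTrace τ (S * q * (q * S)) = matTrace τ (S * S * (q * q)) := by
      rw [← mul_assoc (S * q), hm.comm _ S]; simp only [mul_assoc]
    linarith
  have h := entry_sq_le hτ (oddSqrt (dil v) * S * oddSqrt (dil v)) none
  rw [show star (oddSqrt (dil v) * S * oddSqrt (dil v)) * (oddSqrt (dil v) * S * oddSqrt (dil v))
      = oddSqrt (dil v) * S * oddSqrt (dil v) * (oddSqrt (dil v) * S * oddSqrt (dil v)) by
    simp [hS.star_eq, hf.star_eq, mul_assoc],
    show (oddSqrt (dil v) * S * oddSqrt (dil v)) none none = comp v σ from rfl,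
    (comp_isSelfAdjoint v σ).star_eq] at h
  refine h.trans ?_
  calc matTrace τ (oddSqrt (dil v) * S * oddSqrt (dil v) * (oddSqrt (dil v) * S * oddSqrt (dil v)))
      = matTrace τ (S * q * (S * q)) := by
        rw [mul_assoc (oddSqrt (dil v)) S, mul_assoc (oddSqrt (dil v)) (S * oddSqrt (dil v)),
          hm.comm (oddSqrt (dil v))]
        simp only [q, mul_assoc]
    _ ≤ matTrace τ (S * S * (q * q)) := hnf
    _ = τ (colSq v) := by
        rw [oddRoot_sq_sq, matTrace_apply, Fintype.sum_option]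
        simp [S, CStarMatrix.mul_apply, Fintype.sum_option, colSq, hτ.comm (v _), hσ, smul_smul,
          ← mul_assoc]

/-- STABILITY: `Δ A` is controlled linearly by `Δ v`. -/
theorem comp_sub_sq_le (hτ : IsTrace τ) (v w : ι → E) {σ : ι → ℝ} (hσ : ∀ i, σ i * σ i = 1)
    {a : ℝ} (ha : 0 < a) :
    τ ((comp v σ - comp w σ) * (comp v σ - comp w σ))
      ≤ 32 * a * τ (colSq (v - w)) + 2 * a⁻¹ * (τ (colSq v) + τ (colSq w)) := by
  have hm := isTrace_matTrace (κ := Option ι) hτ
  set S : CStarMatrix (Option ι) (Option ι) E := sgnMat σ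
  set M := oddSqrt (dil v) * S * oddSqrt (dil v) - oddSqrt (dil w) * S * oddSqrt (dil w)
  have hMs : IsSelfAdjoint M := by
    have hS : IsSelfAdjoint S := sgnMat_isSelfAdjoint σ
    have : ∀ x : CStarMatrix (Option ι) (Option ι) E, IsSelfAdjoint x → IsSelfAdjoint (x * S * x) :=
      fun x hx => by simpa [hx.star_eq] using hS.conjugate x
    exact (this _ (Tracial.oddSqrt_isSelfAdjoint _)).sub (this _ (Tracial.oddSqrt_isSelfAdjoint _))
  have h := entry_sq_le hτ M none
  rw [hMs.star_eq, show M none none = comp v σ - comp w σ from rfl,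
    ((comp_isSelfAdjoint v σ).sub (comp_isSelfAdjoint w σ)).star_eq] at h
  have hs := hm.oddSqrt_sandwich (sgnMat_isSelfAdjoint σ) (sgnMat_sq_le_one hσ)
    (dil_isSelfAdjoint v) (dil_isSelfAdjoint w)
  rw [dil_sub, matTrace_dil_sq hτ, matTrace_dil_sq hτ, matTrace_dil_sq hτ] at hs
  refine h.trans (hs.trans ?_)
  have p : ∀ x, 0 ≤ τ (colSq (x : ι → E)) := fun x => by
    rw [colSq, map_sum]; exact Finset.sum_nonneg fun i _ => hτ.nonneg _
  set x := 8 * (2 * τ (colSq (v - w)))
  have am : ∀ y : ℝ, 0 ≤ y → 2 * √x * √y ≤ a * x + a⁻¹ * y := fun y hy => by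
    have h0 := two_mul_le_add_sq (√a * √x) ((√a)⁻¹ * √y)
    rw [mul_pow, mul_pow, Real.sq_sqrt ha.le, Real.sq_sqrt hy,
      Real.sq_sqrt (show 0 ≤ x from mul_nonneg (by norm_num) (mul_nonneg (by norm_num) (p _))),
      inv_pow, Real.sq_sqrt ha.le] at h0
    calc 2 * √x * √y = 2 * (√a * √x) * ((√a)⁻¹ * √y) := by
          rw [show 2 * (√a * √x) * ((√a)⁻¹ * √y) = 2 * √x * √y * (√a * (√a)⁻¹) by ring,
            mul_inv_cancel₀ (Real.sqrt_pos.2 ha).ne', mul_one]
      _ ≤ _ := h0
  have h1 := am (2 * τ (colSq v)) (mul_nonneg (by norm_num) (p v))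
  have h2 := am (2 * τ (colSq w)) (mul_nonneg (by norm_num) (p w))
  nlinarith

end Vale.P095
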