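import Vale.Agent.P095.Tracial.TraceIneq

/-!
# P095 (tracial route): the gain at one node

For `0 ≤ a, b` with `a + b ≤ 1`, the compressed difference of `a` and `b` keeps the trace of `a + b`
up to the increase of the trace of the square root; the latter is subadditive.
-/

namespace Vale.P095.Tracial

variable {E : Type*} [CStarAlgebra E] [PartialOrder E] [StarOrderedRing E]

theorem IsTrace.le_mul {τ : E →ₗ[ℝ] ℝ} (hτ : IsTrace τ) {d x y : E} (hd : 0 ≤ d) (h : x ≤ y) :
    τ (d * x) ≤ τ (d * y) := by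
  rw [hτ.comm d x, hτ.comm d y]
  exact hτ.mul_le_mul_left h hd

/-- `1 / √(t + η)`, made continuous. -/
noncomputable def qfun (η t : ℝ) : ℝ := (√(max t 0 + η))⁻¹

/-- `√(t + η)`, made continuous. -/
noncomputable def pfun (η t : ℝ) : ℝ := √(max t 0 + η)

theorem pfun_pos {η : ℝ} (hη : 0 < η) (t : ℝ) : 0 < pfun η t :=
  Real.sqrt_pos.2 (by linarith [le_max_right t 0])

theorem continuous_pfun (η : ℝ) : Continuous (pfun η) := by unfold pfun; fun_prop

theorem continuous_qfun {η : ℝ} (hη : 0 < η) : Continuous (qfun η) :=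
  (continuous_pfun η).inv₀ fun t => (pfun_pos hη t).ne'

theorem cfc_pfun_eq {η : ℝ} (hη : 0 < η) {a : E} (ha : 0 ≤ a) :
    CFC.sqrt (a + algebraMap ℝ E η) = cfc (pfun η) a := by
  refine CFC.sqrt_unique ?_ (cfc_nonneg fun t _ => (pfun_pos hη t).le)
  rw [← cfc_mul _ _ a (continuous_pfun η).continuousOn (continuous_pfun η).continuousOn]
  rw [cfc_congr (g := fun t => t + η) fun t ht => ?_, cfc_add_const η (fun t => t) a, cfc_id' ℝ a]
  simp only [pfun]
  rw [Real.mul_self_sqrt (by linarith [le_max_right t 0]),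
    max_eq_left (spectrum_nonneg_of_nonneg ha ht)]

/-- `qfun η` is operator antitone on positives. -/
theorem qfun_antitone {η : ℝ} (hη : 0 < η) {a c : E} (ha : 0 ≤ a) (hac : a ≤ c) :
    cfc (qfun η) c ≤ cfc (qfun η) a := by
  have hc : 0 ≤ c := ha.trans hac
  let U : ∀ x : E, 0 ≤ x → Eˣ := fun x hx =>
    ⟨cfc (pfun η) x, cfc (qfun η) x, by
      rw [← cfc_mul _ _ x (continuous_pfun η).continuousOn (continuous_qfun hη).continuousOn,
        ← cfc_const_one ℝ x]
      exact cfc_congr fun t _ => mul_inv_cancel₀ (pfun_pos hη t).ne', by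
      rw [← cfc_mul _ _ x (continuous_qfun hη).continuousOn (continuous_pfun η).continuousOn,
        ← cfc_const_one ℝ x]
      exact cfc_congr fun t _ => inv_mul_cancel₀ (pfun_pos hη t).ne'⟩
  exact CStarAlgebra.inv_le_inv (a := U a ha) (b := U c hc)
    (cfc_nonneg fun t _ => (pfun_pos hη t).le) (by
      show cfc (pfun η) a ≤ cfc (pfun η) c
      rw [← cfc_pfun_eq hη ha, ← cfc_pfun_eq hη hc]
      exact CFC.sqrt_le_sqrt _ _ (add_le_add_left hac _))

theorem sqrt_eq_cfc_real {a : E} (ha : 0 ≤ a) : CFC.sqrt a = cfc Real.sqrt a := by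
  rw [CFC.sqrt_eq_real_sqrt a ha, cfcₙ_eq_cfc]

theorem id_mul_cfc {a : E} (ha : 0 ≤ a) {f : ℝ → ℝ} (hf : Continuous f) :
    a * cfc f a = cfc (fun t => t * f t) a := by
  rw [cfc_mul (fun t => t) f a continuous_id.continuousOn hf.continuousOn, cfc_id' ℝ a]

section Node

variable {τ : E →ₗ[ℝ] ℝ} (hτ : IsTrace τ)
include hτ

omit hτ in
/-- The compression of a part is below its square root. -/
theorem compress_le {η : ℝ} (hη : 0 < η) {a c : E} (ha : 0 ≤ a) (hac : a ≤ c) :
    CFC.sqrt a * cfc (qfun η) c * CFC.sqrt a ≤ CFC.sqrt a := by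
  refine ((IsSelfAdjoint.of_nonneg (CFC.sqrt_nonneg a)).conjugate_le_conjugate
    (qfun_antitone hη ha hac)).trans ?_
  have hq := continuous_qfun hη
  rw [sqrt_eq_cfc_real ha, ← cfc_mul _ _ a Real.continuous_sqrt.continuousOn hq.continuousOn,
    ← cfc_mul (fun t => √t * qfun η t) Real.sqrt a (Real.continuous_sqrt.mul hq).continuousOn
      Real.continuous_sqrt.continuousOn]
  refine cfc_mono (fun t ht => ?_) ((Real.continuous_sqrt.mul hq).mul
    Real.continuous_sqrt).continuousOn Real.continuous_sqrt.continuousOn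
  have ht0 : 0 ≤ t := spectrum_nonneg_of_nonneg ha ht
  have hle : √t ≤ pfun η t := Real.sqrt_le_sqrt (by linarith [le_max_left t 0])
  have hp := pfun_pos hη t
  show √t * (pfun η t)⁻¹ * √t ≤ √t
  refine mul_le_of_le_one_left (Real.sqrt_nonneg t) ?_
  rw [← div_eq_mul_inv, div_le_one hp]
  exact hle

/-- `τ(√c)` is almost `τ(c / √(c + η))`. -/
theorem sqrt_le_mul_qfun {η : ℝ} (hη : 0 < η) {c : E} (hc : 0 ≤ c) :
    τ (CFC.sqrt c) ≤ τ (c * cfc (qfun η) c) + √η * τ 1 := by
  have hq := continuous_qfun hη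
  rw [id_mul_cfc hc hq, sqrt_eq_cfc_real hc,
    ← smul_eq_mul (α := ℝ) (√η) (τ 1), ← map_smul, ← map_add, ← Algebra.algebraMap_eq_smul_one]
  refine hτ.mono ?_
  rw [← cfc_add_const (√η) (fun t => t * qfun η t) c]
  refine cfc_mono (fun t ht => ?_) Real.continuous_sqrt.continuousOn
    ((continuous_id.mul hq).add continuous_const).continuousOn
  have ht0 : 0 ≤ t := spectrum_nonneg_of_nonneg hc ht
  have hp := pfun_pos hη t
  have e : pfun η t ^ 2 = t + η := by
    rw [pfun, Real.sq_sqrt (by linarith [le_max_right t 0]), max_eq_left ht0]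
  have h1 : √t ≤ pfun η t := Real.sqrt_le_sqrt (by linarith [le_max_left t 0])
  have h2 : √η ≤ pfun η t := Real.sqrt_le_sqrt (by linarith [le_max_right t 0])
  show √t ≤ t * (pfun η t)⁻¹ + √η
  rw [← sub_le_iff_le_add, ← div_eq_mul_inv, le_div_iff₀ hp]
  have e1 := Real.mul_self_sqrt hη.le
  nlinarith [mul_le_mul_of_nonneg_right h1 hp.le, mul_le_mul_of_nonneg_left h2 (Real.sqrt_nonneg η)]

theorem compress_eq {x H : E} (hx : 0 ≤ x) : τ (CFC.sqrt x * H * CFC.sqrt x) = τ (x * H) := by
  rw [hτ.comm (CFC.sqrt x * H), ← mul_assoc, CFC.sqrt_mul_sqrt_self x hx]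

/-- The trace of the square root is subadditive. -/
theorem sqrt_add_le {a b : E} (ha : 0 ≤ a) (hb : 0 ≤ b) :
    τ (CFC.sqrt (a + b)) ≤ τ (CFC.sqrt a) + τ (CFC.sqrt b) := by
  refine le_of_forall_pos_le_add fun ε hε => ?_
  have h1 : 0 ≤ τ (1 : E) := hτ.one_nonneg
  have hsmall : √((ε / (τ 1 + 1)) ^ 2) * τ 1 ≤ ε := by
    rw [Real.sqrt_sq (by positivity), div_mul_eq_mul_div, div_le_iff₀ (by positivity)]
    nlinarith
  have hη : 0 < (ε / (τ 1 + 1)) ^ 2 := by positivity
  set η := (ε / (τ 1 + 1)) ^ 2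
  have hs := sqrt_le_mul_qfun hτ hη (add_nonneg ha hb)
  have ha' := hτ.mono (compress_le hη ha (le_add_of_nonneg_right hb : a ≤ a + b))
  have hb' := hτ.mono (compress_le hη hb (le_add_of_nonneg_left ha : b ≤ a + b))
  rw [compress_eq hτ ha] at ha'
  rw [compress_eq hτ hb] at hb'
  rw [add_mul, map_add] at hs
  linarith

theorem sqrt_sum_le {κ : Type*} (S : Finset κ) (f : κ → E) (hf : ∀ i ∈ S, 0 ≤ f i) :
    τ (CFC.sqrt (∑ i ∈ S, f i)) ≤ ∑ i ∈ S, τ (CFC.sqrt (f i)) := by
  classical
  induction S using Finset.induction_on with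
  | empty => simp
  | insert i S hi ih =>
    rw [Finset.sum_insert hi, Finset.sum_insert hi]
    have h1 := fun j hj => hf j (Finset.mem_insert_of_mem hj)
    exact (sqrt_add_le hτ (hf i (Finset.mem_insert_self i S)) (Finset.sum_nonneg h1)).trans
      (by linarith [ih h1])

/-- The bound at one node. -/
theorem node_lower {η : ℝ} (hη : 0 < η) {a b : E} (ha : 0 ≤ a) (hb : 0 ≤ b) (hc1 : a + b ≤ 1) :
    τ (a + b) - 8 * (τ (CFC.sqrt a) + τ (CFC.sqrt b) - τ (CFC.sqrt (a + b))) -
        (η + 8 * √η) * τ 1 ≤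
      τ ((a - b) * cfc (qfun η) (a + b) * ((a - b) * cfc (qfun η) (a + b))) := by
  set c := a + b with hcdef
  set H := cfc (qfun η) c with hH
  have hq := continuous_qfun hη
  have hc : 0 ≤ c := add_nonneg ha hb
  have hac : a ≤ c := le_add_of_nonneg_right hb
  have hbc : b ≤ c := le_add_of_nonneg_left ha
  have ha1 : a ≤ 1 := hac.trans hc1
  set s := CFC.sqrt a with hs
  set u := s * H * s with hu
  have hus : u ≤ s := compress_le hη ha hac
  have hHnn : 0 ≤ H := cfc_nonneg fun t _ => (inv_pos.2 (pfun_pos hη t)).le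
  have hu0 : 0 ≤ u := by
    simpa [hu] using (IsSelfAdjoint.of_nonneg (CFC.sqrt_nonneg a)).conjugate_le_conjugate hHnn
  have hs1 : s ≤ 1 := by simpa using CFC.sqrt_le_sqrt a 1 ha1
  have hsum : u + s ≤ (2 : ℝ) • (1 : E) := by
    rw [two_smul]; exact add_le_add (hus.trans hs1) hs1
  -- `τ(aHbH) ≤ 2 (τ√a - τu)`
  have haa : τ (a * H * (a * H)) = τ (u * u) := by
    have ee : a = s * s := (CFC.sqrt_mul_sqrt_self a ha).symm
    calc τ (a * H * (a * H)) = τ (s * (s * H * (s * s * H))) := by rw [ee]; simp only [mul_assoc]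
      _ = τ (s * H * (s * s * H) * s) := hτ.comm _ _
      _ = τ (u * u) := by rw [hu]; simp only [mul_assoc]
  have hdiff : τ a - τ (u * u) ≤ 2 * (τ s - τ u) := by
    have e1 : τ ((s - u) * (s + u)) = τ a - τ (u * u) := by
      rw [sub_mul, mul_add, mul_add, map_sub, map_add, map_add, hτ.comm u s,
        CFC.sqrt_mul_sqrt_self a ha]
      ring
    have e2 := hτ.le_mul (sub_nonneg.2 hus) (show s + u ≤ (2 : ℝ) • (1 : E) by rw [add_comm]; exact hsum)
    rw [e1, mul_smul_comm, mul_one, map_smul, smul_eq_mul, map_sub] at e2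
    exact e2
  have hcH : τ (a * (H * c * H)) ≤ τ a := by
    have hle : H * c * H ≤ 1 := by
      have e : H * c * H = cfc (fun t => qfun η t * t * qfun η t) c := by
        rw [hH, cfc_mul (fun t => qfun η t * t) _ c (hq.mul continuous_id).continuousOn
          hq.continuousOn, cfc_mul (qfun η) (fun t => t) c hq.continuousOn
          continuous_id.continuousOn, cfc_id' ℝ c]
      rw [e]
      refine cfc_le_one _ _ fun t ht => ?_
      have ht0 : 0 ≤ t := spectrum_nonneg_of_nonneg hc ht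
      have e2 : pfun η t * pfun η t = t + η := by
        rw [pfun, Real.mul_self_sqrt (by linarith [le_max_right t 0]), max_eq_left ht0]
      show (pfun η t)⁻¹ * t * (pfun η t)⁻¹ ≤ 1
      rw [mul_comm _ t, mul_assoc, ← mul_inv, e2, ← div_eq_mul_inv, div_le_one (by linarith)]
      linarith
    simpa using hτ.le_mul ha hle
  have hab : τ (a * H * (b * H)) ≤ 2 * (τ s - τ u) := by
    have : τ (a * H * (b * H)) = τ (a * (H * c * H)) - τ (a * H * (a * H)) := by
      rw [← map_sub]; congr 1; rw [hcdef]; noncomm_ring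
    linarith [haa]
  -- `τ(cHcH) ≥ τc - η`
  have hcc : τ c - η * τ 1 ≤ τ (c * H * (c * H)) := by
    have e : c * H * (c * H) = cfc (fun t => t * qfun η t * (t * qfun η t)) c := by
      rw [hH, id_mul_cfc hc hq, ← cfc_mul (fun t => t * qfun η t) (fun t => t * qfun η t) c
        (continuous_id.mul hq).continuousOn (continuous_id.mul hq).continuousOn]
    rw [e, ← smul_eq_mul (α := ℝ) η (τ 1), ← map_smul, ← map_sub, ← Algebra.algebraMap_eq_smul_one]
    refine hτ.mono ?_
    have el : c - algebraMap ℝ E η = cfc (fun t => t - η) c := by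
      rw [cfc_sub (fun t => t) (fun _ => η) c, cfc_id' ℝ c, cfc_const η c]
    rw [el]
    refine cfc_mono (fun t ht => ?_) (by fun_prop)
      ((continuous_id.mul hq).mul (continuous_id.mul hq)).continuousOn
    have ht0 : 0 ≤ t := spectrum_nonneg_of_nonneg hc ht
    have e2 : pfun η t * pfun η t = t + η := by
      rw [pfun, Real.mul_self_sqrt (by linarith [le_max_right t 0]), max_eq_left ht0]
    show t - η ≤ t * (pfun η t)⁻¹ * (t * (pfun η t)⁻¹)
    rw [show t * (pfun η t)⁻¹ * (t * (pfun η t)⁻¹) = t * t / (pfun η t * pfun η t) by ring, e2,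
      le_div_iff₀ (by linarith)]
    nlinarith
  -- the other half of the increment is nonnegative
  have hub : τ (b * H) ≤ τ (CFC.sqrt b) := by
    simpa [compress_eq hτ hb] using hτ.mono (compress_le hη hb hbc)
  have hu' : τ u = τ (a * H) := compress_eq hτ ha
  have hsc := sqrt_le_mul_qfun hτ hη hc
  rw [← hH, hcdef, add_mul, map_add, ← hcdef] at hsc
  have hexp : τ ((a - b) * H * ((a - b) * H)) =
      τ (c * H * (c * H)) - 4 * τ (a * H * (b * H)) := by
    have e : (a - b) * H * ((a - b) * H) = c * H * (c * H) -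
        ((a * H * (b * H) + b * H * (a * H)) + (a * H * (b * H) + b * H * (a * H))) := by
      rw [hcdef]; noncomm_ring
    rw [e, map_sub, map_add, map_add, hτ.comm (b * H) (a * H)]
    ring
  have h1 : 0 ≤ τ (1 : E) := hτ.one_nonneg
  rw [hexp]
  linarith

/-- The same for `h (a - b) h` with `h * h` the regularised `1 / √(a + b)`. -/
theorem node_lower' {η : ℝ} (hη : 0 < η) {a b h : E} (ha : 0 ≤ a) (hb : 0 ≤ b) (hc1 : a + b ≤ 1)
    (hh : h * h = cfc (qfun η) (a + b)) :
    τ (a + b) - 8 * (τ (CFC.sqrt a) + τ (CFC.sqrt b) - τ (CFC.sqrt (a + b))) -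
        (η + 8 * √η) * τ 1 ≤ τ (h * (a - b) * h * (h * (a - b) * h)) := by
  refine (node_lower hτ hη ha hb hc1).trans_eq ?_
  rw [← hh]
  calc τ ((a - b) * (h * h) * ((a - b) * (h * h)))
      = τ ((a - b) * (h * h) * (a - b) * h * h) := by simp only [mul_assoc]
    _ = τ (h * ((a - b) * (h * h) * (a - b) * h)) := hτ.comm _ _
    _ = _ := by simp only [mul_assoc]

end Node

end Vale.P095.Tracial
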