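import Vale.Agent.P095.Tracial.TreeBasic
import Vale.Agent.P095.Tracial.Lower

/-!
# P095 (tracial route): keys, balance, lower bound (owner: helper23)

The lower bound telescopes: the gain of a node is paid by the increase of `∑ τ √c`, which stays
below `√N (1 + √δ) ^ j`.
-/

open Filter Topology

namespace Vale.P095.Tracial

section General

variable {B : Type*} [CStarAlgebra B] [PartialOrder B] [StarOrderedRing B] {τ : B →ₗ[ℝ] ℝ}

/-- A trace is bounded by its value at `1`. -/
theorem IsTrace.abs_le (hτ : IsTrace τ) (x : B) : |τ x| ≤ τ 1 * ‖x‖ := by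
  set y : B := (2 : ℝ)⁻¹ • (x + star x) with hy
  have hys : IsSelfAdjoint y :=
    IsSelfAdjoint.smul (IsSelfAdjoint.all _) (IsSelfAdjoint.add_star_self x)
  have hxy : τ x = τ y := by
    rw [hy, map_smul, map_add, hτ.map_star, smul_eq_mul]; ring
  have hn : ‖y‖ ≤ ‖x‖ := by
    rw [hy, norm_smul, Real.norm_of_nonneg (by norm_num : (0 : ℝ) ≤ 2⁻¹)]
    have := norm_add_le x (star x)
    rw [norm_star] at this
    linarith
  have h1 := hτ.mono hys.le_algebraMap_norm_self
  have h2 := hτ.mono hys.neg.le_algebraMap_norm_self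
  have e : τ (algebraMap ℝ B ‖y‖) = ‖y‖ * τ 1 := by
    rw [Algebra.algebraMap_eq_smul_one, map_smul, smul_eq_mul]
  rw [map_neg, norm_neg, e] at h2
  rw [e] at h1
  have h0 := hτ.one_nonneg
  rw [hxy, _root_.abs_le]
  constructor <;> nlinarith

theorem IsTrace.continuous (hτ : IsTrace τ) : Continuous τ :=
  AddMonoidHomClass.continuous_of_bound τ (τ 1) fun x => (Real.norm_eq_abs _).le.trans (hτ.abs_le x)

/-- Commuting with the data of a `comp` is commuting with it. -/
theorem commute_comp {ι : Type*} [Fintype ι] [DecidableEq ι] (v : ι → B) (σ : ι → ℝ) {M : B}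
    (h1 : Commute M (colSq v)) (h2 : Commute M (colSgn v σ)) : Commute M (comp v σ) := by
  refine tendsto_nhds_unique ((comp_tendsto v σ).const_mul M)
    (((comp_tendsto v σ).mul_const M).congr fun ε => ?_)
  have hc : Commute M (cfc (regInv ε) (colSq v)) := (h1.symm.cfc_real _).symm
  exact ((hc.mul_right h2).mul_right hc).eq.symm

end General

theorem mem_keys : ∀ k : List Bool, k ∈ keys k.length
  | [] => by simp [keys]
  | b :: k => by cases b <;> simp [keys, mem_keys k]

/-- The square of a sum over the nodes, when distinct nodes are orthogonal. -/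
theorem sum_nodes_sq {B : Type*} [Ring B] [Module ℝ B] (τ : B →ₗ[ℝ] ℝ) (J : ℕ)
    (f : List Bool → B)
    (h : ∀ k k' : List Bool, k.length < J → k'.length < J → k ≠ k' → τ (f k * f k') = 0) :
    τ ((∑ j ∈ Finset.range J, ∑ k ∈ keys j, f k) * (∑ j ∈ Finset.range J, ∑ k ∈ keys j, f k)) =
      ∑ j ∈ Finset.range J, ∑ k ∈ keys j, τ (f k * f k) := by
  simp only [Finset.sum_mul, Finset.mul_sum, map_sum]
  refine Finset.sum_congr rfl fun j hj => Finset.sum_congr rfl fun k hk => ?_
  have hkl : k.length = j := length_of_mem_keys hk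
  have hz : ∀ j' ∈ Finset.range J, ∀ k' ∈ keys j', k ≠ k' → τ (f k' * f k) = 0 := by
    intro j' hj' k' hk' hne
    rw [Finset.mem_range] at hj hj'
    exact h k' k (by rw [length_of_mem_keys hk']; omega) (by omega) hne.symm
  rw [Finset.sum_eq_single j, Finset.sum_eq_single k]
  · exact fun k' hk' hne => hz j hj k' hk' (Ne.symm hne)
  · exact fun hk' => absurd hk hk'
  · intro j' hj' hne
    refine Finset.sum_eq_zero fun k' hk' => hz j' hj' k' hk' ?_
    rintro rfl
    exact hne (by rw [← length_of_mem_keys hk', hkl])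
  · exact fun hj' => absurd hj hj'

variable {G B : Type*} [CStarAlgebra B] {δ : ℝ} {J : ℕ} (P : Pay G B δ J)

/-! ### Algebra of the keys -/

theorem Pay.avg_split (F : Finset G) (k : List Bool) :
    P.avg F (true :: k) + P.avg F (false :: k) = P.avg F k := by
  simp only [Pay.avg, ← smul_add, ← Finset.sum_add_distrib, P.key_add]

theorem Pay.avg_sub (F : Finset G) (k : List Bool) :
    P.avg F (true :: k) - P.avg F (false :: k) =
      (F.card : ℝ)⁻¹ • ∑ g ∈ F, P.key g k * P.s k g := by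
  simp only [Pay.avg, ← smul_sub, ← Finset.sum_sub_distrib, P.key_sub]

/-! ### Commutation -/

/-- A member of a copy commutes with the keys of other, not longer, positions. -/
theorem Pay.commute_mem_key {k k' : List Bool} (hk : k.length < J) (hl : k'.length ≤ k.length)
    {x : B} (hx : x ∈ P.D k) (g : G) : Commute x (P.key g k') :=
  P.commute_key k' fun k'' h1 => P.comm k k'' hk (by omega) (fun e => by subst e; omega) x hx _
    (P.mem k'' g (by omega))

variable [PartialOrder B] [StarOrderedRing B] {τ : B →ₗ[ℝ] ℝ}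

/-! ### Positivity and roots -/

omit [PartialOrder B] [StarOrderedRing B] in
theorem Pay.abs_le_one (k : List Bool) (g : G) {t : ℝ} (ht : t ∈ spectrum ℝ (P.s k g)) :
    |t| ≤ 1 := by
  rcases subsingleton_or_nontrivial B with _ | _
  · rw [spectrum.of_subsingleton] at ht; exact ht.elim
  have h := spectrum.norm_le_norm_of_mem ht
  rw [Real.norm_eq_abs] at h
  exact h.trans (P.norm_le k g)

omit [PartialOrder B] [StarOrderedRing B] in
theorem Pay.half_eq_cfc (k : List Bool) (b : Bool) (g : G) :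
    P.half k b g = cfc (fun t : ℝ => (1 + (if b then t else -t)) / 2) (P.s k g) := by
  have := P.sa k g
  cases b
  · simp only [Bool.false_eq_true, if_false, Pay.half]
    rw [show (fun t : ℝ => (1 + -t) / 2) = fun t => (1 / 2 : ℝ) * (1 - t) by funext t; ring,
      cfc_const_mul (1 / 2 : ℝ) (fun t => 1 - t) _, cfc_sub (fun _ => (1 : ℝ)) (fun t => t) _,
      cfc_const_one ℝ _, cfc_id' ℝ _]
  · simp only [if_true, Pay.half]
    rw [show (fun t : ℝ => (1 + t) / 2) = fun t => (1 / 2 : ℝ) * (1 + t) by funext t; ring,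
      cfc_const_mul (1 / 2 : ℝ) (fun t => 1 + t) _, cfc_add _ (fun _ => (1 : ℝ)) (fun t => t),
      cfc_const_one ℝ _, cfc_id' ℝ _]

theorem Pay.sqrt_half (k : List Bool) (b : Bool) (g : G) :
    CFC.sqrt (P.half k b g) =
      cfc (fun t : ℝ => √((1 + (if b then t else -t)) / 2)) (P.s k g) := by
  have := P.sa k g
  have hc : Continuous fun t : ℝ => √((1 + (if b then t else -t)) / 2) := by
    cases b <;> simp <;> fun_prop
  refine CFC.sqrt_unique ?_ (cfc_nonneg fun t _ => Real.sqrt_nonneg _)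
  rw [← cfc_mul _ _ _ hc.continuousOn hc.continuousOn, P.half_eq_cfc]
  refine cfc_congr fun t ht => Real.mul_self_sqrt ?_
  have := abs_le.1 (P.abs_le_one k g ht)
  cases b <;> simp <;> linarith

theorem Pay.sqrt_key_cons (g : G) (b : Bool) {k : List Bool} (hk : k.length < J) :
    CFC.sqrt (P.key g (b :: k)) = CFC.sqrt (P.key g k) * CFC.sqrt (P.half k b g) := by
  have h0 := P.key_nonneg g k hk.le
  have h1 := P.half_nonneg k b g
  have hc : Commute (CFC.sqrt (P.key g k)) (CFC.sqrt (P.half k b g)) := by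
    rw [sqrt_eq_cfc_real h0, sqrt_eq_cfc_real h1]
    exact ((((P.key_commute_half g hk.le hk b).cfc_real Real.sqrt).symm).cfc_real Real.sqrt).symm
  refine CFC.sqrt_unique ?_ (hc.mul_nonneg (CFC.sqrt_nonneg _) (CFC.sqrt_nonneg _))
  rw [hc.symm.mul_mul_mul_comm, CFC.sqrt_mul_sqrt_self _ h0, CFC.sqrt_mul_sqrt_self _ h1, Pay.key]

theorem Pay.avg_nonneg (F : Finset G) {k : List Bool} (hk : k.length ≤ J) : 0 ≤ P.avg F k :=
  smul_nonneg (by positivity) (Finset.sum_nonneg fun g _ => P.key_nonneg g k hk)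

theorem Pay.avg_le_one {F : Finset G} (hF : F.Nonempty) {k : List Bool} (hk : k.length ≤ J) :
    P.avg F k ≤ 1 :=
  (Finset.single_le_sum (f := fun l => P.avg F l) (fun l hl => P.avg_nonneg F (by rw [length_of_mem_keys hl]; exact hk))
    (mem_keys k)).trans_eq (P.sum_avg hF k.length)

variable [DecidableEq G]

theorem Pay.node_isSelfAdjoint (F : Finset G) (k : List Bool) : IsSelfAdjoint (P.node F k) :=
  comp_isSelfAdjoint _ _

theorem Pay.X_isSelfAdjoint (F : Finset G) : IsSelfAdjoint (P.X F) :=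
  (IsSelfAdjoint.all _).smul (isSelfAdjoint_sum _ fun j _ => isSelfAdjoint_sum _ fun k _ =>
    P.node_isSelfAdjoint F k)

/-- An element commuting with the payloads at `k` and at shorter positions commutes with the node at `k`. -/
theorem Pay.commute_node {M : B} (F : Finset G) {k : List Bool} (hk : k.length < J)
    (h : ∀ k', k'.length < k.length ∨ k' = k → ∀ g, Commute M (P.s k' g)) :
    Commute M (P.node F k) := by
  have hkey : ∀ g, Commute M (P.key g k) := fun g => P.commute_key k fun k' h1 => h k' (Or.inl h1) g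
  refine commute_comp _ _ ?_ ?_
  · rw [P.colSq_row F hk]
    exact (Commute.sum_right _ _ _ fun g _ => hkey g).smul_right _
  · rw [P.colSgn_row F hk]
    exact (Commute.sum_right _ _ _ fun g _ =>
      (hkey g).mul_right (h k (Or.inr rfl) g)).smul_right _

/-- Balance: a node is killed by everything commuting with its copy. -/
theorem Pay.node_balanced (hτ : IsTrace τ) (F : Finset G) {k : List Bool} (hk : k.length < J)
    {M : B} (hM : ∀ x ∈ P.D k, Commute M x) : τ (M * P.node F k) = 0 := by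
  refine apply_comp_eq_zero _ _ (fun x => τ (M * x))
    (hτ.continuous.comp (continuous_const.mul continuous_id)) fun ε _ => ?_
  rw [P.colSq_row F hk, P.colSgn_row F hk]
  set q := cfc (regInv ε) (P.avg F k)
  have hq : ∀ x ∈ P.D k, Commute q x := fun x hx =>
    ((Commute.sum_right _ _ _ fun g _ => P.commute_mem_key hk le_rfl hx g).smul_right
      _).symm.cfc_real _
  have e : τ (M * (q * ((F.card : ℝ)⁻¹ • ∑ g ∈ F, P.key g k * P.s k g) * q)) =
      (F.card : ℝ)⁻¹ * ∑ g ∈ F, τ (q * M * q * P.key g k * P.s k g) := by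
    rw [← mul_assoc M, hτ.comm (M * _) q]
    simp only [mul_smul_comm, map_smul, Finset.mul_sum, map_sum, smul_eq_mul, mul_assoc]
  show τ _ = 0
  rw [e, Finset.sum_eq_zero, mul_zero]
  intro g _
  exact hτ.comm _ _ ▸ (hτ.comm _ _ ▸ P.bal τ hτ k g (q * M * q * P.key g k) hk fun x hx =>
    (((hq x hx).mul_left (hM x hx)).mul_left (hq x hx)).mul_left
      (P.commute_mem_key hk le_rfl hx g).symm)

theorem Pay.X_balanced (hτ : IsTrace τ) {F : Finset G} (_hF : F.Nonempty) : τ (P.X F) = 0 := by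
  simp only [Pay.X, map_smul, map_sum]
  rw [Finset.sum_eq_zero fun j hj => Finset.sum_eq_zero fun k hk => ?_, smul_zero]
  simpa using P.node_balanced hτ F
    (show k.length < J by rw [length_of_mem_keys hk]; exact Finset.mem_range.1 hj)
    (M := 1) fun x _ => Commute.one_left x

/-- Distinct nodes are orthogonal, also for two different Følner sets. -/
theorem Pay.node_orth (hτ : IsTrace τ) {F F' : Finset G} (_hF : F.Nonempty) (_hF' : F'.Nonempty)
    {k k' : List Bool} (hk : k.length < J) (hk' : k'.length < J) (h : k ≠ k') :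
    τ (P.node F k * P.node F' k') = 0 := by
  wlog hl : k'.length ≤ k.length generalizing k k' F F'
  · rw [hτ.comm]
    exact this _hF' _hF hk' hk (Ne.symm h) (by omega)
  rw [hτ.comm]
  refine P.node_balanced hτ F hk fun x hx => (P.commute_node F' hk' fun k'' h1 g => ?_).symm
  rcases h1 with h1 | rfl
  · exact P.comm k k'' hk (by omega) (fun e => by subst e; omega) x hx _ (P.mem k'' g (by omega))
  · exact P.comm k k'' hk hk' h x hx _ (P.mem k'' g hk')

/-! ### Lower bound -/

omit [DecidableEq G] in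
theorem Pay.sum_root_le (hτ : IsTrace τ) (hδ : 0 ≤ δ) (g : G) :
    ∀ {n}, n ≤ J → ∑ k ∈ keys n, τ (CFC.sqrt (P.key g k)) ≤ (1 + √δ) ^ n * τ 1
  | 0, _ => by simp [keys, Pay.key]
  | j + 1, hj => by
    rw [sum_keys_succ, pow_succ, mul_comm ((1 + √δ) ^ j), mul_assoc]
    refine le_trans (Finset.sum_le_sum fun k hk => ?_)
      ((Finset.mul_sum (keys j) (fun k => τ (CFC.sqrt (P.key g k))) (1 + √δ)).symm.le.trans
        (mul_le_mul_of_nonneg_left (Pay.sum_root_le hτ hδ g (by omega)) (by positivity)))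
    have hkJ : k.length < J := by rw [length_of_mem_keys hk]; omega
    have hsa := P.sa k g
    set x := P.s k g with hx
    set M := CFC.sqrt (P.key g k)
    have hM0 : 0 ≤ M := CFC.sqrt_nonneg _
    set f := cfc (fun t : ℝ => √(1 - t ^ 2)) x
    have hle : CFC.sqrt (P.half k true g) + CFC.sqrt (P.half k false g) ≤ 1 + f := by
      rw [P.sqrt_half, P.sqrt_half, ← hx]
      simp only [if_true, Bool.false_eq_true, if_false]
      rw [← cfc_const_one ℝ x, ← cfc_add x _ _ (by fun_prop) (by fun_prop),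
        ← cfc_add x (fun _ => (1 : ℝ)) _ (by fun_prop) (by fun_prop)]
      refine cfc_mono (fun t ht => ?_) (by fun_prop) (by fun_prop)
      have ht' := abs_le.1 (P.abs_le_one k g (hx ▸ ht))
      have e1 := Real.sq_sqrt (show (0 : ℝ) ≤ (1 + t) / 2 by linarith)
      have e2 := Real.sq_sqrt (show (0 : ℝ) ≤ (1 + -t) / 2 by linarith)
      have e3 : √((1 + t) / 2) * √((1 + -t) / 2) = √(1 - t ^ 2) / 2 := by
        rw [← Real.sqrt_mul (by linarith), show (1 + t) / 2 * ((1 + -t) / 2) = (1 - t ^ 2) / 4 by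
          ring, Real.sqrt_div' _ (by norm_num : (0 : ℝ) ≤ 4),
          show (4 : ℝ) = 2 ^ 2 by norm_num, Real.sqrt_sq (by norm_num : (0 : ℝ) ≤ 2)]
      nlinarith [Real.sqrt_nonneg ((1 + t) / 2), Real.sqrt_nonneg ((1 + -t) / 2),
        Real.sqrt_nonneg (1 - t ^ 2)]
    have hMf : τ (M * f) ≤ √δ * τ M := by
      set R := CFC.sqrt M with hR
      have hRR : R * R = M := CFC.sqrt_mul_sqrt_self M hM0
      have hRs : star R = R := (CFC.sqrt_nonneg M).isSelfAdjoint.star_eq
      have hcomm : ∀ y ∈ P.D k, Commute R y := fun y hy => by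
        rw [hR, sqrt_eq_cfc_real hM0]
        refine Commute.cfc_real ?_ _
        rw [show M = cfc Real.sqrt (P.key g k) from sqrt_eq_cfc_real (P.key_nonneg g k hkJ.le)]
        exact (P.commute_mem_key hkJ le_rfl hy g).symm.cfc_real _
      have hfs : star f = f := (cfc_predicate (p := IsSelfAdjoint) _ x).star_eq
      have hff : f * f = 1 - x * x := by
        rw [← cfc_mul _ _ x (by fun_prop) (by fun_prop),
          cfc_congr (g := fun t => 1 - t * t) fun t ht => ?_,
          cfc_sub (fun _ => (1 : ℝ)) (fun t => t * t) x (by fun_prop) (by fun_prop),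
          cfc_const_one ℝ x, cfc_mul (fun t => t) (fun t => t) x (by fun_prop) (by fun_prop),
          cfc_id' ℝ x]
        rw [Real.mul_self_sqrt (by
          have := abs_le.1 (P.abs_le_one k g (hx ▸ ht)); nlinarith)]
        ring
      have hcs := hτ.cauchy_schwarz R (f * R)
      have e1 : τ (star R * (f * R)) = τ (M * f) := by
        rw [hRs, hτ.comm R (f * R), mul_assoc, hRR, hτ.comm]
      have e2 : τ (star (f * R) * (f * R)) ≤ δ * τ M := by
        have := P.sym τ hτ k g R hkJ hcomm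
        rw [← hx, hRs, hRR] at this
        refine le_trans (le_of_eq ?_) this
        rw [star_mul, hfs, hRs, ← hff]
        simp only [mul_assoc]
      rw [e1, hRs, hRR] at hcs
      have hM' : 0 ≤ τ M := hτ.of_nonneg hM0
      have h3 : τ (M * f) ^ 2 ≤ (√δ * τ M) ^ 2 := by
        rw [mul_pow, Real.sq_sqrt hδ]
        calc τ (M * f) ^ 2 ≤ τ M * τ (star (f * R) * (f * R)) := hcs
          _ ≤ τ M * (δ * τ M) := mul_le_mul_of_nonneg_left e2 hM'
          _ = δ * τ M ^ 2 := by ring
      exact (abs_le_of_sq_le_sq' h3 (mul_nonneg (Real.sqrt_nonneg δ) hM')).2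
    calc τ (CFC.sqrt (P.key g (true :: k))) + τ (CFC.sqrt (P.key g (false :: k)))
        = τ (M * (CFC.sqrt (P.half k true g) + CFC.sqrt (P.half k false g))) := by
          rw [P.sqrt_key_cons g true hkJ, P.sqrt_key_cons g false hkJ, mul_add, map_add]
      _ ≤ τ (M * (1 + f)) := hτ.le_mul hM0 hle
      _ ≤ (1 + √δ) * τ M := by
          rw [mul_add, mul_one, map_add, add_mul, one_mul]
          linarith

omit [DecidableEq G] in
/-- The potential is at most `√N (1 + √δ) ^ j`. -/
theorem Pay.potential_le (hτ : IsTrace τ) (hδ : 0 ≤ δ) {F : Finset G} (hF : F.Nonempty) {j : ℕ}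
    (hj : j ≤ J) :
    ∑ k ∈ keys j, τ (CFC.sqrt (P.avg F k)) ≤ √(F.card : ℝ) * (1 + √δ) ^ j * τ 1 := by
  set N : ℝ := (F.card : ℝ) with hN0
  have hN : 0 < N := by simp [hN0, hF.card_pos]
  have h1 : ∀ k ∈ keys j, τ (CFC.sqrt (P.avg F k)) ≤
      (√N)⁻¹ * ∑ g ∈ F, τ (CFC.sqrt (P.key g k)) := by
    intro k hk
    have hkJ : k.length ≤ J := by rw [length_of_mem_keys hk]; exact hj
    rw [Pay.avg, Finset.smul_sum, Finset.mul_sum]
    refine (sqrt_sum_le hτ _ _ fun g _ =>
      smul_nonneg (by positivity) (P.key_nonneg g k hkJ)).trans_eq ?_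
    refine Finset.sum_congr rfl fun g _ => ?_
    rw [← smul_eq_mul, ← map_smul]
    refine congrArg τ (CFC.sqrt_unique ?_ (smul_nonneg (by positivity) (CFC.sqrt_nonneg _)))
    rw [smul_mul_smul_comm, CFC.sqrt_mul_sqrt_self _ (P.key_nonneg g k hkJ), ← mul_inv,
      Real.mul_self_sqrt hN.le]
  calc ∑ k ∈ keys j, τ (CFC.sqrt (P.avg F k))
      ≤ ∑ k ∈ keys j, (√N)⁻¹ * ∑ g ∈ F, τ (CFC.sqrt (P.key g k)) := Finset.sum_le_sum h1
    _ = (√N)⁻¹ * ∑ g ∈ F, ∑ k ∈ keys j, τ (CFC.sqrt (P.key g k)) := by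
        rw [← Finset.mul_sum, Finset.sum_comm]
    _ ≤ (√N)⁻¹ * ∑ _g ∈ F, (1 + √δ) ^ j * τ 1 := by
        gcongr with g
        exact P.sum_root_le hτ hδ g hj
    _ = √N * (1 + √δ) ^ j * τ 1 := by
        rw [Finset.sum_const, nsmul_eq_mul]
        have hne : √N ≠ 0 := (Real.sqrt_pos.2 hN).ne'
        rw [show (F.card : ℝ) = √N * √N from (Real.mul_self_sqrt hN.le).symm]
        field_simp

/-- The gain of one node. -/
theorem Pay.node_sq_ge (hτ : IsTrace τ) {F : Finset G} (hF : F.Nonempty) {k : List Bool}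
    (hk : k.length < J) :
    τ (P.avg F k) - 8 * (τ (CFC.sqrt (P.avg F (true :: k))) +
        τ (CFC.sqrt (P.avg F (false :: k))) - τ (CFC.sqrt (P.avg F k))) ≤
      τ (P.node F k * P.node F k) := by
  set a := P.avg F (true :: k) with ha
  set b := P.avg F (false :: k) with hb
  have hab : a + b = P.avg F k := P.avg_split F k
  have hlim := comp_tendsto (P.row F k) (fun i : F × Bool => if i.2 then (1 : ℝ) else -1)
  rw [P.colSq_row F hk, P.colSgn_row F hk, ← P.avg_sub, ← ha, ← hb] at hlim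
  have hR : Tendsto (fun ε => τ (cfc (regInv ε) (P.avg F k) * (a - b) * cfc (regInv ε) (P.avg F k) *
      (cfc (regInv ε) (P.avg F k) * (a - b) * cfc (regInv ε) (P.avg F k))) +
      (ε ^ 4 + 8 * √(ε ^ 4)) * τ 1) (𝓝[>] 0) (𝓝 (τ (P.node F k * P.node F k))) := by
    have h0 : Tendsto (fun ε : ℝ => (ε ^ 4 + 8 * √(ε ^ 4)) * τ 1) (𝓝[>] 0) (𝓝 0) := by
      have : Continuous fun ε : ℝ => (ε ^ 4 + 8 * √(ε ^ 4)) * τ 1 := by fun_prop
      simpa using (this.tendsto 0).mono_left nhdsWithin_le_nhds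
    simpa [Pay.node] using (((hτ.continuous.tendsto _).comp (hlim.mul hlim)).add h0)
  refine ge_of_tendsto hR ?_
  filter_upwards [self_mem_nhdsWithin] with ε (hε : 0 < ε)
  have hh : cfc (regInv ε) (P.avg F k) * cfc (regInv ε) (P.avg F k) =
      cfc (qfun (ε ^ 4)) (a + b) := by
    rw [hab, ← cfc_mul _ _ _ (continuous_regInv hε).continuousOn
      (continuous_regInv hε).continuousOn]
    refine cfc_congr fun t _ => ?_
    show (√√(max t 0 + ε ^ 4))⁻¹ * (√√(max t 0 + ε ^ 4))⁻¹ = (√(max t 0 + ε ^ 4))⁻¹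
    rw [← mul_inv, Real.mul_self_sqrt (Real.sqrt_nonneg _)]
  have hlen : ∀ c : Bool, (c :: k).length ≤ J := fun c => by simpa using hk
  have := node_lower' hτ (pow_pos hε 4) (P.avg_nonneg F (hlen true)) (P.avg_nonneg F (hlen false))
    (hab ▸ P.avg_le_one hF hk.le) hh
  rw [hab] at this
  linarith

theorem Pay.le_X_sq (hτ : IsTrace τ) {F : Finset G} (hF : F.Nonempty)
    (hJ : 100 * Real.sqrt F.card ≤ J) (hδ : 0 ≤ δ) (hδJ : (1 + Real.sqrt δ) ^ J ≤ 2) :
    1 / 2 * τ 1 ≤ τ (P.X F * P.X F) := by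
  have h1 : 0 ≤ τ (1 : B) := hτ.one_nonneg
  have hN : (1 : ℝ) ≤ √(F.card : ℝ) := by
    rw [← Real.sqrt_one]; exact Real.sqrt_le_sqrt (by exact_mod_cast hF.card_pos)
  have hJ0 : (0 : ℝ) < J := by linarith
  set Φ : ℕ → ℝ := fun j => ∑ k ∈ keys j, τ (CFC.sqrt (P.avg F k)) with hΦ
  have hlevel : ∀ j ∈ Finset.range J, τ 1 - 8 * (Φ (j + 1) - Φ j) ≤
      ∑ k ∈ keys j, τ (P.node F k * P.node F k) := by
    intro j hj
    have e2 : Φ (j + 1) - Φ j = ∑ k ∈ keys j, (τ (CFC.sqrt (P.avg F (true :: k))) +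
        τ (CFC.sqrt (P.avg F (false :: k))) - τ (CFC.sqrt (P.avg F k))) := by
      simp only [hΦ, sum_keys_succ, Finset.sum_sub_distrib]
    rw [e2, ← P.sum_avg hF j, map_sum, Finset.mul_sum, ← Finset.sum_sub_distrib]
    exact Finset.sum_le_sum fun k hk => P.node_sq_ge hτ hF
      (by rw [length_of_mem_keys hk]; exact Finset.mem_range.1 hj)
  have hsum := Finset.sum_le_sum hlevel
  rw [Finset.sum_sub_distrib, Finset.sum_const, Finset.card_range, nsmul_eq_mul, ← Finset.mul_sum,
    Finset.sum_range_sub Φ] at hsum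
  have h0 : 0 ≤ Φ 0 := Finset.sum_nonneg fun k _ => hτ.of_nonneg (CFC.sqrt_nonneg _)
  have hΦJ : Φ J ≤ √(F.card : ℝ) * 2 * τ 1 :=
    (P.potential_le hτ hδ hF le_rfl).trans (by gcongr)
  have hX : τ (P.X F * P.X F) =
      (J : ℝ)⁻¹ * ∑ j ∈ Finset.range J, ∑ k ∈ keys j, τ (P.node F k * P.node F k) := by
    rw [Pay.X, smul_mul_smul_comm, map_smul, smul_eq_mul,
      sum_nodes_sq τ J _ fun k k' hk hk' hne => P.node_orth hτ hF hF hk hk' hne, ← mul_inv,
      Real.mul_self_sqrt hJ0.le]
  rw [hX, ← div_le_iff₀' (inv_pos.2 hJ0), div_inv_eq_mul]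
  nlinarith

end Vale.P095.Tracial
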