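import Vale.Agent.P095.Tracial.TreeBasic
import Vale.Agent.P095.Tracial.TreeKey
import Vale.Agent.P095.Tracial.CompressBound

/-!
# P095 (tracial route): upper bound, stability, equivariance of `X`
-/

noncomputable section

set_option linter.unusedSectionVars false

namespace Vale.P095.Tracial

variable {G B : Type*} [DecidableEq G] [CStarAlgebra B] [PartialOrder B] [StarOrderedRing B]
  {δ : ℝ} {J : ℕ} (P : Pay G B δ J) {τ : B →ₗ[ℝ] ℝ}

/-- If distinct nodes of the first `n` levels are orthogonal, squares add up. -/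
theorem tau_sq_sum {ι : Type*} [DecidableEq ι] (s : Finset ι) (x : ι → B)
    (h : ∀ i ∈ s, ∀ j ∈ s, i ≠ j → τ (x i * x j) = 0) :
    τ ((∑ i ∈ s, x i) * ∑ i ∈ s, x i) = ∑ i ∈ s, τ (x i * x i) := by
  rw [Finset.sum_mul, map_sum]
  refine Finset.sum_congr rfl fun i hi => ?_
  rw [Finset.mul_sum, map_sum,
    Finset.sum_eq_single i (fun j hj hne => h i hi j hj hne.symm) (fun h' => (h' hi).elim)]

theorem mem_levels {n : ℕ} {j : ℕ} (hj : j ∈ Finset.range n) {k : List Bool} (hk : k ∈ keys j) :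
    k.length < n := by
  rw [length_of_mem_keys hk]; exact Finset.mem_range.1 hj

/-- The levels as one set of positions. -/
theorem sum_levels {M : Type*} [AddCommMonoid M] (n : ℕ) (f : List Bool → M) :
    ∑ j ∈ Finset.range n, ∑ k ∈ keys j, f k = ∑ k ∈ (Finset.range n).biUnion keys, f k := by
  refine (Finset.sum_biUnion ?_).symm
  intro i _ j _ hij
  refine Finset.disjoint_left.2 fun k hk hk' => hij ?_
  rw [← length_of_mem_keys hk, ← length_of_mem_keys hk']

theorem tau_sq_levels (f : List Bool → B)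
    (h : ∀ k k', k.length < J → k'.length < J → k ≠ k' → τ (f k * f k') = 0) :
    τ (((Real.sqrt J)⁻¹ • ∑ j ∈ Finset.range J, ∑ k ∈ keys j, f k) *
        ((Real.sqrt J)⁻¹ • ∑ j ∈ Finset.range J, ∑ k ∈ keys j, f k))
      = (J : ℝ)⁻¹ * ∑ j ∈ Finset.range J, ∑ k ∈ keys j, τ (f k * f k) := by
  have hl : ∀ k ∈ (Finset.range J).biUnion keys, k.length < J := fun k hk => by
    obtain ⟨j, hj, hk⟩ := Finset.mem_biUnion.1 hk
    exact mem_levels hj hk
  rw [sum_levels, sum_levels, smul_mul_assoc, mul_smul_comm, smul_smul, map_smul, smul_eq_mul,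
    tau_sq_sum _ _ (fun k hk k' hk' hne => h k k' (hl k hk) (hl k' hk') hne), ← mul_inv,
    Real.mul_self_sqrt (Nat.cast_nonneg _)]

theorem tau_sum_avg {F : Finset G} (hF : F.Nonempty) (j : ℕ) :
    ∑ k ∈ keys j, τ (P.avg F k) = τ 1 := by
  rw [← map_sum, P.sum_avg hF]

theorem node_sq_le (hτ : IsTrace τ) (F : Finset G) {k : List Bool} (hk : k.length < J) :
    τ (P.node F k * P.node F k) ≤ τ (P.avg F k) := by
  rw [← P.colSq_row F hk]
  exact comp_sq_le hτ _ fun i => by split_ifs <;> norm_num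

theorem Pay.X_sq_le (hτ : IsTrace τ) {F : Finset G} (hF : F.Nonempty) (hJ : 0 < J) :
    τ (P.X F * P.X F) ≤ τ 1 := by
  rw [Pay.X, tau_sq_levels _ fun k k' hk hk' h => P.node_orth hτ hF hF hk hk' h]
  have hJ' : (0 : ℝ) < J := Nat.cast_pos.2 hJ
  rw [inv_mul_le_iff₀ hJ']
  calc ∑ j ∈ Finset.range J, ∑ k ∈ keys j, τ (P.node F k * P.node F k)
      ≤ ∑ j ∈ Finset.range J, ∑ k ∈ keys j, τ (P.avg F k) :=
        Finset.sum_le_sum fun j hj => Finset.sum_le_sum fun k hk =>
          node_sq_le P hτ F (mem_levels hj hk)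
    _ = J * τ 1 := by simp [tau_sum_avg P hF]

/-- The rows of a node padded by zero to a larger index set. -/
def Pay.padRow (F U : Finset G) (k : List Bool) (i : U × Bool) : B :=
  if h : (i.1 : G) ∈ F then P.row F k (⟨i.1, h⟩, i.2) else 0

theorem padRow_sq {F U : Finset G} {k : List Bool} (hk : k.length < J) (i : U × Bool) :
    star (P.padRow F U k i) * P.padRow F U k i
      = if (i.1 : G) ∈ F then (F.card : ℝ)⁻¹ • P.key i.1 (i.2 :: k) else 0 := by
  unfold Pay.padRow
  split
  · exact P.row_star_mul_self F hk _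
  · simp

theorem colSq_padRow {F U : Finset G} (hFU : F ⊆ U) {k : List Bool} (hk : k.length < J) :
    colSq (P.padRow F U k) = P.avg F k := by
  simp only [colSq, padRow_sq P hk, Fintype.sum_prod_type, Fintype.sum_bool]
  rw [Finset.sum_coe_sort U fun g => (if g ∈ F then (F.card : ℝ)⁻¹ • P.key g (true :: k) else 0)
    + if g ∈ F then (F.card : ℝ)⁻¹ • P.key g (false :: k) else 0, Pay.avg, Finset.smul_sum]
  rw [← Finset.sum_subset hFU (fun g _ hg => by simp [hg])]
  exact Finset.sum_congr rfl fun g hg => by simp [hg, ← smul_add, P.key_add]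

theorem node_eq_padRow {F U : Finset G} (hFU : F ⊆ U) {k : List Bool} (hk : k.length < J) :
    P.node F k = comp (P.padRow F U k) fun i : U × Bool => if i.2 then 1 else -1 := by
  refine comp_congr _ _ _ _ ((P.colSq_row F hk).trans (colSq_padRow P hFU hk).symm) ?_
  rw [P.colSgn_row F hk]
  simp only [colSgn, padRow_sq P hk, Fintype.sum_prod_type, Fintype.sum_bool, ↓reduceIte,
    Bool.false_eq_true, Complex.ofReal_one, Complex.ofReal_neg, one_smul, neg_smul,
    ← sub_eq_add_neg]
  rw [Finset.sum_coe_sort U fun g =>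
    (if g ∈ F then (F.card : ℝ)⁻¹ • P.key g (true :: k) else 0)
      - if g ∈ F then (F.card : ℝ)⁻¹ • P.key g (false :: k) else 0, Finset.smul_sum]
  rw [← Finset.sum_subset hFU (fun g _ hg => by simp [hg])]
  exact Finset.sum_congr rfl fun g hg => by simp [hg, ← smul_sub, P.key_sub]

theorem colSq_padRow_sub {F F' : Finset G} (hF' : F'.card = F.card) {k : List Bool}
    (hk : k.length < J) :
    colSq (P.padRow F (F ∪ F') k - P.padRow F' (F ∪ F') k)
      = (F.card : ℝ)⁻¹ • ∑ g ∈ (F \ F') ∪ (F' \ F), P.key g k := by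
  have hrow : ∀ i : (F ∪ F' : Finset G) × Bool, (i.1 : G) ∈ F → (i.1 : G) ∈ F' →
      P.padRow F (F ∪ F') k i = P.padRow F' (F ∪ F') k i := fun i h h' => by
    simp [Pay.padRow, h, h', Pay.row, hF']
  have hterm : ∀ i : (F ∪ F' : Finset G) × Bool,
      star ((P.padRow F (F ∪ F') k - P.padRow F' (F ∪ F') k) i)
          * (P.padRow F (F ∪ F') k - P.padRow F' (F ∪ F') k) i
        = if (i.1 : G) ∈ (F \ F') ∪ (F' \ F) then (F.card : ℝ)⁻¹ • P.key i.1 (i.2 :: k) else 0 := by
    intro i
    by_cases h : (i.1 : G) ∈ F <;> by_cases h' : (i.1 : G) ∈ F'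
    · simp [hrow i h h', h, h']
    · simpa [h, h', Pay.padRow] using P.row_star_mul_self F hk (⟨i.1, h⟩, i.2)
    · simpa [h, h', Pay.padRow, hF'] using P.row_star_mul_self F' hk (⟨i.1, h'⟩, i.2)
    · simp [h, h', Pay.padRow]
  simp only [colSq, hterm, Fintype.sum_prod_type, Fintype.sum_bool]
  rw [Finset.sum_coe_sort (F ∪ F') fun g =>
    (if g ∈ (F \ F') ∪ (F' \ F) then (F.card : ℝ)⁻¹ • P.key g (true :: k) else 0)
      + if g ∈ (F \ F') ∪ (F' \ F) then (F.card : ℝ)⁻¹ • P.key g (false :: k) else 0,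
    Finset.smul_sum]
  rw [← Finset.sum_subset (s₁ := (F \ F') ∪ (F' \ F)) (by intro g; simp; tauto)
    (fun g _ hg => by simp only [hg, ↓reduceIte, add_zero])]
  exact Finset.sum_congr rfl fun g hg => by simp only [hg, ↓reduceIte, ← smul_add, P.key_add]

theorem node_sub_sq_le (hτ : IsTrace τ) {F F' : Finset G} (hF' : F'.card = F.card)
    {k : List Bool} (hk : k.length < J) {a : ℝ} (ha : 0 < a) :
    τ ((P.node F k - P.node F' k) * (P.node F k - P.node F' k))
      ≤ 32 * a * ((F.card : ℝ)⁻¹ * ∑ g ∈ (F \ F') ∪ (F' \ F), τ (P.key g k))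
        + 2 * a⁻¹ * (τ (P.avg F k) + τ (P.avg F' k)) := by
  rw [node_eq_padRow P (Finset.subset_union_left (s₂ := F')) hk,
    node_eq_padRow P (Finset.subset_union_right (s₁ := F)) hk,
    ← colSq_padRow P (Finset.subset_union_left (s₂ := F')) hk,
    ← colSq_padRow P (Finset.subset_union_right (s₁ := F)) hk]
  refine (comp_sub_sq_le hτ _ _ (fun i => by split_ifs <;> norm_num) ha).trans (le_of_eq ?_)
  rw [colSq_padRow_sub P hF' hk, map_smul, map_sum, smul_eq_mul]

theorem Pay.X_sub_le (hτ : IsTrace τ) {F F' : Finset G} (hF : F.Nonempty)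
    (hF' : F'.card = F.card) (hJ : 0 < J) :
    τ ((P.X F - P.X F') * (P.X F - P.X F')) ≤
      300 * Real.sqrt ((((F \ F').card + (F' \ F).card : ℕ) : ℝ) / F.card) * τ 1 := by
  have hFne' : F'.Nonempty := Finset.card_pos.1 (hF'.symm ▸ hF.card_pos)
  set r : ℝ := (((F \ F').card + (F' \ F).card : ℕ) : ℝ) / F.card with hr
  rcases (show 0 ≤ r by positivity).eq_or_lt with h0 | hr0
  · have hFF : F = F' := by
      have h1 : (F \ F').card + (F' \ F).card = 0 := by
        have := h0.symm
        rw [hr, div_eq_zero_iff] at this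
        rcases this with h | h
        · exact_mod_cast h
        · exact absurd (Nat.cast_eq_zero.1 h) hF.card_pos.ne'
      exact Finset.Subset.antisymm (Finset.sdiff_eq_empty_iff_subset.1 (Finset.card_eq_zero.1 (by omega)))
        (Finset.sdiff_eq_empty_iff_subset.1 (Finset.card_eq_zero.1 (by omega)))
    subst hFF
    rw [← h0]; simp
  have h1 : 0 ≤ τ 1 := hτ.one_nonneg
  have hX : P.X F - P.X F'
      = (Real.sqrt J)⁻¹ • ∑ j ∈ Finset.range J, ∑ k ∈ keys j, (P.node F k - P.node F' k) := by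
    simp only [Pay.X, ← smul_sub, ← Finset.sum_sub_distrib]
  rw [hX, tau_sq_levels _ fun k k' hk hk' h => ?_]
  swap
  · simp only [sub_mul, mul_sub, map_sub, P.node_orth hτ hF hF hk hk' h,
      P.node_orth hτ hF hFne' hk hk' h, P.node_orth hτ hFne' hF hk hk' h,
      P.node_orth hτ hFne' hFne' hk hk' h, sub_zero]
  have hJ' : (0 : ℝ) < J := Nat.cast_pos.2 hJ
  rw [inv_mul_le_iff₀ hJ']
  have hs : 0 < √r := Real.sqrt_pos.2 hr0
  calc ∑ j ∈ Finset.range J, ∑ k ∈ keys j,
        τ ((P.node F k - P.node F' k) * (P.node F k - P.node F' k))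
      ≤ ∑ j ∈ Finset.range J, ∑ k ∈ keys j,
          (32 * (√r)⁻¹ * ((F.card : ℝ)⁻¹ * ∑ g ∈ (F \ F') ∪ (F' \ F), τ (P.key g k))
            + 2 * (√r)⁻¹⁻¹ * (τ (P.avg F k) + τ (P.avg F' k))) :=
        Finset.sum_le_sum fun j hj => Finset.sum_le_sum fun k hk =>
          node_sub_sq_le P hτ hF' (mem_levels hj hk) (inv_pos.2 hs)
    _ = J * ((32 * (√r)⁻¹ * r + 4 * √r) * τ 1) := by
        have hd : Disjoint (F \ F') (F' \ F) :=
          Finset.disjoint_left.2 fun g hg hg' => (Finset.mem_sdiff.1 hg).2 (Finset.mem_sdiff.1 hg').1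
        have hlev : ∀ j, ∑ k ∈ keys j,
            (32 * (√r)⁻¹ * ((F.card : ℝ)⁻¹ * ∑ g ∈ (F \ F') ∪ (F' \ F), τ (P.key g k))
              + 2 * (√r)⁻¹⁻¹ * (τ (P.avg F k) + τ (P.avg F' k)))
            = (32 * (√r)⁻¹ * r + 4 * √r) * τ 1 := by
          intro j
          rw [Finset.sum_add_distrib, ← Finset.mul_sum, ← Finset.mul_sum, ← Finset.mul_sum,
            Finset.sum_add_distrib, tau_sum_avg P hF, tau_sum_avg P hFne', Finset.sum_comm,
            Finset.sum_congr rfl fun g _ =>
              (map_sum τ (fun k => P.key g k) (keys j)).symm.trans (congrArg τ (P.sum_key g j)),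
            Finset.sum_const, nsmul_eq_mul, inv_inv, Finset.card_union_of_disjoint hd, hr]
          ring
        rw [Finset.sum_congr rfl fun j _ => hlev j, Finset.sum_const, Finset.card_range,
          nsmul_eq_mul]
    _ ≤ J * (300 * √r * τ 1) := by
        have e : 32 * (√r)⁻¹ * r = 32 * √r := by
          field_simp
          rw [Real.sq_sqrt hr0.le]
        rw [e]
        refine mul_le_mul_of_nonneg_left (mul_le_mul_of_nonneg_right ?_ h1) hJ'.le
        linarith

theorem map_key (φ : B →⋆ₐ[ℂ] B) (e : G ≃ G)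
    (h : ∀ k g, k.length < J → φ (P.s k g) = P.s k (e g)) {k : List Bool} (hk : k.length ≤ J)
    (g : G) : φ (P.key g k) = P.key (e g) k := by
  induction k with
  | nil => simp [Pay.key]
  | cons b k ih =>
    simp only [List.length_cons] at hk
    rw [Pay.key, Pay.key, map_mul, ih (by omega)]
    congr 1
    cases b <;> simp [Pay.half, h k g (by omega), ← Complex.coe_smul, map_smul]

/-- A star homomorphism moving the payloads moves `X` to the translated set. -/
theorem Pay.map_X (φ : B →⋆ₐ[ℂ] B) (e : G ≃ G)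
    (h : ∀ k g, k.length < J → φ (P.s k g) = P.s k (e g))
    (F : Finset G) : φ (P.X F) = P.X (F.map e.toEmbedding) := by
  have hsmul : ∀ (c : ℝ) (x : B), φ (c • x) = c • φ x := fun c x => by
    rw [← Complex.coe_smul, map_smul, Complex.coe_smul]
  have hnode : ∀ k : List Bool, k.length < J →
      φ (P.node F k) = P.node (F.map e.toEmbedding) k := by
    intro k hk
    rw [Pay.node, map_comp]
    refine comp_congr _ _ _ _ ?_ ?_
    · rw [show colSq (fun i => φ (P.row F k i)) = φ (colSq (P.row F k)) by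
        simp [colSq, map_sum, map_star], P.colSq_row F hk, P.colSq_row _ hk, Pay.avg, Pay.avg,
        hsmul, map_sum, Finset.card_map, Finset.sum_map]
      simp only [Equiv.coe_toEmbedding, map_key P φ e h hk.le]
    · rw [show colSgn (fun i => φ (P.row F k i)) (fun i : F × Bool => if i.2 then 1 else -1)
          = φ (colSgn (P.row F k) fun i : F × Bool => if i.2 then 1 else -1) by
        simp [colSgn, map_sum, map_star, -Complex.coe_smul], P.colSgn_row F hk,
        P.colSgn_row _ hk, hsmul, map_sum, Finset.card_map, Finset.sum_map]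
      simp only [Equiv.coe_toEmbedding, map_mul, map_key P φ e h hk.le, h k _ hk]
  rw [Pay.X, Pay.X, hsmul, map_sum]
  exact congrArg _ (Finset.sum_congr rfl fun j hj => by
    rw [map_sum]
    exact Finset.sum_congr rfl fun k hk => hnode k (mem_levels hj hk))

end Vale.P095.Tracial
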