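import Vale.Agent.P095.Tracial.TraceIneq

/-!
# P095: pull-backs, weighted pull-backs and conditioning of traces

No order appears in the statements; the proofs use the spectral order.
-/

set_option linter.unusedSectionVars false

namespace Vale.P095.Tracial

variable {B C : Type*} [CStarAlgebra B] [CStarAlgebra C]

/-- The pull-back `z ↦ t (φ z)`. -/
noncomputable def pullLin (t : C →ₗ[ℝ] ℝ) (φ : B →⋆ₐ[ℂ] C) : B →ₗ[ℝ] ℝ :=
  t.comp (φ.toAlgHom.toLinearMap.restrictScalars ℝ)

theorem pullLin_apply (t : C →ₗ[ℝ] ℝ) (φ : B →⋆ₐ[ℂ] C) (x : B) : pullLin t φ x = t (φ x) := rfl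

/-- The weighted pull-back `z ↦ t (k* φ(z) k)`. -/
noncomputable def weightLin (t : C →ₗ[ℝ] ℝ) (φ : B →⋆ₐ[ℂ] C) (k : C) : B →ₗ[ℝ] ℝ :=
  t.comp ((LinearMap.mulRight ℝ k).comp ((LinearMap.mulLeft ℝ (star k)).comp
    (φ.toAlgHom.toLinearMap.restrictScalars ℝ)))

theorem weightLin_apply (t : C →ₗ[ℝ] ℝ) (φ : B →⋆ₐ[ℂ] C) (k : C) (x : B) :
    weightLin t φ k x = t (star k * φ x * k) := rfl

namespace IsTrace

variable {t : C →ₗ[ℝ] ℝ}

theorem pull (ht : IsTrace t) (φ : B →⋆ₐ[ℂ] C) : IsTrace (pullLin t φ) where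
  nonneg x := by
    rw [pullLin_apply, map_mul φ, StarHomClass.map_star φ]
    exact ht.nonneg _
  comm x y := by rw [pullLin_apply, pullLin_apply, map_mul φ, map_mul φ, ht.comm]
  map_star x := by rw [pullLin_apply, pullLin_apply, StarHomClass.map_star φ, ht.map_star]

/-- Weighted pull-backs are traces when the weight commutes with the image. -/
theorem weight (ht : IsTrace t) (φ : B →⋆ₐ[ℂ] C) {k : C} (hk : ∀ b, Commute k (φ b)) :
    IsTrace (weightLin t φ k) where
  nonneg x := by
    rw [weightLin_apply, map_mul φ, StarHomClass.map_star φ]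
    simpa [star_mul, mul_assoc] using ht.nonneg (φ x * k)
  comm x y := by
    have hk' : ∀ b, star k * φ b = φ b * star k := fun b => by
      simpa [StarHomClass.map_star φ] using congrArg star (hk (star b)).eq.symm
    rw [weightLin_apply, weightLin_apply]
    calc t (star k * φ (x * y) * k) = t (φ x * (star k * (φ y * k))) := by
          rw [map_mul φ, ← mul_assoc (star k), hk' x]; simp only [mul_assoc]
      _ = t (star k * (φ y * k) * φ x) := ht.comm _ _
      _ = t (star k * φ (y * x) * k) := by
          rw [map_mul φ]; simp only [mul_assoc]; rw [(hk x).eq]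
  map_star x := by
    rw [weightLin_apply, weightLin_apply, ← ht.map_star (star k * φ x * k)]
    simp [star_mul, StarHomClass.map_star φ, mul_assoc]

section Order

attribute [local instance] CStarAlgebra.spectralOrder CStarAlgebra.spectralOrderedRing

/-- `t (y* a y) ≤ ‖a‖ t (y* y)`. -/
theorem conj_le (ht : IsTrace t) {a : C} (ha : IsSelfAdjoint a) (y : C) :
    t (star y * a * y) ≤ ‖a‖ * t (star y * y) := by
  have h := ht.mono (star_left_conjugate_le_conjugate ha.le_algebraMap_norm_self y)
  rwa [Algebra.algebraMap_eq_smul_one, mul_smul_comm, mul_one, smul_mul_assoc, map_smul,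
    smul_eq_mul] at h

/-- Monotonicity through the functional calculus. -/
theorem cfc_le (ht : IsTrace t) {f g : ℝ → ℝ} {x : C} (hf : Continuous f) (hg : Continuous g)
    (h : ∀ r ∈ spectrum ℝ x, f r ≤ g r) : t (cfc f x) ≤ t (cfc g x) :=
  ht.mono (cfc_mono h hf.continuousOn hg.continuousOn)

/-- Conditioning: an element killed by all traces stays killed after multiplication by anything
commuting with its copy. -/
theorem balanced_mul (ht : IsTrace t) (φ : B →⋆ₐ[ℂ] C) {x : B} (hsa : IsSelfAdjoint x)
    (hx : ∀ t' : B →ₗ[ℝ] ℝ, IsTrace t' → t' x = 0) {M : C} (hM : ∀ b, Commute M (φ b)) :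
    t (M * φ x) = 0 := by
  have hx1 : t (φ x) = 0 := hx _ (ht.pull φ)
  have hM' : ∀ b, Commute (star M) (φ b) := fun b => by
    show star M * φ b = φ b * star M
    simpa [StarHomClass.map_star φ] using congrArg star (hM (star b)).eq.symm
  set N : C := M + star M with hN
  have hNs : IsSelfAdjoint N := IsSelfAdjoint.add_star_self M
  set P : C := N + algebraMap ℝ C ‖N‖ with hP
  have hP0 : 0 ≤ P := by
    have h := hNs.neg.le_algebraMap_norm_self
    rw [norm_neg, ← sub_nonneg, sub_neg_eq_add, add_comm] at h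
    exact h
  set k : C := CFC.sqrt P with hk
  have hks : star k = k := (CFC.sqrt_nonneg P).isSelfAdjoint.star_eq
  have hkc : ∀ b, Commute k (φ b) := fun b =>
    Commute.cfcₙ_nnreal (((hM b).add_left (hM' b)).add_left
      (Algebra.commute_algebraMap_left _ _)) _
  have h0 : t (P * φ x) = 0 := by
    have h := hx _ (ht.weight φ hkc)
    rwa [weightLin_apply, hks, mul_assoc, ← (hkc x).eq, ← mul_assoc, hk,
      CFC.sqrt_mul_sqrt_self P hP0] at h
  have hs : t (star M * φ x) = t (M * φ x) := by
    rw [← ht.map_star (M * φ x), star_mul, ← StarHomClass.map_star φ x, hsa.star_eq, (hM' x).eq]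
  rw [hP, hN, add_mul, add_mul, Algebra.algebraMap_eq_smul_one, smul_mul_assoc, one_mul, map_add,
    map_add, map_smul, hx1, hs, smul_zero] at h0
  linarith

end Order

end IsTrace

end Vale.P095.Tracial
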