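import Vale.Agent.P095.Tracial.Limit
import Vale.Agent.P095.Tracial.TreeBounds
import Vale.Agent.P095.Tracial.Weight
import Vale.Agent.P095.Tracial.Payload

/-!
# P095 (tracial route): assembly (owner: helper19)
-/

open Filter Topology
open Vale.P101

noncomputable section

namespace Vale.P095.Tracial

theorem one_nonneg_of {B : Type*} [CStarAlgebra B] {τ : B →ₗ[ℝ] ℝ} (hτ : IsTrace τ) :
    0 ≤ τ 1 := by
  have h := hτ.nonneg 1
  rwa [star_one, mul_one] at h

variable {G : Type*} [Group G] {A : Type*} [CStarAlgebra A] {ω : Ultrafilter ℕ}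
  {α : G →* (A ≃⋆ₐ[ℂ] A)}

theorem Sub.coe_act (S : Sub α ω) (g : G) (x : S.S) :
    ((S.act g x : S.S) : FOmega A ω) = Tracial.act α g (x : FOmega A ω) := rfl

theorem Sub.act_mul (S : Sub α ω) (g h : G) (x : S.S) :
    S.act (g * h) x = S.act g (S.act h x) :=
  Subtype.ext (Tracial.act_mul α g h (x : FOmega A ω))

section Positions

/-- The positions of length `< J`. -/
abbrev positions (J : ℕ) : Finset (List Bool) := (Finset.range J).biUnion keys

theorem mem_positions {J : ℕ} {k : List Bool} (h : k.length < J) : k ∈ positions J :=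
  Finset.mem_biUnion.2 ⟨k.length, Finset.mem_range.2 h, mem_keys k⟩

variable {S S' : Sub α ω} {δ : ℝ} {J : ℕ}

/-- The payloads obtained from commuting equivariant copies. -/
def payOf (π : {k // k ∈ positions J} → (S.S →⋆ₐ[ℂ] S'.S))
    (hπ : ∀ i j, i ≠ j → ∀ a b, Commute (π i a) (π j b)) (x : S.S) (hx : IsSelfAdjoint x)
    (hx1 : ‖x‖ ≤ 1)
    (hbal : ∀ t : S.S →ₗ[ℝ] ℝ, IsTrace t → t x = 0 ∧ t (1 - x * x) ≤ δ * t 1) :
    Pay G S'.S δ J where
  s k g := if h : k ∈ positions J then π ⟨k, h⟩ (S.act g x) else 0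
  D k := if h : k ∈ positions J then Set.range (π ⟨k, h⟩) else ∅
  mem k g hk := by
    rw [dif_pos (mem_positions hk), dif_pos (mem_positions hk)]
    exact ⟨_, rfl⟩
  sa k g := by
    split_ifs
    · exact (hx.map _).map _
    · exact IsSelfAdjoint.zero _
  norm_le k g := by
    split_ifs
    · exact ((NonUnitalStarAlgHom.norm_apply_le _ _).trans
        (NonUnitalStarAlgHom.norm_apply_le _ _)).trans hx1
    · simp
  comm k k' hk hk' hne a ha b hb := by
    rw [dif_pos (mem_positions hk)] at ha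
    rw [dif_pos (mem_positions hk')] at hb
    obtain ⟨a, rfl⟩ := ha
    obtain ⟨b, rfl⟩ := hb
    exact hπ _ _ (fun h => hne (Subtype.mk.injEq .. |>.mp h)) a b
  bal τ hτ k g M hk hM := by
    rw [dif_pos (mem_positions hk)]
    rw [dif_pos (mem_positions hk)] at hM
    refine hτ.balanced_mul _ (hx.map _) (fun t ht => ?_) fun b => hM _ ⟨b, rfl⟩
    exact (hbal _ (ht.pull (S.act g))).1
  sym τ hτ k g M hk hM := by
    rw [dif_pos (mem_positions hk)]
    rw [dif_pos (mem_positions hk)] at hM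
    have h := (hbal _ (((hτ.weight _ fun b => hM _ ⟨b, rfl⟩).pull (S.act g)))).2
    simp only [pullLin_apply, weightLin_apply, map_sub (S.act g), map_one, map_mul (S.act g), mul_one,
      map_sub (π ⟨k, mem_positions hk⟩), map_mul (π ⟨k, mem_positions hk⟩)] at h
    exact h

theorem payOf_map (π : {k // k ∈ positions J} → (S.S →⋆ₐ[ℂ] S'.S))
    (hπ : ∀ i j, i ≠ j → ∀ a b, Commute (π i a) (π j b)) (x : S.S) (hx : IsSelfAdjoint x)
    (hx1 : ‖x‖ ≤ 1)
    (hbal : ∀ t : S.S →ₗ[ℝ] ℝ, IsTrace t → t x = 0 ∧ t (1 - x * x) ≤ δ * t 1)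
    (heq : ∀ i g b, π i (S.act g b) = S'.act g (π i b)) (g : G) (k : List Bool) (h : G)
    (hk : k.length < J) :
    S'.act g ((payOf π hπ x hx hx1 hbal).s k h) = (payOf π hπ x hx hx1 hbal).s k (g * h) := by
  simp only [payOf, dif_pos (mem_positions hk)]
  rw [← heq, ← Sub.act_mul]

end Positions

variable [Countable G] [TopologicalSpace.SeparableSpace A]

theorem exists_almost_invariant_model (hω : (ω : Filter ℕ) ≤ cofinite)
    (α : G →* (A ≃⋆ₐ[ℂ] A)) (hchar : NoCharacters (FOmega A ω)) (hG : IsFolner G) (Sg : Finset G)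
    (ε : ℝ) (hε : 0 < ε) :
    ∃ (S : Sub α ω) (u : S.S), IsSelfAdjoint u ∧ ‖u‖ ≤ 1 ∧
      ∀ t : S.S →ₗ[ℝ] ℝ, IsTrace t → t u = 0 ∧ t (1 - u * u) ≤ ε * t 1 ∧
        ∀ g ∈ Sg, t ((S.act g u - u) * (S.act g u - u)) ≤ ε * t 1 := by
  classical
  -- constants
  set R : ℝ := 8 / ε with hR
  have hR0 : 0 < R := by positivity
  set Cst : ℝ := Real.exp (16 * (R + 1)) * (16 * (R + 1)) with hC
  have hC0 : 0 < Cst := by positivity
  set e₀ : ℝ := ε / Cst with he₀
  have he₀0 : 0 < e₀ := by positivity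
  set η : ℝ := (e₀ / 300) ^ 2 / 2 with hη
  obtain ⟨F, hF, hFS⟩ := hG Sg η (by positivity)
  set J : ℕ := ⌈100 * Real.sqrt F.card⌉₊ + 1 with hJ
  have hJ0 : 0 < J := Nat.succ_pos _
  have hJF : 100 * Real.sqrt F.card ≤ J := by
    refine (Nat.le_ceil _).trans ?_
    exact_mod_cast Nat.le_succ _
  set δ : ℝ := ((1 : ℝ) / (2 * J)) ^ 2 with hδ
  have hδ0 : 0 < δ := by positivity
  have hδJ : (1 + Real.sqrt δ) ^ J ≤ 2 := by
    have hJR : (0 : ℝ) < J := by exact_mod_cast hJ0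
    have hd : Real.sqrt δ = 1 / (2 * J) := Real.sqrt_sq (by positivity)
    calc (1 + Real.sqrt δ) ^ J ≤ Real.exp (1 / (2 * J)) ^ J := by
          rw [hd]
          refine pow_le_pow_left₀ (by positivity) ?_ _
          linarith [Real.add_one_le_exp (1 / (2 * (J : ℝ)))]
      _ = Real.exp (1 / 2) := by
          rw [← Real.exp_nat_mul]; congr 1; field_simp
      _ ≤ 2 := by
          rw [← Real.le_log_iff_exp_le (by norm_num)]
          have := Real.log_two_gt_d9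
          norm_num at this ⊢
          linarith
  -- payload, copies, the element `X`
  obtain ⟨S, x, hx, hx1, hxt⟩ := exists_payload (ω := ω) α hω hchar hδ0
  obtain ⟨S', π, hπ, heq⟩ := exists_copies hω S {k // k ∈ positions J}
  let P := payOf π hπ x hx hx1 hxt
  letI : PartialOrder S'.S := CStarAlgebra.spectralOrder _
  haveI : StarOrderedRing S'.S := CStarAlgebra.spectralOrderedRing _
  set X : S'.S := P.X F with hX
  have hXsa : IsSelfAdjoint X := P.X_isSelfAdjoint F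
  have hXbal : ∀ t : S'.S →ₗ[ℝ] ℝ, IsTrace t → t X = 0 := fun t ht => P.X_balanced ht hF
  have hXlow : ∀ t : S'.S →ₗ[ℝ] ℝ, IsTrace t → 1 / 2 * t 1 ≤ t (X * X) :=
    fun t ht => P.le_X_sq ht hF hJF hδ0.le hδJ
  have hXup : ∀ t : S'.S →ₗ[ℝ] ℝ, IsTrace t → t (X * X) ≤ 1 * t 1 :=
    fun t ht => by rw [one_mul]; exact P.X_sq_le ht hF hJ0
  have hXst : ∀ g ∈ Sg, ∀ t : S'.S →ₗ[ℝ] ℝ, IsTrace t →
      t ((S'.act g X - X) * (S'.act g X - X)) ≤ e₀ * t 1 := by
    intro g hg t ht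
    have hmap : S'.act g X = P.X (F.map (Equiv.mulLeft g).toEmbedding) :=
      P.map_X (S'.act g) (Equiv.mulLeft g) (fun k h hk => payOf_map π hπ x hx hx1 hxt heq g k h hk) F
    set F' : Finset G := F.map (Equiv.mulLeft g).toEmbedding with hF'
    have hcard : F'.card = F.card := Finset.card_map _
    have hle := P.X_sub_le ht hF hcard hJ0
    rw [hmap, hX]
    rw [← neg_mul_neg, neg_sub]
    refine hle.trans (mul_le_mul_of_nonneg_right ?_ (one_nonneg_of ht))
    have hd : (((F \ F').card + (F' \ F).card : ℕ) : ℝ) / F.card ≤ 2 * η := by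
      have h1 := hFS g hg
      have h2 : F.image (g * ·) = F' := by
        rw [hF', Finset.map_eq_image]; rfl
      rw [h2] at h1
      have h3 : (F \ F').card = (F' \ F).card := Finset.card_sdiff_comm hcard.symm
      rw [h3, div_le_iff₀ (by exact_mod_cast hF.card_pos)]
      push_cast
      linarith
    calc 300 * Real.sqrt _ ≤ 300 * Real.sqrt (2 * η) := by gcongr
      _ = e₀ := by
          rw [hη, show (2 : ℝ) * ((e₀ / 300) ^ 2 / 2) = (e₀ / 300) ^ 2 by ring,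
            Real.sqrt_sq (by positivity)]
          ring
  -- saturation
  set γ : ℝ := 1 / (2 * (‖X‖ + 1)) with hγ
  have hn : 0 ≤ ‖X‖ := norm_nonneg _
  have hγ0 : 0 < γ := by positivity
  have hγX : γ * ‖X‖ ≤ 1 / 2 := by
    rw [hγ, div_mul_eq_mul_div, one_mul, div_le_iff₀ (by positivity)]
    linarith
  have hγ1 : γ ^ 2 ≤ 1 := by
    rw [hγ, div_pow, one_pow, div_le_one (by positivity)]
    nlinarith
  set T : ℕ := ⌈R / γ ^ 2⌉₊ with hT
  have hT0 : 0 < T := Nat.ceil_pos.2 (by positivity)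
  have hTlo : R ≤ γ ^ 2 * T := by
    have := (div_le_iff₀ (by positivity : (0 : ℝ) < γ ^ 2)).1 (Nat.le_ceil (R / γ ^ 2))
    linarith
  have hThi : γ ^ 2 * T ≤ R + 1 := by
    have h := (Nat.ceil_lt_add_one (a := R / γ ^ 2) (by positivity)).le
    calc γ ^ 2 * T ≤ γ ^ 2 * (R / γ ^ 2 + 1) := by gcongr
      _ = R + γ ^ 2 := by field_simp
      _ ≤ R + 1 := by linarith
  obtain ⟨S'', ρ, hρ, hρeq⟩ := exists_copies hω S' (Fin T)
  let ρ' : ℕ → (S'.S →⋆ₐ[ℂ] S''.S) := fun i => if h : i < T then ρ ⟨i, h⟩ else ρ ⟨0, hT0⟩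
  have hρ' : ∀ i j, i < T → j < T → i ≠ j → ∀ a b, Commute (ρ' i a) (ρ' j b) := by
    intro i j hi hj hij a b
    simp only [ρ', dif_pos hi, dif_pos hj]
    exact hρ _ _ (fun h => hij (congrArg Fin.val h)) a b
  set u : S''.S := sat γ ρ' X T with hu
  obtain ⟨husa, hun⟩ := sat_props hγ0 hγX hXsa hρ'
  refine ⟨S'', u, husa, hun, fun t ht => ?_⟩
  refine ⟨sat_balanced hγ0 hγX hXsa hρ' hXbal _ ht, ?_, fun g hg => ?_⟩
  · have h : t (1 - u * u) ≤ 4 / (1 / 2 * γ ^ 2 * T) * t 1 :=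
      sat_defect (by norm_num) hγ0 hγX hXsa hT0 hρ' hXbal hXlow _ ht
    refine h.trans (mul_le_mul_of_nonneg_right ?_ (one_nonneg_of ht))
    rw [div_le_iff₀ (by positivity)]
    have : ε * R = 8 := by rw [hR]; field_simp
    nlinarith
  · have h : t ((S''.act g u - u) * (S''.act g u - u)) ≤
        Real.exp (16 * 1 * γ ^ 2 * T) * (16 * γ ^ 2 * T * e₀) * t 1 :=
      sat_stable he₀0.le zero_le_one hγ0 hγX hXsa hρ' hXbal hXup (S'.act g) (S''.act g)
        (fun i hi b => by simp only [ρ', dif_pos hi]; exact (hρeq _ g b).symm) (hXst g hg) _ ht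
    refine h.trans (mul_le_mul_of_nonneg_right ?_ (one_nonneg_of ht))
    calc Real.exp (16 * 1 * γ ^ 2 * T) * (16 * γ ^ 2 * T * e₀)
        ≤ Real.exp (16 * (R + 1)) * (16 * (R + 1) * e₀) := by
          rw [show 16 * 1 * γ ^ 2 * (T : ℝ) = 16 * (γ ^ 2 * T) by ring,
            show 16 * γ ^ 2 * (T : ℝ) = 16 * (γ ^ 2 * T) by ring]
          gcongr
      _ = ε := by rw [he₀, hC]; field_simp

/-- The same element inside `F_ω(A)`. -/
theorem exists_almost_invariant (hω : (ω : Filter ℕ) ≤ cofinite) (α : G →* (A ≃⋆ₐ[ℂ] A))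
    (hchar : NoCharacters (FOmega A ω)) (hG : IsFolner G) (Sg : Finset G) (ε : ℝ) (hε : 0 < ε) :
    ∃ u : FOmega A ω, IsSelfAdjoint u ∧ ‖u‖ ≤ 1 ∧
      ∀ t : FOmega A ω →ₗ[ℝ] ℝ, IsTrace t → t u = 0 ∧ t (1 - u * u) ≤ ε * t 1 ∧
        ∀ g ∈ Sg, t ((act α g u - u) * (act α g u - u)) ≤ ε * t 1 := by
  obtain ⟨S, u, hu, hu1, h⟩ := exists_almost_invariant_model hω α hchar hG Sg ε hε
  refine ⟨(u : FOmega A ω), hu.map S.S.subtype, hu1, fun t ht => ?_⟩
  exact h _ (ht.pull S.S.subtype)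

/-- Theorem T: equivariant uniform property Gamma (two pieces). -/
theorem exists_gamma_sequence (hω : (ω : Filter ℕ) ≤ cofinite) (α : G →* (A ≃⋆ₐ[ℂ] A))
    (hchar : NoCharacters (FOmega A ω)) (hG : IsFolner G) :
    ∃ u : ℕ → A, (∀ n, IsSelfAdjoint (u n) ∧ ‖u n‖ ≤ 1) ∧
      (∀ a, Tendsto (fun n => ‖u n * a - a * u n‖) atTop (𝓝 0)) ∧
      (∀ a, ∀ ε : ℝ, 0 < ε → ∀ᶠ n in atTop, ∀ τ : TracialState A, ‖τ.toLin (a * u n)‖ ≤ ε) ∧
      (∀ ε : ℝ, 0 < ε → ∀ᶠ n in atTop, ∀ τ : TracialState A,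
        (τ.toLin (1 - u n * u n)).re ≤ ε) ∧
      ∀ g, ∀ ε : ℝ, 0 < ε → ∀ᶠ n in atTop, ∀ τ : TracialState A,
        (τ.toLin ((α g (u n) - u n) * (α g (u n) - u n))).re ≤ ε :=
  exists_sequence hω α (exists_almost_invariant hω α hchar hG)

end Vale.P095.Tracial
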