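import Mathlib

/-!
# P095: inequalities for a positive trace on a C*-algebra

A trace here is a real linear functional `τ` with `0 ≤ τ (star x * x)`,
`τ (x * y) = τ (y * x)` and `τ (star x) = τ x` (the real part of a tracial positive functional).
Contents: Cauchy-Schwarz, the Lipschitz bounds for positive parts, the Powers-Stormer bound in
the fourth norm, the odd square root bound, the sandwich bound and the increment bound.
-/

open scoped Topology

set_option linter.unusedSectionVars false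
set_option linter.unusedVariables false
set_option linter.unusedSimpArgs false

namespace Vale.P095.Tracial

section

variable {E : Type*} [CStarAlgebra E]

/-- The real part of a positive tracial functional. -/
structure IsTrace (τ : E →ₗ[ℝ] ℝ) : Prop where
  nonneg : ∀ x, 0 ≤ τ (star x * x)
  comm : ∀ x y, τ (x * y) = τ (y * x)
  map_star : ∀ x, τ (star x) = τ x

end

variable {E : Type*} [CStarAlgebra E] [PartialOrder E] [StarOrderedRing E]
variable {τ : E →ₗ[ℝ] ℝ}

namespace IsTrace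

theorem of_nonneg (hτ : IsTrace τ) {a : E} (ha : 0 ≤ a) : 0 ≤ τ a := by
  have h := hτ.nonneg (CFC.sqrt a)
  rwa [(CFC.sqrt_nonneg a).isSelfAdjoint.star_eq, CFC.sqrt_mul_sqrt_self a ha] at h

theorem mono (hτ : IsTrace τ) {a b : E} (h : a ≤ b) : τ a ≤ τ b := by
  have := hτ.of_nonneg (sub_nonneg.mpr h)
  rw [map_sub] at this
  linarith

theorem one_nonneg (hτ : IsTrace τ) : 0 ≤ τ 1 := by
  simpa using hτ.nonneg 1

theorem sq_nonneg (hτ : IsTrace τ) {x : E} (hx : IsSelfAdjoint x) : 0 ≤ τ (x * x) := by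
  simpa [hx.star_eq] using hτ.nonneg x

theorem mul_nonneg (hτ : IsTrace τ) {a b : E} (ha : 0 ≤ a) (hb : 0 ≤ b) : 0 ≤ τ (a * b) := by
  have hs := (CFC.sqrt_nonneg a).isSelfAdjoint
  have h := hτ.of_nonneg (hs.conjugate_nonneg hb)
  rwa [hτ.comm, ← mul_assoc, CFC.sqrt_mul_sqrt_self a ha] at h

theorem mul_le_mul_left (hτ : IsTrace τ) {a b c : E} (h : a ≤ b) (hc : 0 ≤ c) :
    τ (a * c) ≤ τ (b * c) := by
  have := hτ.mul_nonneg (sub_nonneg.mpr h) hc
  rw [sub_mul, map_sub] at this
  linarith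

/-- Cauchy-Schwarz. -/
theorem cauchy_schwarz (hτ : IsTrace τ) (x y : E) :
    τ (star x * y) ^ 2 ≤ τ (star x * x) * τ (star y * y) := by
  have hsym : τ (star y * x) = τ (star x * y) := by
    rw [← hτ.map_star (star y * x)]
    simp [star_mul]
  have h : ∀ t : ℝ, 0 ≤ τ (star y * y) * (t * t) + (2 * τ (star x * y)) * t + τ (star x * x) := by
    intro t
    have h0 := hτ.nonneg (x + t • y)
    simp only [star_add, star_smul, star_trivial, add_mul, mul_add, smul_mul_assoc,
      mul_smul_comm, map_add, map_smul, smul_eq_mul, hsym] at h0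
    linarith
  have := discrim_le_zero h
  simp only [discrim] at this
  nlinarith

theorem cauchy_schwarz_sa (hτ : IsTrace τ) {x y : E} (hx : IsSelfAdjoint x)
    (hy : IsSelfAdjoint y) : τ (x * y) ^ 2 ≤ τ (x * x) * τ (y * y) := by
  simpa [hx.star_eq, hy.star_eq] using hτ.cauchy_schwarz x y

theorem mul_le_sqrt_mul_sqrt (hτ : IsTrace τ) {x y : E} (hx : IsSelfAdjoint x)
    (hy : IsSelfAdjoint y) : τ (x * y) ≤ √(τ (x * x)) * √(τ (y * y)) := by
  rw [← Real.sqrt_mul (hτ.sq_nonneg hx)]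
  exact Real.le_sqrt_of_sq_le (hτ.cauchy_schwarz_sa hx hy)

theorem add_mul_self_le (hτ : IsTrace τ) (x y : E) :
    τ (star (x + y) * (x + y)) ≤ 2 * τ (star x * x) + 2 * τ (star y * y) := by
  have h := hτ.nonneg (x - y)
  simp only [star_sub, star_add, sub_mul, mul_sub, add_mul, mul_add, map_sub, map_add] at h ⊢
  linarith

/-! ### Positive parts -/

theorem lipschitz_aux (hτ : IsTrace τ) (a b : E) (ha : IsSelfAdjoint a) (hb : IsSelfAdjoint b) :
    τ ((a - b) * (a - b)) = τ ((a⁺ - b⁺) * (a⁺ - b⁺)) + τ ((a⁻ - b⁻) * (a⁻ - b⁻))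
      + 2 * (τ (a⁺ * b⁻) + τ (b⁺ * a⁻)) := by
  have hab : a - b = (a⁺ - b⁺) - (a⁻ - b⁻) := by
    calc a - b = (a⁺ - a⁻) - (b⁺ - b⁻) := by
          rw [CFC.posPart_sub_negPart a, CFC.posPart_sub_negPart b]
      _ = (a⁺ - b⁺) - (a⁻ - b⁻) := by abel
  rw [hab]
  simp only [sub_mul, mul_sub, map_sub, CFC.posPart_mul_negPart, CFC.negPart_mul_posPart, map_zero]
  rw [hτ.comm a⁻ b⁺, hτ.comm b⁻ a⁺]
  ring

theorem posPart_lipschitz (hτ : IsTrace τ) {a b : E} (ha : IsSelfAdjoint a)
    (hb : IsSelfAdjoint b) :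
    τ ((a⁺ - b⁺) * (a⁺ - b⁺)) + τ ((a⁻ - b⁻) * (a⁻ - b⁻)) ≤ τ ((a - b) * (a - b)) := by
  have h1 := hτ.mul_nonneg (CFC.posPart_nonneg a) (CFC.negPart_nonneg b)
  have h2 := hτ.mul_nonneg (CFC.posPart_nonneg b) (CFC.negPart_nonneg a)
  have := hτ.lipschitz_aux a b ha hb
  linarith

theorem abs_lipschitz (hτ : IsTrace τ) {a b : E} (ha : IsSelfAdjoint a) (hb : IsSelfAdjoint b) :
    τ ((CFC.abs a - CFC.abs b) * (CFC.abs a - CFC.abs b)) ≤ τ ((a - b) * (a - b)) := by
  have h1 := hτ.mul_nonneg (CFC.posPart_nonneg a) (CFC.negPart_nonneg b)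
  have h2 := hτ.mul_nonneg (CFC.posPart_nonneg b) (CFC.negPart_nonneg a)
  rw [hτ.lipschitz_aux a b ha hb, ← CFC.posPart_add_negPart a, ← CFC.posPart_add_negPart b]
  simp only [sub_mul, mul_sub, add_mul, mul_add, map_sub, map_add, CFC.posPart_mul_negPart,
    CFC.negPart_mul_posPart, map_zero]
  rw [hτ.comm a⁻ b⁺, hτ.comm b⁻ a⁺]
  linarith

/-! ### The fourth norm bound of Powers-Stormer type -/

theorem pow_four_le (hτ : IsTrace τ) {X Y : E} (hX : 0 ≤ X) (hY : 0 ≤ Y) :
    τ ((X - Y) ^ 4) ≤ τ ((X * X - Y * Y) * (X * X - Y * Y)) := by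
  have hXs := hX.isSelfAdjoint
  have hYs := hY.isSelfAdjoint
  have hD : IsSelfAdjoint (X - Y) := hXs.sub hYs
  set P : E := (X - Y)⁺ with hP
  set N : E := (X - Y)⁻ with hN
  have hP0 : 0 ≤ P := CFC.posPart_nonneg _
  have hN0 : 0 ≤ N := CFC.negPart_nonneg _
  have hPN : P * N = 0 := CFC.posPart_mul_negPart _
  have hNP : N * P = 0 := CFC.negPart_mul_posPart _
  have hPN' : ∀ w : E, P * (N * w) = 0 := fun w => by rw [← mul_assoc, hPN, zero_mul]
  have hNP' : ∀ w : E, N * (P * w) = 0 := fun w => by rw [← mul_assoc, hNP, zero_mul]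
  have hD' : X - Y = P - N := (CFC.posPart_sub_negPart (X - Y)).symm
  have hh : IsSelfAdjoint (P * P - N * N) :=
    IsSelfAdjoint.sub (by simpa [hP0.isSelfAdjoint.star_eq] using IsSelfAdjoint.star_mul_self P)
      (by simpa [hN0.isSelfAdjoint.star_eq] using IsSelfAdjoint.star_mul_self N)
  have hK : IsSelfAdjoint (X * X - Y * Y) :=
    IsSelfAdjoint.sub (by simpa [hXs.star_eq] using IsSelfAdjoint.star_mul_self X)
      (by simpa [hYs.star_eq] using IsSelfAdjoint.star_mul_self Y)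
  set h : E := P * P - N * N with hhdef
  have hhh : h * h = (X - Y) ^ 4 := by
    rw [hD', hhdef]
    simp [pow_succ, sub_mul, mul_sub, add_mul, mul_add, mul_assoc, hPN, hNP, hPN', hNP']
  have hDh : (X - Y) * h = P ^ 3 + N ^ 3 := by
    rw [hD', hhdef]
    simp [pow_succ, sub_mul, mul_sub, add_mul, mul_add, mul_assoc, hPN, hNP, hPN', hNP']
  have hhD : h * (X - Y) = (X - Y) * h := by
    rw [hD', hhdef]
    simp [sub_mul, mul_sub, add_mul, mul_add, mul_assoc, hPN, hNP, hPN', hNP']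
  have hsplit : τ ((X * X - Y * Y) * h) = τ ((X + Y) * (P ^ 3 + N ^ 3)) := by
    have e : X * X - Y * Y = (1 / 2 : ℝ) • ((X - Y) * (X + Y) + (X + Y) * (X - Y)) := by
      simp only [sub_mul, mul_sub, add_mul, mul_add]
      module
    rw [e, smul_mul_assoc, map_smul, add_mul, map_add, mul_assoc (X + Y), hDh,
      mul_assoc (X - Y), hτ.comm (X - Y), mul_assoc, hhD, hDh, smul_eq_mul]
    ring
  have hP3 : (0 : E) ≤ P ^ 3 := by
    simpa [pow_succ] using hP0.isSelfAdjoint.conjugate_nonneg hP0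
  have hN3 : (0 : E) ≤ N ^ 3 := by
    simpa [pow_succ] using hN0.isSelfAdjoint.conjugate_nonneg hN0
  have hM1 : X - Y ≤ X + Y := by
    rw [sub_eq_add_neg]; exact add_le_add le_rfl ((neg_nonpos.mpr hY).trans hY)
  have hM2 : -(X - Y) ≤ X + Y := by
    rw [neg_sub, sub_eq_add_neg, add_comm X Y]; exact add_le_add le_rfl ((neg_nonpos.mpr hX).trans hX)
  have h1 := hτ.mul_le_mul_left hM1 hP3
  have h2 := hτ.mul_le_mul_left hM2 hN3
  have e1 : (X - Y) * P ^ 3 + -(X - Y) * N ^ 3 = (X - Y) ^ 4 := by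
    rw [hD']
    simp [pow_succ, sub_mul, mul_sub, add_mul, mul_add, mul_assoc, hPN, hNP, hPN', hNP']
  have h3 : τ (h * h) ≤ τ ((X * X - Y * Y) * h) := by
    rw [hsplit, hhh, ← e1, mul_add, map_add, map_add]
    exact add_le_add h1 h2
  have h4 := hτ.cauchy_schwarz_sa hK hh
  have h5 := hτ.sq_nonneg hh
  have h6 := hτ.sq_nonneg hK
  rw [← hhh]
  nlinarith

/-! ### The odd square root -/

end IsTrace

/-- The odd square root on the line. -/
noncomputable def oddRoot (t : ℝ) : ℝ := √t - √(-t)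

theorem continuous_oddRoot : Continuous oddRoot := by unfold oddRoot; fun_prop

/-- The odd square root of a selfadjoint element. -/
noncomputable def oddSqrt (a : E) : E := cfc oddRoot a

theorem oddSqrt_isSelfAdjoint (a : E) : IsSelfAdjoint (oddSqrt a) := cfc_predicate _ a

theorem oddSqrt_eq (a : E) (ha : IsSelfAdjoint a) :
    oddSqrt a = cfc (fun t : ℝ => √t) a - cfc (fun t : ℝ => √(-t)) a := by
  rw [← cfc_sub (fun t : ℝ => √t) (fun t : ℝ => √(-t)) a]
  rfl

theorem cfc_sqrt_mul_self (a : E) (ha : IsSelfAdjoint a) :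
    cfc (fun t : ℝ => √t) a * cfc (fun t : ℝ => √t) a = a⁺ := by
  rw [← cfc_mul (fun t : ℝ => √t) (fun t : ℝ => √t) a, CFC.posPart_def, cfcₙ_eq_cfc]
  refine cfc_congr fun t _ => ?_
  rcases le_total 0 t with h | h
  · simp [Real.mul_self_sqrt h, posPart_def, h]
  · simp [Real.sqrt_eq_zero'.mpr h, posPart_def, h]

theorem cfc_sqrt_neg_mul_self (a : E) (ha : IsSelfAdjoint a) :
    cfc (fun t : ℝ => √(-t)) a * cfc (fun t : ℝ => √(-t)) a = a⁻ := by
  rw [← cfc_mul (fun t : ℝ => √(-t)) (fun t : ℝ => √(-t)) a, CFC.negPart_def, cfcₙ_eq_cfc]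
  refine cfc_congr fun t _ => ?_
  rcases le_total 0 t with h | h
  · simp [Real.sqrt_eq_zero'.mpr (neg_nonpos.mpr h), negPart_def, h]
  · simp [Real.mul_self_sqrt (neg_nonneg.mpr h), negPart_def, h]

theorem oddSqrt_mul_self (a : E) (ha : IsSelfAdjoint a) :
    oddSqrt a * oddSqrt a = CFC.abs a := by
  rw [oddSqrt, ← cfc_mul oddRoot oddRoot a continuous_oddRoot.continuousOn
    continuous_oddRoot.continuousOn, CFC.abs_eq_cfcₙ_norm a ha, cfcₙ_eq_cfc]
  refine cfc_congr fun t _ => ?_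
  rcases le_total 0 t with h | h
  · simp [oddRoot, Real.sqrt_eq_zero'.mpr (neg_nonpos.mpr h), Real.mul_self_sqrt h,
      abs_of_nonneg h]
  · simp [oddRoot, Real.sqrt_eq_zero'.mpr h, Real.mul_self_sqrt (neg_nonneg.mpr h),
      abs_of_nonpos h]

theorem oddSqrt_pow_four (a : E) (ha : IsSelfAdjoint a) : oddSqrt a ^ 4 = a * a := by
  rw [show (4 : ℕ) = 2 + 2 from rfl, pow_add, pow_two, oddSqrt_mul_self a ha, CFC.abs_mul_abs,
    ha.star_eq]

namespace IsTrace

theorem add_sq_le (hτ : IsTrace τ) {x y : E} (hx : IsSelfAdjoint x) (hy : IsSelfAdjoint y) :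
    τ ((x + y) * (x + y)) ≤ 2 * τ (x * x) + 2 * τ (y * y) := by
  simpa [hx.star_eq, hy.star_eq] using hτ.add_mul_self_le x y

/-- The odd square root is one half Hölder from the second to the fourth norm. -/
theorem oddSqrt_bound (hτ : IsTrace τ) {a b : E} (ha : IsSelfAdjoint a) (hb : IsSelfAdjoint b) :
    τ ((oddSqrt a - oddSqrt b) ^ 4) ≤ 8 * τ ((a - b) * (a - b)) := by
  set ua : E := cfc (fun t : ℝ => √t) a with hua
  set va : E := cfc (fun t : ℝ => √(-t)) a with hva
  set ub : E := cfc (fun t : ℝ => √t) b with hub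
  set vb : E := cfc (fun t : ℝ => √(-t)) b with hvb
  have hu := hτ.pow_four_le (X := ua) (Y := ub) (cfc_nonneg fun _ _ => Real.sqrt_nonneg _)
    (cfc_nonneg fun _ _ => Real.sqrt_nonneg _)
  have hv := hτ.pow_four_le (X := va) (Y := vb) (cfc_nonneg fun _ _ => Real.sqrt_nonneg _)
    (cfc_nonneg fun _ _ => Real.sqrt_nonneg _)
  rw [hua, hub, cfc_sqrt_mul_self a ha, cfc_sqrt_mul_self b hb, ← hua, ← hub] at hu
  rw [hva, hvb, cfc_sqrt_neg_mul_self a ha, cfc_sqrt_neg_mul_self b hb, ← hva, ← hvb] at hv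
  have hlip := hτ.posPart_lipschitz ha hb
  have hw : oddSqrt a - oddSqrt b = (ua - ub) - (va - vb) := by
    rw [oddSqrt_eq a ha, oddSqrt_eq b hb, hua, hva, hub, hvb]; abel
  set u : E := ua - ub with hu'
  set v : E := va - vb with hv'
  have hus : IsSelfAdjoint u :=
    IsSelfAdjoint.sub (cfc_predicate (fun t : ℝ => √t) a) (cfc_predicate (fun t : ℝ => √t) b)
  have hvs : IsSelfAdjoint v :=
    IsSelfAdjoint.sub (cfc_predicate (fun t : ℝ => √(-t)) a) (cfc_predicate (fun t : ℝ => √(-t)) b)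
  have hle : (u - v) * (u - v) ≤ (2 : ℝ) • (u * u + v * v) := by
    rw [← sub_nonneg]
    have e : (2 : ℝ) • (u * u + v * v) - (u - v) * (u - v) = star (u + v) * (u + v) := by
      rw [(hus.add hvs).star_eq, two_smul]
      noncomm_ring
    rw [e]
    exact star_mul_self_nonneg _
  have hw2 : IsSelfAdjoint ((u - v) * (u - v)) := by
    simpa [(hus.sub hvs).star_eq] using IsSelfAdjoint.star_mul_self (u - v)
  have hw20 : 0 ≤ (u - v) * (u - v) := by
    simpa [(hus.sub hvs).star_eq] using star_mul_self_nonneg (u - v)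
  have huu : IsSelfAdjoint (u * u) := by
    simpa [hus.star_eq] using IsSelfAdjoint.star_mul_self u
  have hvv : IsSelfAdjoint (v * v) := by
    simpa [hvs.star_eq] using IsSelfAdjoint.star_mul_self v
  have h1 := hτ.mul_le_mul_left hle hw20
  rw [smul_mul_assoc, map_smul, smul_eq_mul] at h1
  have h2 := hτ.cauchy_schwarz_sa (huu.add hvv) hw2
  have h3 := hτ.add_sq_le huu hvv
  have p4 : ∀ x : E, x ^ 4 = (x * x) * (x * x) := fun x => by
    rw [show (4 : ℕ) = 2 + 2 from rfl, pow_add, pow_two]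
  rw [p4] at hu hv
  rw [hw, p4]
  have h4 := hτ.sq_nonneg hw2
  have h5 := hτ.sq_nonneg (huu.add hvv)
  nlinarith

/-! ### The sandwich bound -/

theorem sandwich_aux (hτ : IsTrace τ) {S D R : E} (hS : IsSelfAdjoint S) (hS1 : S * S ≤ 1)
    (hD : IsSelfAdjoint D) (hR : IsSelfAdjoint R) :
    τ (D * D * (S * (R * R) * S)) ≤ √(τ (D ^ 4)) * √(τ (R ^ 4)) := by
  have hDD : IsSelfAdjoint (D * D) := by
    simpa [hD.star_eq] using IsSelfAdjoint.star_mul_self D
  have hRR : IsSelfAdjoint (R * R) := by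
    simpa [hR.star_eq] using IsSelfAdjoint.star_mul_self R
  have hSR : IsSelfAdjoint (S * (R * R) * S) := by
    simpa [hS.star_eq] using hRR.conjugate S
  have h := hτ.mul_le_sqrt_mul_sqrt hDD hSR
  refine h.trans ?_
  have p4 : ∀ x : E, x ^ 4 = (x * x) * (x * x) := fun x => by
    rw [show (4 : ℕ) = 2 + 2 from rfl, pow_add, pow_two]
  rw [p4 D, p4 R]
  refine mul_le_mul_of_nonneg_left (Real.sqrt_le_sqrt ?_) (Real.sqrt_nonneg _)
  have hR4 : 0 ≤ (R * R) * (R * R) := by
    simpa [hRR.star_eq] using star_mul_self_nonneg (R * R)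
  calc τ (S * (R * R) * S * (S * (R * R) * S))
      = τ ((S * (R * R)) * (S * S) * ((R * R) * S)) := by simp only [mul_assoc]
    _ ≤ τ (S * ((R * R) * (R * R)) * S) := by
        refine hτ.mono ?_
        have := hS.conjugate_le_conjugate (hRR.conjugate_le_conjugate hS1)
        simpa [mul_assoc] using this
    _ = τ ((S * S) * ((R * R) * (R * R))) := by rw [hτ.comm, ← mul_assoc]
    _ ≤ τ (1 * ((R * R) * (R * R))) := hτ.mul_le_mul_left hS1 hR4
    _ = τ ((R * R) * (R * R)) := by rw [one_mul]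

theorem sandwich (hτ : IsTrace τ) {S R R' : E} (hS : IsSelfAdjoint S) (hS1 : S * S ≤ 1)
    (hR : IsSelfAdjoint R) (hR' : IsSelfAdjoint R') :
    τ ((R * S * R - R' * S * R') * (R * S * R - R' * S * R'))
      ≤ 2 * √(τ ((R - R') ^ 4)) * (√(τ (R ^ 4)) + √(τ (R' ^ 4))) := by
  have hD := hR.sub hR'
  set D : E := R - R' with hDdef
  have e : R * S * R - R' * S * R' = D * S * R + R' * S * D := by rw [hDdef]; noncomm_ring
  have hs : IsSelfAdjoint (R * S * R - R' * S * R') :=
    IsSelfAdjoint.sub (by simpa [hR.star_eq] using hS.conjugate R)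
      (by simpa [hR'.star_eq] using hS.conjugate R')
  have h := hτ.add_mul_self_le (D * S * R) (R' * S * D)
  rw [← e, hs.star_eq] at h
  have e1 : τ (star (D * S * R) * (D * S * R)) = τ (D * D * (S * (R * R) * S)) := by
    rw [star_mul, star_mul, hD.star_eq, hS.star_eq, hR.star_eq,
      show R * (S * D) * (D * S * R) = (R * S) * (D * D * (S * R)) by simp only [mul_assoc],
      hτ.comm]
    simp only [mul_assoc]
  have e2 : τ (star (R' * S * D) * (R' * S * D)) = τ (D * D * (S * (R' * R') * S)) := by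
    rw [star_mul, star_mul, hD.star_eq, hS.star_eq, hR'.star_eq,
      show D * (S * R') * (R' * S * D) = (D * (S * R') * (R' * S)) * D by simp only [mul_assoc],
      hτ.comm]
    simp only [mul_assoc]
  have h1 := hτ.sandwich_aux hS hS1 hD hR
  have h2 := hτ.sandwich_aux hS hS1 hD hR'
  rw [e1, e2] at h
  linarith

/-- The two bounds combined, for odd square roots. -/
theorem oddSqrt_sandwich (hτ : IsTrace τ) {S a b : E} (hS : IsSelfAdjoint S) (hS1 : S * S ≤ 1)
    (ha : IsSelfAdjoint a) (hb : IsSelfAdjoint b) :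
    τ ((oddSqrt a * S * oddSqrt a - oddSqrt b * S * oddSqrt b) *
        (oddSqrt a * S * oddSqrt a - oddSqrt b * S * oddSqrt b))
      ≤ 2 * √(8 * τ ((a - b) * (a - b))) * (√(τ (a * a)) + √(τ (b * b))) := by
  have h := hτ.sandwich hS hS1 (oddSqrt_isSelfAdjoint a) (oddSqrt_isSelfAdjoint b)
  rw [oddSqrt_pow_four a ha, oddSqrt_pow_four b hb] at h
  refine h.trans (mul_le_mul_of_nonneg_right ?_ (by positivity))
  exact mul_le_mul_of_nonneg_left (Real.sqrt_le_sqrt (hτ.oddSqrt_bound ha hb)) (by norm_num)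

/-! ### The increment bound -/

theorem increment (hτ : IsTrace τ) {x y : E} (hx : 0 ≤ x) (hy : 0 ≤ y) (hy1 : y ≤ 1)
    (h : ∀ f : ℝ → ℝ, Continuous f → τ (x * x * cfc f y) = τ (y * y * cfc f y)) :
    τ ((y - x) * (y - x)) ≤ 2 * (τ y - τ x) := by
  have hxs := hx.isSelfAdjoint
  have hys := hy.isSelfAdjoint
  have main : ∀ η : ℝ, 0 < η →
      τ ((y - x) * (y - x)) ≤ (1 + η) * (2 * (τ y - τ x) + 2 * √η * τ 1) := by
    intro η hη
    set f : ℝ → ℝ := fun t => (|t| + η)⁻¹ with hf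
    have hfc : Continuous f :=
      (continuous_abs.add continuous_const).inv₀ fun t =>
        (add_pos_of_nonneg_of_pos (abs_nonneg t) hη).ne'
    set z : E := cfc f y with hz
    have hz0 : 0 ≤ z := cfc_nonneg fun t _ => by positivity
    have hzs := hz0.isSelfAdjoint
    have hsz := (CFC.sqrt_nonneg z).isSelfAdjoint
    have hcy : Commute y z := (IsSelfAdjoint.commute_cfc hys (Commute.refl y) f).symm
    have hyz : y * z + η • z = 1 := by
      calc y * z + η • z = cfc (fun t : ℝ => t * f t + η * f t) y := by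
            rw [cfc_add y (fun t : ℝ => t * f t) (fun t : ℝ => η * f t)
                (continuous_id.mul hfc).continuousOn (continuous_const.mul hfc).continuousOn,
              cfc_mul (fun t : ℝ => t) f y continuous_id.continuousOn hfc.continuousOn,
              cfc_id' ℝ y, cfc_const_mul η f y hfc.continuousOn]
        _ = cfc (fun _ : ℝ => (1 : ℝ)) y := by
            refine cfc_congr fun t ht => ?_
            have ht0 : 0 ≤ t := spectrum_nonneg_of_nonneg hy ht
            simp only [hf, abs_of_nonneg ht0]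
            field_simp
        _ = 1 := cfc_const_one ℝ y
    have hyz' : y * z = 1 - η • z := eq_sub_of_add_eq hyz
    have hlow : (1 : E) ≤ (1 + η) • z := by
      rw [← sub_nonneg]
      have e : (1 + η) • z - 1 = (1 - y) * z := by
        rw [sub_mul, one_mul, hyz', add_smul, one_smul]; abel
      rw [e]
      exact Commute.mul_nonneg (sub_nonneg.mpr hy1) hz0 ((Commute.one_left z).sub_left hcy)
    have hd : (y - x) * (y - x) = star (y - x) * (y - x) := by rw [(hys.sub hxs).star_eq]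
    have hd0 : 0 ≤ (y - x) * (y - x) := hd ▸ star_mul_self_nonneg _
    have h1 : τ ((y - x) * (y - x)) ≤ (1 + η) * τ (z * ((y - x) * (y - x))) := by
      have := hτ.mul_le_mul_left hlow hd0
      rwa [one_mul, smul_mul_assoc, map_smul, smul_eq_mul] at this
    have exz : τ (x * y * z) = τ x - η * τ (x * z) := by
      rw [mul_assoc, hyz', mul_sub, mul_one, mul_smul_comm, map_sub, map_smul, smul_eq_mul]
    have eyz : τ (y * y * z) = τ y - η * τ (y * z) := by
      rw [mul_assoc, hyz', mul_sub, mul_one, mul_smul_comm, map_sub, map_smul, smul_eq_mul,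
        ← hyz']
    have eyxz : τ (y * x * z) = τ (x * y * z) := by
      rw [mul_assoc, hτ.comm, mul_assoc, ← hcy.eq, ← mul_assoc]
    have hxx : τ (x * x * z) = τ (y * y * z) := h f hfc
    have e2 : τ (z * ((y - x) * (y - x)))
        = 2 * (τ y - τ x) - 2 * η * τ (y * z) + 2 * η * τ (x * z) := by
      rw [hτ.comm z]
      simp only [sub_mul, mul_sub, map_sub, hxx, eyxz, eyz, exz]
      ring
    have hyz0 := hτ.mul_nonneg hy hz0
    have hzη : η * τ z ≤ τ 1 := by
      have := congrArg τ hyz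
      rw [map_add, map_smul, smul_eq_mul] at this
      linarith
    have hxxz : τ (x * x * z) ≤ τ 1 := by
      rw [hxx, eyz]
      have := hτ.mono hy1
      nlinarith
    have hcs : τ (x * z) ^ 2 ≤ τ (x * x * z) * τ z := by
      have := hτ.cauchy_schwarz (x * CFC.sqrt z) (CFC.sqrt z)
      rw [star_mul, hxs.star_eq, hsz.star_eq] at this
      rw [show τ (CFC.sqrt z * x * CFC.sqrt z) = τ (x * z) by
            rw [hτ.comm, ← mul_assoc, CFC.sqrt_mul_sqrt_self z, hτ.comm],
        CFC.sqrt_mul_sqrt_self z] at this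
      rwa [show τ (CFC.sqrt z * x * (x * CFC.sqrt z)) = τ (x * x * z) by
            rw [hτ.comm, mul_assoc, ← mul_assoc (CFC.sqrt z), CFC.sqrt_mul_sqrt_self z,
              hτ.comm x (z * x), mul_assoc, hτ.comm z]] at this
    have hx0 := hτ.mul_nonneg hx hz0
    have h1' := hτ.one_nonneg
    have hbound : η * τ (x * z) ≤ √η * τ 1 := by
      have hsq : (η * τ (x * z)) ^ 2 ≤ (√η * τ 1) ^ 2 := by
        rw [mul_pow (√η), Real.sq_sqrt hη.le]
        calc (η * τ (x * z)) ^ 2 = η ^ 2 * τ (x * z) ^ 2 := by ring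
          _ ≤ η ^ 2 * (τ (x * x * z) * τ z) := mul_le_mul_of_nonneg_left hcs (by positivity)
          _ = η * (τ (x * x * z) * (η * τ z)) := by ring
          _ ≤ η * (τ 1 * τ 1) := by
              refine mul_le_mul_of_nonneg_left ?_ hη.le
              exact mul_le_mul hxxz hzη (_root_.mul_nonneg hη.le (hτ.of_nonneg hz0)) h1'
          _ = η * τ 1 ^ 2 := by ring
      exact (pow_le_pow_iff_left₀ (_root_.mul_nonneg hη.le hx0)
        (_root_.mul_nonneg (Real.sqrt_nonneg η) h1') two_ne_zero).mp hsq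
    refine h1.trans (mul_le_mul_of_nonneg_left ?_ (by linarith))
    rw [e2]
    nlinarith
  have hlim : Filter.Tendsto (fun η : ℝ => (1 + η) * (2 * (τ y - τ x) + 2 * √η * τ 1))
      (𝓝[>] (0 : ℝ)) (𝓝 (2 * (τ y - τ x))) := by
    have hc : Continuous fun η : ℝ => (1 + η) * (2 * (τ y - τ x) + 2 * √η * τ 1) := by fun_prop
    simpa using (hc.tendsto 0).mono_left nhdsWithin_le_nhds
  exact ge_of_tendsto hlim (eventually_nhdsWithin_of_forall fun η hη => main η hη)

/-- Pinching by a symmetry increases the trace of the square root, quantitatively. -/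
theorem pinch_increment (hτ : IsTrace τ) {x S : E} (hx : 0 ≤ x) (hx1 : x * x ≤ 1)
    (hS : IsSelfAdjoint S) (hS1 : S * S = 1) :
    τ ((CFC.sqrt ((1 / 2 : ℝ) • (x * x + S * (x * x) * S)) - x) *
        (CFC.sqrt ((1 / 2 : ℝ) • (x * x + S * (x * x) * S)) - x))
      ≤ 2 * (τ (CFC.sqrt ((1 / 2 : ℝ) • (x * x + S * (x * x) * S))) - τ x) := by
  set B : E := (1 / 2 : ℝ) • (x * x + S * (x * x) * S) with hB
  have hxx : 0 ≤ x * x := by simpa [hx.isSelfAdjoint.star_eq] using star_mul_self_nonneg x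
  have hB0 : 0 ≤ B := smul_nonneg (by norm_num) (add_nonneg hxx (hS.conjugate_nonneg hxx))
  have hB1 : B ≤ 1 := by
    have h2 : S * (x * x) * S ≤ 1 := by
      simpa [hS1] using hS.conjugate_le_conjugate hx1
    calc B ≤ (1 / 2 : ℝ) • ((1 : E) + 1) := smul_le_smul_of_nonneg_left (add_le_add hx1 h2) (by norm_num)
      _ = 1 := by module
  have hcSB : Commute S B := by
    have l : S * (S * (x * x) * S) = x * x * S := by
      rw [← mul_assoc, ← mul_assoc, hS1, one_mul]
    have r : S * (x * x) * S * S = S * (x * x) := by rw [mul_assoc, hS1, mul_one]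
    show S * B = B * S
    rw [hB, mul_smul_comm, smul_mul_assoc, mul_add, add_mul, l, r, add_comm]
  refine hτ.increment hx (CFC.sqrt_nonneg B) ?_ fun f hf => ?_
  · simpa using CFC.sqrt_le_sqrt B 1 hB1
  · have hcy : Commute S (CFC.sqrt B) := (Commute.cfcₙ_nnreal hcSB.symm _).symm
    have hcz : Commute S (cfc f (CFC.sqrt B)) :=
      (IsSelfAdjoint.commute_cfc (CFC.sqrt_nonneg B).isSelfAdjoint hcy.symm f).symm
    set z : E := cfc f (CFC.sqrt B) with hz
    have key : τ (S * (x * x) * S * z) = τ (x * x * z) := by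
      rw [mul_assoc, hcz.eq, ← mul_assoc, hτ.comm, ← mul_assoc, ← mul_assoc, hS1, one_mul]
    rw [CFC.sqrt_mul_sqrt_self B hB0, hB, smul_mul_assoc, map_smul, add_mul, map_add, key,
      smul_eq_mul]
    ring

end IsTrace

end Vale.P095.Tracial
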