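import Vale.Agent.P101.Main
import Vale.Agent.P095.Tracial.TraceIneq
import Vale.Agent.P095.Tracial.Reindex

/-!
# P095 (tracial route): the action on `F_ω(A)` and equivariant reindexing
(owner: helper15)
-/

open scoped BoundedContinuousFunction
open Vale.P101

namespace Vale.P095.Tracial

variable {G : Type*} [Group G] {A : Type*} [CStarAlgebra A] {ω : Ultrafilter ℕ}
  (α : G →* (A ≃⋆ₐ[ℂ] A))

/-- The induced action on the central sequence algebra. -/
noncomputable def act (α : G →* (A ≃⋆ₐ[ℂ] A)) (g : G) : FOmega A ω →⋆ₐ[ℂ] FOmega A ω :=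
  actC ω α g

theorem act_one (x : FOmega A ω) : act α 1 x = x := actC_one ω α x

theorem act_mul (g h : G) (x : FOmega A ω) : act α (g * h) x = act α g (act α h x) :=
  actC_mul ω α g h x

/-- Its description on representatives. -/
theorem act_cls (g : G) (x : FOmega A ω) (f f' : ℕ →ᵇ A)
    (hf : cls ω f = (Subtype.val x : Ultrapower A ω)) (hf' : ∀ n, f' n = α g (f n)) :
    (Subtype.val (act α g x) : Ultrapower A ω) = cls ω f' := by
  show actU ω α g (Subtype.val x) = cls ω f'
  rw [← hf, actU_cls]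
  congr 1
  ext n
  rw [bmap_apply, hf' n]
  rfl

theorem continuous_act (g : G) : Continuous (act α (ω := ω) g) :=
  AddMonoidHomClass.continuous_of_bound (act α (ω := ω) g) 1 fun x => by
    rw [one_mul]; exact NonUnitalStarAlgHom.norm_apply_le (act α (ω := ω) g) x

/-- Closed separable invariant subalgebras. -/
structure Sub (α : G →* (A ≃⋆ₐ[ℂ] A)) (ω : Ultrafilter ℕ) where
  /-- The subalgebra. -/
  S : StarSubalgebra ℂ (FOmega A ω)
  closed : IsClosed (S : Set (FOmega A ω))
  sep : TopologicalSpace.IsSeparable (S : Set (FOmega A ω))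
  inv : ∀ g, ∀ x ∈ S, act α g x ∈ S

variable {α}

instance subringClassFOmega : SubringClass (StarSubalgebra ℂ (FOmega A ω)) (FOmega A ω) :=
  StarSubalgebra.subringClass

instance continuousStarFOmegaSub (S : StarSubalgebra ℂ (FOmega A ω)) : ContinuousStar S :=
  ⟨(continuous_star.comp continuous_subtype_val).subtype_mk _⟩

instance (S : Sub α ω) : IsClosed (S.S : Set (FOmega A ω)) := S.closed

noncomputable instance Sub.cstarAlgebra (S : Sub α ω) : CStarAlgebra S.S :=
  StarSubalgebra.cstarAlgebra (A := FOmega A ω) S.S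

/-- The restricted action. -/
noncomputable def Sub.act (S : Sub α ω) (g : G) : S.S →⋆ₐ[ℂ] S.S :=
  ((Tracial.act α g).comp S.S.subtype).codRestrict S.S fun x => S.inv g x x.2

theorem Sub.act_val (S : Sub α ω) (g : G) (x : S.S) :
    (S.act g x : FOmega A ω) = Tracial.act α g x := rfl

/-- A norm decreasing homomorphism on a dense subalgebra extends to the closed algebra. -/
theorem exists_extend {S : StarSubalgebra ℂ (FOmega A ω)} {s : Set (FOmega A ω)}
    (hsS : gen s ≤ S) (hd : ∀ x ∈ S, x ∈ closure (gen s : Set (FOmega A ω)))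
    (ρ : gen s →⋆ₐ[ℂ] FOmega A ω) (hρ : ∀ b, ‖ρ b‖ ≤ ‖(b : FOmega A ω)‖) :
    ∃ σ : S →⋆ₐ[ℂ] FOmega A ω, Continuous σ ∧
      ∀ b : gen s, σ ⟨b, hsS b.2⟩ = ρ b := by
  let i : gen s →⋆ₐ[ℂ] S := StarSubalgebra.inclusion hsS
  have hi : DenseRange i := by
    intro x
    rw [closure_subtype, ← Set.range_comp]
    refine closure_mono ?_ (hd x x.2)
    intro y hy
    exact ⟨⟨y, hy⟩, rfl⟩
  let f : gen s →ₗ[ℂ] FOmega A ω := ρ.toAlgHom.toLinearMap
  let e : gen s →ₗ[ℂ] S := i.toAlgHom.toLinearMap
  let σ₀ : S →L[ℂ] FOmega A ω := f.extendOfNorm e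
  have hb : ∃ C, ∀ x, ‖f x‖ ≤ C * ‖e x‖ := ⟨1, fun x => by rw [one_mul]; exact hρ x⟩
  have he : ∀ b, σ₀ (i b) = ρ b := fun b => LinearMap.extendOfNorm_eq hi hb b
  refine ⟨{ toFun := σ₀
            map_one' := by rw [← map_one i, he, map_one]
            map_mul' := fun x y => ?_
            map_zero' := map_zero σ₀
            map_add' := map_add σ₀
            commutes' := fun c => by rw [← AlgHomClass.commutes i, he, AlgHomClass.commutes]
            map_star' := fun x => ?_ }, σ₀.continuous, he⟩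
  · refine hi.induction_on₂ (p := fun x y => σ₀ (x * y) = σ₀ x * σ₀ y) ?_ ?_ x y
    · exact isClosed_eq (σ₀.continuous.comp continuous_mul)
        ((σ₀.continuous.comp continuous_fst).mul (σ₀.continuous.comp continuous_snd))
    · intro a b
      rw [← map_mul, he, he, he, map_mul]
  · show σ₀ (star x) = star (σ₀ x)
    refine hi.induction_on (p := fun x => σ₀ (star x) = star (σ₀ x)) x ?_ ?_
    · exact isClosed_eq (σ₀.continuous.comp continuous_star) σ₀.continuous.star
    · intro a
      rw [← map_star, he, he, map_star]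

variable [Countable G] [TopologicalSpace.SeparableSpace A]

/-- Finitely many pairwise commuting equivariant copies of a countable invariant set. -/
theorem exists_family (hω : (ω : Filter ℕ) ≤ Filter.cofinite) {s : Set (FOmega A ω)}
    (hs : s.Countable) (hinv : ∀ g, ∀ b ∈ s, act α g b ∈ s) (n : ℕ) :
    ∃ ρ : Fin n → (gen s →⋆ₐ[ℂ] FOmega A ω),
      (Pairwise fun i j => ∀ b c, Commute (ρ i b) (ρ j c)) ∧
      (∀ i b, ‖ρ i b‖ ≤ ‖(b : FOmega A ω)‖) ∧
      ∀ i (g : G) (b c : gen s), (c : FOmega A ω) = act α g b → ρ i c = act α g (ρ i b) := by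
  induction n with
  | zero => exact ⟨Fin.elim0, fun i => i.elim0, fun i => i.elim0, fun i => i.elim0⟩
  | succ n ih =>
    obtain ⟨ρ, hρ, hn, he⟩ := ih
    let pre : Set (gen s) := {b | (b : FOmega A ω) ∈ s}
    have hpre : pre.Countable := hs.preimage Subtype.val_injective
    let t : Set (FOmega A ω) :=
      ⋃ i, (fun b => ρ i b) '' pre ∪ (fun b => star (ρ i b)) '' pre
    have ht : t.Countable :=
      Set.countable_iUnion fun i => (hpre.image _).union (hpre.image _)
    obtain ⟨σ, hσ, hσn, hσe⟩ :=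
      (eqCopyProp_central α hω : EqCopyProp (fun g => act α (ω := ω) g)) s t hs ht hinv
    have key : ∀ i b c, Commute (σ b) (ρ i c) := fun i b c =>
      commute_range_of_gen (ρ i) (fun d hd =>
        ⟨hσ b _ (Set.mem_iUnion.2 ⟨i, Or.inl ⟨d, hd, rfl⟩⟩),
          hσ b _ (Set.mem_iUnion.2 ⟨i, Or.inr ⟨d, hd, rfl⟩⟩)⟩) c
    refine ⟨(Fin.cons σ ρ : Fin (n + 1) → (gen s →⋆ₐ[ℂ] FOmega A ω)), fun i j hij b c => ?_,
      fun i b => ?_, fun i g b c h => ?_⟩
    · induction i using Fin.cases with
      | zero =>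
        induction j using Fin.cases with
        | zero => exact absurd rfl hij
        | succ j => exact key j b c
      | succ i =>
        induction j using Fin.cases with
        | zero => exact (key i c b).symm
        | succ j => exact hρ (fun h => hij (congrArg Fin.succ h)) b c
    · induction i using Fin.cases with
      | zero => exact hσn b
      | succ i => exact hn i b
    · induction i using Fin.cases with
      | zero => exact hσe g b c h
      | succ i => exact he i g b c h

/-- Any finitely many pairwise commuting equivariant copies, inside a new `Sub`. -/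
theorem exists_copies (hω : (ω : Filter ℕ) ≤ Filter.cofinite) (S : Sub α ω) (ι : Type*)
    [Finite ι] :
    ∃ (S' : Sub α ω) (π : ι → (S.S →⋆ₐ[ℂ] S'.S)),
      (∀ i j, i ≠ j → ∀ a b, Commute (π i a) (π j b)) ∧
      ∀ i g b, π i (S.act g b) = S'.act g (π i b) := by
  -- a countable invariant dense set of generators
  obtain ⟨D, hDS, hD, hSD⟩ := S.sep.exists_countable_dense_subset
  let s : Set (FOmega A ω) := ⋃ g : G, act α g '' D
  have hs : s.Countable := Set.countable_iUnion fun g => hD.image _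
  have hinv : ∀ g, ∀ b ∈ s, act α g b ∈ s := fun g b hb => by
    obtain ⟨h, d, hd, rfl⟩ := Set.mem_iUnion.1 hb
    exact Set.mem_iUnion.2 ⟨g * h, d, hd, act_mul α g h d⟩
  have hsS : gen s ≤ S.S := StarAlgebra.adjoin_le fun b hb => by
    obtain ⟨h, d, hd, rfl⟩ := Set.mem_iUnion.1 hb
    exact S.inv h d (hDS hd)
  have hdense : ∀ x ∈ S.S, x ∈ closure (gen s : Set (FOmega A ω)) := fun x hx =>
    closure_mono (fun d hd => (StarAlgebra.subset_adjoin ℂ s)
      (Set.mem_iUnion.2 ⟨1, d, hd, act_one α d⟩)) (hSD hx)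
  have hginv : ∀ g, ∀ b ∈ gen s, act α g b ∈ gen s := fun g b hb => by
    have : act α g b ∈ (gen s).map (act α g) := ⟨b, hb, rfl⟩
    rw [StarAlgHom.map_adjoin] at this
    refine StarAlgebra.adjoin_le ?_ this
    rintro _ ⟨y, hy, rfl⟩
    exact StarAlgebra.subset_adjoin ℂ s (hinv g y hy)
  obtain ⟨N, ⟨e⟩⟩ := Finite.exists_equiv_fin ι
  obtain ⟨ρ, hρ, hn, heq⟩ := exists_family hω hs hinv N
  choose σ hσc hσ using fun i => exists_extend hsS hdense (ρ i) (hn i)
  have hdi : DenseRange fun b : gen s => (⟨b, hsS b.2⟩ : S.S) := by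
    intro x
    rw [closure_subtype, ← Set.range_comp]
    refine closure_mono ?_ (hdense x x.2)
    intro y hy
    exact ⟨⟨y, hy⟩, rfl⟩
  have hcomm : ∀ i j, i ≠ j → ∀ a b, Commute (σ i a) (σ j b) := fun i j hij a b => by
    refine hdi.induction_on₂ (p := fun a b => Commute (σ i a) (σ j b)) ?_ ?_ a b
    · exact isClosed_eq (((hσc i).comp continuous_fst).mul ((hσc j).comp continuous_snd))
        (((hσc j).comp continuous_snd).mul ((hσc i).comp continuous_fst))
    · intro a b
      rw [hσ, hσ]
      exact hρ hij a b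
  have hequiv : ∀ i g b, σ i (S.act g b) = act α g (σ i b) := fun i g b => by
    refine hdi.induction_on (p := fun b => σ i (S.act g b) = act α g (σ i b)) b ?_ ?_
    · refine isClosed_eq ((hσc i).comp ?_) ((continuous_act α g).comp (hσc i))
      exact ((continuous_act α g).comp continuous_subtype_val).subtype_mk _
    · intro a
      rw [hσ, show S.act g ⟨a, hsS a.2⟩ =
        ⟨(⟨act α g a, hginv g a a.2⟩ : gen s), hsS (hginv g a a.2)⟩ from rfl, hσ]
      exact heq i g a _ rfl
  -- the new subalgebra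
  let u : Set (FOmega A ω) := ⋃ i, ρ i '' {b : gen s | (b : FOmega A ω) ∈ s}
  have hu : u.Countable :=
    Set.countable_iUnion fun i => (hs.preimage Subtype.val_injective).image _
  let T : StarSubalgebra ℂ (FOmega A ω) :=
    (StarAlgebra.adjoin ℂ (A := Central A ω) u).topologicalClosure
  have hTsep : TopologicalSpace.IsSeparable (T : Set (FOmega A ω)) :=
    (isSeparable_adjoin (E := FOmega A ω) hu).closure
  have hTcl : IsClosed (T : Set (FOmega A ω)) := isClosed_closure
  have hTmem : ∀ x ∈ StarAlgebra.adjoin ℂ u, x ∈ T := fun x hx => subset_closure hx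
  have hTinv : ∀ g, ∀ x ∈ T, act α g x ∈ T := fun g x hx => by
    refine map_mem_closure (continuous_act α g) (s := (StarAlgebra.adjoin ℂ u : Set (FOmega A ω))) hx fun y hy => ?_
    have : act α g y ∈ (StarAlgebra.adjoin ℂ u).map (act α g) := ⟨y, hy, rfl⟩
    rw [StarAlgHom.map_adjoin] at this
    refine StarAlgebra.adjoin_le ?_ this
    rintro _ ⟨z, hz, rfl⟩
    obtain ⟨i, b, hb, rfl⟩ := Set.mem_iUnion.1 hz
    refine StarAlgebra.subset_adjoin ℂ u (Set.mem_iUnion.2
      ⟨i, ⟨act α g b, hginv g b b.2⟩, hinv g b hb, ?_⟩)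
    exact heq i g b _ rfl
  let S' : Sub α ω := ⟨T, hTcl, hTsep, hTinv⟩
  have hmemT : ∀ i a, σ i a ∈ T := fun i a => by
    refine hdi.induction_on (p := fun a => σ i a ∈ T) a ?_ ?_
    · exact hTcl.preimage (hσc i)
    · intro b
      rw [hσ]
      refine hTmem _ ?_
      obtain ⟨b, hb⟩ := b
      induction hb using StarAlgebra.adjoin_induction with
      | mem x hx =>
        exact StarAlgebra.subset_adjoin ℂ u (Set.mem_iUnion.2 ⟨i, ⟨x, _⟩, hx, rfl⟩)
      | algebraMap r =>
        rw [show (⟨_, _⟩ : gen s) = algebraMap ℂ (gen s) r from rfl, AlgHomClass.commutes]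
        exact algebraMap_mem _ r
      | add x y hx hy ihx ihy =>
        rw [show (⟨x + y, _⟩ : gen s) = ⟨x, hx⟩ + ⟨y, hy⟩ from rfl, map_add]
        exact add_mem ihx ihy
      | mul x y hx hy ihx ihy =>
        rw [show (⟨x * y, _⟩ : gen s) = ⟨x, hx⟩ * ⟨y, hy⟩ from rfl, map_mul]
        exact mul_mem ihx ihy
      | star x hx ih =>
        rw [show (⟨star x, _⟩ : gen s) = star ⟨x, hx⟩ from rfl, map_star]
        exact star_mem ih
  refine ⟨S', fun i => (σ (e i)).codRestrict T fun a => hmemT (e i) a, fun i j hij a b => ?_,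
    fun i g b => ?_⟩
  · exact Subtype.ext (hcomm _ _ (e.injective.ne hij) a b).eq
  · exact Subtype.ext (hequiv (e i) g b)

end Vale.P095.Tracial
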