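import Vale.Agent.P095.Tracial.Basic
import Vale.Agent.P095.Tracial.Copies

/-!
# P095 (tracial route): from traces on `F_ω(A)` to uniform estimates on the tracial states of `A`

If `τ n` are tracial states of `A` and `b : A`, then `x ↦ lim_ω τ n (b x_n b*)` is a positive
tracial functional on the central sequence algebra.  Hence estimates valid for every trace of
`F_ω(A)` are uniform over the tracial states of `A` on representatives, and a diagonal sequence
gives Theorem T.
-/

open scoped BoundedContinuousFunction ComplexOrder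
open Filter Topology

namespace Vale.P095.Tracial

open Vale.P101

noncomputable section

/-- A positive tracial functional, complex linear form. -/
structure TraceFun (E : Type*) [CStarAlgebra E] where
  /-- The functional. -/
  toLin : E →ₗ[ℂ] ℂ
  pos : ∀ x, 0 ≤ toLin (star x * x)
  tracial : ∀ x y, toLin (x * y) = toLin (y * x)

/-- A tracial state as a tracial functional. -/
def TracialState.toTraceFun {E : Type*} [CStarAlgebra E] (τ : TracialState E) : TraceFun E where
  toLin := τ.toLin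
  pos x := Complex.le_def.2 ⟨by simpa using (τ.nonneg x).1, by simpa using (τ.nonneg x).2.symm⟩
  tracial := τ.tracial

variable {A : Type*} [CStarAlgebra A]

theorem TraceFun.im_eq_zero (φ : TraceFun A) {h : A} (hh : IsSelfAdjoint h) :
    (φ.toLin h).im = 0 := by
  letI := CStarAlgebra.spectralOrder A
  haveI := CStarAlgebra.spectralOrderedRing A
  obtain ⟨b, hb⟩ := CStarAlgebra.nonneg_iff_eq_star_mul_self.mp
    (sub_nonneg.2 hh.le_algebraMap_norm_self)
  have h1 := (Complex.le_def.1 (φ.pos b)).2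
  have h2 := (Complex.le_def.1 (φ.pos 1)).2
  rw [← hb, map_sub, Algebra.algebraMap_eq_smul_one, LinearMap.map_smul_of_tower] at h1
  simp only [star_one, mul_one, Complex.zero_im, Complex.sub_im, Complex.smul_im, smul_eq_mul]
    at h1 h2
  rw [← h2] at h1
  linarith

/-- The real part. -/
def TraceFun.real (φ : TraceFun A) : A →ₗ[ℝ] ℝ :=
  Complex.reLm.comp (φ.toLin.restrictScalars ℝ)

theorem TraceFun.real_apply (φ : TraceFun A) (x : A) : φ.real x = (φ.toLin x).re := rfl

theorem TraceFun.isTrace_real (φ : TraceFun A) : IsTrace φ.real where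
  nonneg x := (Complex.le_def.1 (φ.pos x)).1
  comm x y := by rw [φ.real_apply, φ.real_apply, φ.tracial]
  map_star x := by
    have h := φ.im_eq_zero (IsSelfAdjoint.add_star_self x)
    have h' := φ.im_eq_zero (h := Complex.I • (x - star x)) (by
      simp [IsSelfAdjoint, smul_sub, sub_eq_add_neg, add_comm])
    simp only [map_add, map_smul, map_sub, Complex.add_im, smul_eq_mul, Complex.mul_im,
      Complex.I_re, Complex.I_im, Complex.sub_re, zero_mul, one_mul, zero_add] at h h'
    rw [φ.real_apply, φ.real_apply]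
    linarith

theorem TraceFun.norm_apply_le (φ : TraceFun A) (x : A) :
    ‖φ.toLin x‖ ≤ 2 * ‖x‖ * (φ.toLin 1).re := by
  letI := CStarAlgebra.spectralOrder A
  haveI := CStarAlgebra.spectralOrderedRing A
  have hnn : ∀ y : A, 0 ≤ y → 0 ≤ φ.toLin y := fun y hy => by
    obtain ⟨b, rfl⟩ := CStarAlgebra.nonneg_iff_eq_star_mul_self.mp hy
    exact φ.pos b
  have h1 : 0 ≤ φ.toLin 1 := by simpa using φ.pos 1
  have hsa : ∀ h : A, IsSelfAdjoint h → ‖φ.toLin h‖ ≤ ‖h‖ * (φ.toLin 1).re := by
    intro h hh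
    have ha := hnn _ (sub_nonneg.2 hh.le_algebraMap_norm_self)
    have hb := hnn _ (sub_nonneg.2 hh.neg.le_algebraMap_norm_self)
    simp only [map_sub, map_neg, sub_neg_eq_add, map_add, norm_neg, Algebra.algebraMap_eq_smul_one,
      LinearMap.map_smul_of_tower, Complex.le_def, Complex.zero_re, Complex.zero_im, Complex.sub_re,
      Complex.add_re, Complex.sub_im, Complex.add_im, Complex.smul_re, Complex.smul_im,
      smul_eq_mul] at ha hb
    have him : (φ.toLin h).im = 0 := by linarith [ha.2, hb.2]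
    rw [← Complex.re_add_im (φ.toLin h), him]
    simp only [Complex.ofReal_zero, zero_mul, add_zero, Complex.norm_real, Real.norm_eq_abs]
    exact abs_le.2 ⟨by linarith [hb.1], by linarith [ha.1]⟩
  have hx : x = (realPart x : A) + Complex.I • (imaginaryPart x : A) :=
    (realPart_add_I_smul_imaginaryPart x).symm
  have hr : ‖(realPart x : A)‖ ≤ ‖x‖ := realPart.norm_le x
  have hi : ‖(imaginaryPart x : A)‖ ≤ ‖x‖ := imaginaryPart.norm_le x
  have h0 : 0 ≤ (φ.toLin 1).re := (Complex.le_def.1 h1).1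
  calc ‖φ.toLin x‖ ≤ ‖φ.toLin (realPart x : A)‖ + ‖φ.toLin (imaginaryPart x : A)‖ := by
        conv_lhs => rw [hx, map_add, map_smul]
        exact (norm_add_le _ _).trans (by simp)
    _ ≤ ‖x‖ * (φ.toLin 1).re + ‖x‖ * (φ.toLin 1).re :=
        add_le_add ((hsa _ (realPart x).2).trans (mul_le_mul_of_nonneg_right hr h0))
          ((hsa _ (imaginaryPart x).2).trans (mul_le_mul_of_nonneg_right hi h0))
    _ = _ := by ring

theorem TracialState.norm_apply_le (τ : TracialState A) (x : A) : ‖τ.toLin x‖ ≤ 2 * ‖x‖ := by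
  simpa [TracialState.toTraceFun, τ.map_one] using τ.toTraceFun.norm_apply_le x

variable (ω : Ultrafilter ℕ)

/-- `n ↦ τ n (b f_n b*)`. -/
def seqVal (τ : ℕ → TracialState A) (b : A) (f : ℕ →ᵇ A) (n : ℕ) : ℂ :=
  (τ n).toLin (b * f n * star b)

theorem norm_seqVal_le (τ : ℕ → TracialState A) (b : A) (f : ℕ →ᵇ A) (n : ℕ) :
    ‖seqVal τ b f n‖ ≤ 2 * (‖b‖ * ‖f n‖ * ‖b‖) := by
  refine ((τ n).norm_apply_le _).trans (mul_le_mul_of_nonneg_left ?_ zero_le_two)
  calc ‖b * f n * star b‖ ≤ ‖b * f n‖ * ‖star b‖ := norm_mul_le _ _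
    _ ≤ _ := by rw [norm_star]; gcongr; exact norm_mul_le _ _

/-- The limit along `ω`. -/
def limVal (τ : ℕ → TracialState A) (b : A) (f : ℕ →ᵇ A) : ℂ :=
  limUnder (ω : Filter ℕ) (seqVal τ b f)

theorem tendsto_limVal (τ : ℕ → TracialState A) (b : A) (f : ℕ →ᵇ A) :
    Tendsto (seqVal τ b f) ω (𝓝 (limVal ω τ b f)) := by
  obtain ⟨L, -, hL⟩ := (isCompact_closedBall (0 : ℂ) (2 * (‖b‖ * ‖f‖ * ‖b‖))).ultrafilter_le_nhds
    (ω.map (seqVal τ b f)) (by
      rw [Ultrafilter.coe_map, Filter.le_principal_iff, Filter.mem_map]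
      refine Filter.univ_mem' fun n => mem_closedBall_zero_iff.2 ((norm_seqVal_le τ b f n).trans ?_)
      gcongr
      exact f.norm_coe_le_norm n)
  rw [Ultrafilter.coe_map] at hL
  exact tendsto_nhds_limUnder ⟨L, hL⟩

theorem limVal_congr (τ : ℕ → TracialState A) (b : A) {f g : ℕ →ᵇ A}
    (h : cls ω f = cls ω g) : limVal ω τ b f = limVal ω τ b g := by
  have h0 : Tendsto (seqVal τ b (f - g)) ω (𝓝 0) :=
    squeeze_zero_norm (norm_seqVal_le τ b (f - g))
      (by simpa using (((mem_nullSeq.1 ((cls_eq_cls ω).1 h)).const_mul ‖b‖).mul_const ‖b‖).const_mul 2)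
  refine tendsto_nhds_unique (tendsto_limVal ω τ b f) ?_
  have := h0.add (tendsto_limVal ω τ b g)
  rw [zero_add] at this
  exact this.congr fun n => by simp [seqVal, mul_sub, sub_mul]

/-- A representative. -/
def rep (x : Central A ω) : ℕ →ᵇ A := Classical.choose (cls_surjective ω (x : Ultrapower A ω))

theorem cls_rep (x : Central A ω) : cls ω (rep ω x) = (x : Ultrapower A ω) :=
  Classical.choose_spec (cls_surjective ω (x : Ultrapower A ω))

/-- The trace `x ↦ lim_ω τ n (b x_n b*)` on the central sequence algebra. -/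
def limTrace (τ : ℕ → TracialState A) (b : A) : TraceFun (Central A ω) where
  toLin :=
    { toFun := fun x => limVal ω τ b (rep ω x)
      map_add' := fun x y => by
        rw [limVal_congr ω τ b (g := rep ω x + rep ω y)
          (by rw [map_add, cls_rep, cls_rep, cls_rep]; rfl)]
        refine tendsto_nhds_unique (tendsto_limVal ω τ b _) ?_
        exact ((tendsto_limVal ω τ b (rep ω x)).add (tendsto_limVal ω τ b (rep ω y))).congr
          fun n => by simp [seqVal, mul_add, add_mul]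
      map_smul' := fun c x => by
        rw [limVal_congr ω τ b (g := c • rep ω x)
          (by rw [map_smul, cls_rep, cls_rep]; rfl)]
        refine tendsto_nhds_unique (tendsto_limVal ω τ b _) ?_
        exact ((tendsto_limVal ω τ b (rep ω x)).const_mul c).congr fun n => by simp [seqVal] }
  pos x := by
    simp only [LinearMap.coe_mk, AddHom.coe_mk]
    rw [limVal_congr ω τ b (g := star (rep ω x) * rep ω x)
      (by rw [map_mul, ← star_cls, cls_rep, cls_rep]; rfl)]
    refine ge_of_tendsto' (tendsto_limVal ω τ b _) fun n => ?_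
    have := (τ n).toTraceFun.pos (rep ω x n * star b)
    simpa [seqVal, mul_assoc, TracialState.toTraceFun] using this
  tracial x y := by
    simp only [LinearMap.coe_mk, AddHom.coe_mk]
    rw [limVal_congr ω τ b (g := rep ω x * rep ω y) (by rw [map_mul, cls_rep, cls_rep, cls_rep]; rfl),
      limVal_congr ω τ b (f := rep ω (y * x)) (g := rep ω y * rep ω x)
        (by rw [map_mul, cls_rep, cls_rep, cls_rep]; rfl)]
    refine tendsto_nhds_unique (tendsto_limVal ω τ b _) ?_
    set a := star b * b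
    have hc : Tendsto (fun n => ‖rep ω y n * a - a * rep ω y n‖) ω (𝓝 0) := by
      have := tendsto_of_commute_cls ω (f := rep ω y) (g := BoundedContinuousFunction.const ℕ a)
        (by rw [cls_rep]; exact ((mem_central ω).1 y.2 a).symm)
      simpa using this
    have hd : Tendsto (fun n => seqVal τ b (rep ω x * rep ω y) n -
        seqVal τ b (rep ω y * rep ω x) n) ω (𝓝 0) := by
      refine squeeze_zero_norm (fun n => ?_)
        (by simpa using (hc.mul_const ‖rep ω x‖).const_mul 2)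
      have e : ∀ z, (τ n).toLin (b * z * star b) = (τ n).toLin (a * z) := fun z => by
        rw [mul_assoc, (τ n).tracial b, mul_assoc, (τ n).tracial z]
      have e2 : (τ n).toLin (a * (rep ω x n * rep ω y n)) =
          (τ n).toLin (rep ω y n * a * rep ω x n) := by
        rw [← mul_assoc, (τ n).tracial _ (rep ω y n), ← mul_assoc]
      simp only [seqVal, BoundedContinuousFunction.mul_apply, e, e2]
      rw [← map_sub, ← mul_assoc a, ← sub_mul]
      refine ((τ n).norm_apply_le _).trans (mul_le_mul_of_nonneg_left ?_ zero_le_two)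
      exact (norm_mul_le _ _).trans
        (mul_le_mul_of_nonneg_left ((rep ω x).norm_coe_le_norm n) (norm_nonneg _))
    simpa using hd.add (tendsto_limVal ω τ b (rep ω y * rep ω x))

theorem tendsto_limTrace (τ : ℕ → TracialState A) (b : A) {x : Central A ω} {f : ℕ →ᵇ A}
    (hf : cls ω f = (x : Ultrapower A ω)) :
    Tendsto (fun n => (τ n).toLin (b * f n * star b)) ω (𝓝 ((limTrace ω τ b).toLin x)) := by
  show Tendsto (seqVal τ b f) ω (𝓝 (limVal ω τ b (rep ω x)))
  rw [limVal_congr ω τ b (g := f) (by rw [cls_rep, hf])]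
  exact tendsto_limVal ω τ b f

theorem limTrace_one (τ : ℕ → TracialState A) : (limTrace ω τ 1).toLin 1 = 1 := by
  refine tendsto_nhds_unique (tendsto_limTrace ω τ 1 (f := 1) (by simp)) ?_
  simpa [(τ _).map_one] using tendsto_const_nhds

/-- An estimate along every sequence of states is uniform over the states. -/
theorem eventually_forall_state {F : ℕ → TracialState A → ℝ} {c : ℝ}
    (h : ∀ τ : ℕ → TracialState A, ∀ᶠ n in (ω : Filter ℕ), F n (τ n) ≤ c) :
    ∀ᶠ n in (ω : Filter ℕ), ∀ τ, F n τ ≤ c := by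
  classical
  by_cases hT : Nonempty (TracialState A)
  · obtain ⟨τ₀⟩ := hT
    let τ : ℕ → TracialState A := fun n =>
      if hn : ∃ σ, c < F n σ then Classical.choose hn else τ₀
    filter_upwards [h τ] with n hn σ
    by_contra hσ
    have he : ∃ σ, c < F n σ := ⟨σ, lt_of_not_ge hσ⟩
    have : c < F n (τ n) := by
      simp only [τ, dif_pos he]
      exact Classical.choose_spec he
    linarith
  · exact Eventually.of_forall fun n σ => absurd ⟨σ⟩ hT

/-- A self-adjoint contraction has a representative by self-adjoint contractions. -/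
theorem exists_rep_selfAdjoint {u : Central A ω} (hu : IsSelfAdjoint u) (hn : ‖u‖ ≤ 1) :
    ∃ f : ℕ →ᵇ A, cls ω f = (u : Ultrapower A ω) ∧ ∀ n, IsSelfAdjoint (f n) ∧ ‖f n‖ ≤ 1 := by
  obtain ⟨f₀, hf₀⟩ := cls_surjective ω (u : Ultrapower A ω)
  set h : ℕ →ᵇ A := (1 / 2 : ℂ) • (f₀ + star f₀) with hh
  have hcl : cls ω h = (u : Ultrapower A ω) := by
    rw [hh, map_smul, map_add, ← star_cls, hf₀,
      show star (u : Ultrapower A ω) = (u : Ultrapower A ω) from congrArg Subtype.val hu,
      ← two_smul ℂ, smul_smul]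
    norm_num
  have hsa : ∀ n, IsSelfAdjoint (h n) := fun n => by
    simp [hh, IsSelfAdjoint, add_comm]
  let r : ℕ → ℝ := fun n => (max 1 ‖h n‖)⁻¹
  have hr : ∀ n, 0 ≤ r n ∧ r n ≤ 1 := fun n =>
    ⟨by positivity, inv_le_one_of_one_le₀ (le_max_left _ _)⟩
  have hb : ∀ n, ‖(r n : ℂ) • h n‖ ≤ 1 := fun n => by
    rw [norm_smul, Complex.norm_real, Real.norm_of_nonneg (hr n).1,
      inv_mul_le_iff₀ (lt_max_of_lt_left one_pos), mul_one]
    exact le_max_right _ _
  refine ⟨BoundedContinuousFunction.ofNormedAddCommGroup (fun n => (r n : ℂ) • h n)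
    continuous_of_discreteTopology 1 hb, ?_, fun n => ⟨?_, hb n⟩⟩
  · rw [← hcl, cls_eq_cls, mem_nullSeq]
    have hlim : Tendsto (fun n => max 1 ‖h n‖) ω (𝓝 1) := by
      have := (tendsto_const_nhds (x := (1 : ℝ))).max (tendsto_limNorm ω h)
      have e : limNorm ω h = ‖u‖ := by rw [← norm_cls, hcl]; rfl
      rwa [e, max_eq_left hn] at this
    refine squeeze_zero (fun n => norm_nonneg _) (fun n => ?_)
      (g := fun n => (1 - (max 1 ‖h n‖)⁻¹) * ‖h‖)
      (by simpa using ((hlim.inv₀ one_ne_zero).const_sub 1).mul_const ‖h‖)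
    have e : ((r n : ℂ) • h n) - h n = -((1 - r n : ℝ) : ℂ) • h n := by
      push_cast
      module
    show ‖((r n : ℂ) • h n) - h n‖ ≤ _
    rw [e, norm_smul, norm_neg, Complex.norm_real,
      Real.norm_of_nonneg (sub_nonneg.2 (hr n).2)]
    exact mul_le_mul_of_nonneg_left (h.norm_coe_le_norm n) (sub_nonneg.2 (hr n).2)
  · exact IsSelfAdjoint.smul (by simp [IsSelfAdjoint]) (hsa n)

/-- `sup_τ |τ (d f_n)| → 0` when the class of `f` is killed by every trace. -/
theorem eventually_mul_small {u : Central A ω} (h0 : ∀ φ : TraceFun (Central A ω), φ.toLin u = 0)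
    {f : ℕ →ᵇ A} (hf : cls ω f = (u : Ultrapower A ω)) (d : A) :
    ∀ ε > 0, ∀ᶠ n in (ω : Filter ℕ), ∀ τ : TracialState A, ‖τ.toLin (d * f n)‖ ≤ ε := by
  letI := CStarAlgebra.spectralOrder A
  haveI := CStarAlgebra.spectralOrderedRing A
  have hd : d ∈ Submodule.span ℂ {a : A | 0 ≤ a} := by
    rw [CStarAlgebra.span_nonneg]; trivial
  induction hd using Submodule.span_induction with
  | mem a ha =>
    intro ε hε
    have ha' : 0 ≤ a := ha
    obtain ⟨b, rfl⟩ := CStarAlgebra.nonneg_iff_eq_star_mul_self.mp ha'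
    refine eventually_forall_state ω fun τ => ?_
    have ht := (tendsto_limTrace ω τ b hf).norm
    rw [h0, norm_zero] at ht
    filter_upwards [ht.eventually (eventually_le_nhds hε)] with n hn
    rwa [mul_assoc, (τ n).tracial b, mul_assoc, (τ n).tracial (f n)] at hn
  | zero => intro ε hε; exact Eventually.of_forall fun n τ => by simp [hε.le]
  | add a c _ _ iha ihc =>
    intro ε hε
    filter_upwards [iha (ε / 2) (half_pos hε), ihc (ε / 2) (half_pos hε)] with n h1 h2 τ
    rw [add_mul, map_add]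
    linarith [norm_add_le (τ.toLin (a * f n)) (τ.toLin (c * f n)), h1 τ, h2 τ]
  | smul c a _ iha =>
    intro ε hε
    filter_upwards [iha (ε / (‖c‖ + 1)) (by positivity)] with n h1 τ
    rw [smul_mul_assoc, map_smul, norm_smul]
    calc ‖c‖ * ‖τ.toLin (a * f n)‖ ≤ (‖c‖ + 1) * (ε / (‖c‖ + 1)) :=
          mul_le_mul (by linarith) (h1 τ) (norm_nonneg _) (by positivity)
      _ = ε := by field_simp

/-- Estimates for all traces of the central sequence algebra pass to representatives. -/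
theorem eventually_re_small {x : Central A ω} {ε : ℝ} (hε : 0 < ε)
    (hx : ∀ φ : TraceFun (Central A ω), (φ.toLin x).re ≤ ε * (φ.toLin 1).re)
    {f : ℕ →ᵇ A} (hf : cls ω f = (x : Ultrapower A ω)) :
    ∀ᶠ n in (ω : Filter ℕ), ∀ τ : TracialState A, (τ.toLin (f n)).re ≤ 2 * ε := by
  refine eventually_forall_state ω fun τ => ?_
  have h := hx (limTrace ω τ 1)
  rw [limTrace_one, Complex.one_re, mul_one] at h
  have ht := (Complex.continuous_re.tendsto _).comp (tendsto_limTrace ω τ 1 hf)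
  filter_upwards [ht.eventually (eventually_le_nhds (by linarith : ((limTrace ω τ 1).toLin x).re < 2 * ε))]
    with n hn
  simpa using hn

/-- One element: finitely many conditions at once. -/
theorem exists_element {G : Type*} (α : G → A ≃⋆ₐ[ℂ] A) (aF : G → Central A ω → Central A ω)
    (haF : ∀ g (x : Central A ω) (f f' : ℕ →ᵇ A), cls ω f = (x : Ultrapower A ω) →
      (∀ n, f' n = α g (f n)) → cls ω f' = (aF g x : Ultrapower A ω))
    (D : Finset A) (S : Finset G) {ε : ℝ} (hε : 0 < ε) {u : Central A ω}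
    (hu : IsSelfAdjoint u) (hn : ‖u‖ ≤ 1) (h0 : ∀ φ : TraceFun (Central A ω), φ.toLin u = 0)
    (h1 : ∀ φ : TraceFun (Central A ω), (φ.toLin (1 - u * u)).re ≤ ε * (φ.toLin 1).re)
    (h2 : ∀ g ∈ S, ∀ φ : TraceFun (Central A ω),
      (φ.toLin (star (aF g u - u) * (aF g u - u))).re ≤ ε * (φ.toLin 1).re) :
    ∃ a : A, IsSelfAdjoint a ∧ ‖a‖ ≤ 1 ∧ (∀ d ∈ D, ‖a * d - d * a‖ ≤ ε) ∧
      ∀ τ : TracialState A, (∀ d ∈ D, ‖τ.toLin (d * a)‖ ≤ ε) ∧
        (τ.toLin (1 - a * a)).re ≤ 2 * ε ∧
        ∀ g ∈ S, (τ.toLin ((α g a - a) * (α g a - a))).re ≤ 2 * ε := by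
  obtain ⟨f, hf, hfn⟩ := exists_rep_selfAdjoint ω hu hn
  have e1 : ∀ᶠ n in (ω : Filter ℕ), ∀ d ∈ D, ‖f n * d - d * f n‖ ≤ ε := by
    rw [eventually_all_finset]
    intro d _
    have := tendsto_of_commute_cls ω (f := f) (g := BoundedContinuousFunction.const ℕ d)
      (by rw [hf]; exact ((mem_central ω).1 u.2 d).symm)
    exact (by simpa using this : Tendsto (fun n => ‖f n * d - d * f n‖) ω (𝓝 0)).eventually
      (eventually_le_nhds hε)
  have e2 : ∀ᶠ n in (ω : Filter ℕ), ∀ d ∈ D, ∀ τ : TracialState A, ‖τ.toLin (d * f n)‖ ≤ ε := by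
    rw [eventually_all_finset]
    exact fun d _ => eventually_mul_small ω h0 hf d ε hε
  have e3 := eventually_re_small ω hε h1 (f := 1 - f * f) (by rw [map_sub, map_one, map_mul, hf]; rfl)
  have e4 : ∀ᶠ n in (ω : Filter ℕ), ∀ g ∈ S, ∀ τ : TracialState A,
      (τ.toLin ((α g (f n) - f n) * (α g (f n) - f n))).re ≤ 2 * ε := by
    rw [eventually_all_finset]
    intro g hg
    let f' : ℕ →ᵇ A := BoundedContinuousFunction.ofNormedAddCommGroup (fun n => α g (f n))
      continuous_of_discreteTopology ‖f‖ fun n =>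
        (NonUnitalStarAlgHom.norm_apply_le (α g) (f n)).trans (f.norm_coe_le_norm n)
    have := eventually_re_small ω hε (h2 g hg) (f := star (f' - f) * (f' - f))
      (by rw [map_mul, ← star_cls, map_sub, hf, haF g u f f' hf fun n => rfl]; rfl)
    filter_upwards [this] with n hnn τ
    have hs : star (α g (f n) - f n) = α g (f n) - f n := by
      rw [star_sub, ← map_star, (hfn n).1.star_eq]
    have h7 := hnn τ
    simp only [f', BoundedContinuousFunction.mul_apply, BoundedContinuousFunction.star_apply,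
      BoundedContinuousFunction.sub_apply, BoundedContinuousFunction.coe_ofNormedAddCommGroup, hs] at h7
    exact h7
  obtain ⟨n, hn1, hn2, hn3, hn4⟩ := (e1.and (e2.and (e3.and e4))).exists
  exact ⟨f n, (hfn n).1, (hfn n).2, hn1,
    fun τ => ⟨fun d hd => hn2 d hd τ, by simpa using hn3 τ, fun g hg => hn4 g hg τ⟩⟩

/-- Theorem T from the trace estimates on the central sequence algebra. -/
theorem exists_uniform_gamma_seq [TopologicalSpace.SeparableSpace A] {G : Type*} [Countable G]
    (α : G → A ≃⋆ₐ[ℂ] A) (aF : G → Central A ω → Central A ω)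
    (haF : ∀ g (x : Central A ω) (f f' : ℕ →ᵇ A), cls ω f = (x : Ultrapower A ω) →
      (∀ n, f' n = α g (f n)) → cls ω f' = (aF g x : Ultrapower A ω))
    (hmain : ∀ S : Finset G, ∀ ε > (0 : ℝ), ∃ u : Central A ω, IsSelfAdjoint u ∧ ‖u‖ ≤ 1 ∧
      ∀ φ : TraceFun (Central A ω), φ.toLin u = 0 ∧
        (φ.toLin (1 - u * u)).re ≤ ε * (φ.toLin 1).re ∧
        ∀ g ∈ S, (φ.toLin (star (aF g u - u) * (aF g u - u))).re ≤ ε * (φ.toLin 1).re) :
    ∃ u : ℕ → A, (∀ n, IsSelfAdjoint (u n) ∧ ‖u n‖ ≤ 1) ∧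
      (∀ a, Tendsto (fun n => ‖u n * a - a * u n‖) atTop (𝓝 0)) ∧
      ∀ ε > (0 : ℝ), (∀ a, ∀ᶠ n in atTop, ∀ τ : TracialState A, ‖τ.toLin (a * u n)‖ ≤ ε) ∧
        (∀ᶠ n in atTop, ∀ τ : TracialState A, (τ.toLin (1 - u n * u n)).re ≤ ε) ∧
        ∀ g, ∀ᶠ n in atTop, ∀ τ : TracialState A,
          (τ.toLin ((α g (u n) - u n) * (α g (u n) - u n))).re ≤ ε := by
  classical
  obtain ⟨d, hd⟩ := TopologicalSpace.exists_dense_seq A
  obtain ⟨enc, henc⟩ := Countable.exists_injective_nat G
  let S : ℕ → Finset G := fun k => (Finset.range (k + 1)).preimage enc henc.injOn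
  have hδ : ∀ k : ℕ, (0 : ℝ) < 1 / ((k : ℝ) + 1) := fun k => by positivity
  choose v hsa hno hφ using fun k => hmain (S k) _ (hδ k)
  choose u hu1 hu2 hu3 hu4 using fun k =>
    exists_element ω α aF haF ((Finset.range (k + 1)).image d) (S k) (hδ k) (hsa k) (hno k)
      (fun φ => (hφ k φ).1) (fun φ => (hφ k φ).2.1) (fun g hg φ => (hφ k φ).2.2 g hg)
  have hsmall : ∀ ε > (0 : ℝ), ∀ᶠ k : ℕ in atTop, 2 * (1 / ((k : ℝ) + 1)) ≤ ε := fun ε hε => by
    have := (tendsto_one_div_add_atTop_nhds_zero_nat (𝕜 := ℝ)).const_mul (2 : ℝ)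
    rw [mul_zero] at this
    exact this.eventually (eventually_le_nhds hε)
  refine ⟨u, fun n => ⟨hu1 n, hu2 n⟩, fun a => ?_, fun ε hε => ⟨fun a => ?_, ?_, fun g => ?_⟩⟩
  · rw [Metric.tendsto_nhds]
    intro ε hε
    obtain ⟨j, hj⟩ := hd.exists_dist_lt a (show (0 : ℝ) < ε / 4 by linarith)
    filter_upwards [eventually_ge_atTop j, hsmall (ε / 4) (by linarith)] with k hk hk'
    have h := hu3 k (d j) (Finset.mem_image.2 ⟨j, Finset.mem_range.2 (by omega), rfl⟩)
    rw [dist_eq_norm] at hj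
    have e : u k * a - a * u k = (u k * d j - d j * u k) + (u k * (a - d j) - (a - d j) * u k) := by
      noncomm_ring
    rw [Real.dist_eq, sub_zero, abs_of_nonneg (norm_nonneg _), e]
    have h5 : ‖u k * (a - d j)‖ ≤ ‖a - d j‖ :=
      (norm_mul_le _ _).trans (mul_le_of_le_one_left (norm_nonneg _) (hu2 k))
    have h6 : ‖(a - d j) * u k‖ ≤ ‖a - d j‖ :=
      (norm_mul_le _ _).trans (mul_le_of_le_one_right (norm_nonneg _) (hu2 k))
    have := norm_add_le (u k * d j - d j * u k) (u k * (a - d j) - (a - d j) * u k)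
    have := norm_sub_le (u k * (a - d j)) ((a - d j) * u k)
    linarith
  · obtain ⟨j, hj⟩ := hd.exists_dist_lt a (show (0 : ℝ) < ε / 8 by linarith)
    filter_upwards [eventually_ge_atTop j, hsmall (ε / 4) (by linarith)] with k hk hk' τ
    have h := (hu4 k τ).1 (d j) (Finset.mem_image.2 ⟨j, Finset.mem_range.2 (by omega), rfl⟩)
    rw [dist_eq_norm] at hj
    have e : a * u k = d j * u k + (a - d j) * u k := by noncomm_ring
    rw [e, map_add]
    have h6 : ‖(a - d j) * u k‖ ≤ ‖a - d j‖ :=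
      (norm_mul_le _ _).trans (mul_le_of_le_one_right (norm_nonneg _) (hu2 k))
    have := norm_add_le (τ.toLin (d j * u k)) (τ.toLin ((a - d j) * u k))
    have := τ.norm_apply_le ((a - d j) * u k)
    linarith
  · filter_upwards [hsmall ε hε] with k hk τ
    exact (hu4 k τ).2.1.trans hk
  · filter_upwards [eventually_ge_atTop (enc g), hsmall ε hε] with k hk hk' τ
    exact ((hu4 k τ).2.2 g (Finset.mem_preimage.2 (Finset.mem_range.2 (by omega)))).trans hk'

variable {ω} in
/-- The sequence from the trace estimates on the central sequence algebra. -/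
theorem exists_sequence [TopologicalSpace.SeparableSpace A] {G : Type*} [Group G] [Countable G]
    (_hω : (ω : Filter ℕ) ≤ cofinite) (α : G →* (A ≃⋆ₐ[ℂ] A))
    (h : ∀ (S : Finset G) (ε : ℝ), 0 < ε → ∃ u : FOmega A ω, IsSelfAdjoint u ∧ ‖u‖ ≤ 1 ∧
      ∀ t : FOmega A ω →ₗ[ℝ] ℝ, IsTrace t → t u = 0 ∧ t (1 - u * u) ≤ ε * t 1 ∧
        ∀ g ∈ S, t ((act α g u - u) * (act α g u - u)) ≤ ε * t 1) :
    ∃ u : ℕ → A, (∀ n, IsSelfAdjoint (u n) ∧ ‖u n‖ ≤ 1) ∧
      (∀ a, Tendsto (fun n => ‖u n * a - a * u n‖) atTop (𝓝 0)) ∧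
      (∀ a, ∀ ε : ℝ, 0 < ε → ∀ᶠ n in atTop, ∀ τ : TracialState A, ‖τ.toLin (a * u n)‖ ≤ ε) ∧
      (∀ ε : ℝ, 0 < ε → ∀ᶠ n in atTop, ∀ τ : TracialState A,
        (τ.toLin (1 - u n * u n)).re ≤ ε) ∧
      ∀ g, ∀ ε : ℝ, 0 < ε → ∀ᶠ n in atTop, ∀ τ : TracialState A,
        (τ.toLin ((α g (u n) - u n) * (α g (u n) - u n))).re ≤ ε := by
  let aF : G → Central A ω → Central A ω := fun g x => act α g x
  have hmain : ∀ S : Finset G, ∀ ε > (0 : ℝ), ∃ u : Central A ω, IsSelfAdjoint u ∧ ‖u‖ ≤ 1 ∧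
      ∀ φ : TraceFun (Central A ω), φ.toLin u = 0 ∧
        (φ.toLin (1 - u * u)).re ≤ ε * (φ.toLin 1).re ∧
        ∀ g ∈ S, (φ.toLin (star (aF g u - u) * (aF g u - u))).re ≤ ε * (φ.toLin 1).re := by
    intro S ε hε
    obtain ⟨u, hu, hn, ht⟩ := h S ε hε
    refine ⟨u, hu, hn, fun φ => ?_⟩
    obtain ⟨h0, h1, h2⟩ := ht φ.real φ.isTrace_real
    refine ⟨Complex.ext h0 (φ.im_eq_zero hu), h1, fun g hg => ?_⟩
    have e : star (act α g u - u) = act α g u - u := by
      rw [star_sub, ← map_star, hu.star_eq]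
    have e' : star (act α g u - u) * (act α g u - u) = (act α g u - u) * (act α g u - u) := by
      rw [e]
    exact (congrArg φ.real e').le.trans (h2 g hg)
  obtain ⟨u, h1, h2, h3⟩ := exists_uniform_gamma_seq ω (fun g => α g) aF
    (fun g x f f' hf hf' => (act_cls α g x f f' hf hf').symm) hmain
  exact ⟨u, h1, h2, fun a ε hε => (h3 ε hε).1 a, fun ε hε => (h3 ε hε).2.1,
    fun g ε hε => (h3 ε hε).2.2 g⟩

end

end Vale.P095.Tracial
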