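import Vale.Agent.P101.Basic
import Vale.Agent.P095.Tracial.TraceIneq

/-!
# P095: compression of a signed family through the odd square root of its dilation

For a finite family `v i` and signs `σ i`, `comp v σ` is the corner of `R S R`, where `R` is the odd
square root of the self-adjoint dilation of the column `v`. It is the norm limit of
`h_ε(c) u h_ε(c)` with `c = ∑ v* v`, `u = ∑ σ v* v`.
-/

open Filter Topology
open scoped CStarAlgebra

set_option linter.unusedSectionVars false

namespace Vale.P095

open Tracial (oddRoot continuous_oddRoot IsTrace)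

theorem oddRoot_pow_four (t : ℝ) : oddRoot t ^ 4 = t ^ 2 := by
  rcases le_total 0 t with h | h
  · rw [oddRoot, Real.sqrt_eq_zero'.2 (neg_nonpos.2 h), sub_zero,
      show √t ^ 4 = (√t ^ 2) ^ 2 by ring, Real.sq_sqrt h]
  · rw [oddRoot, Real.sqrt_eq_zero'.2 h, zero_sub,
      show (-√(-t)) ^ 4 = (√(-t) ^ 2) ^ 2 by ring, Real.sq_sqrt (neg_nonneg.2 h)]
    ring

/-- The regularised inverse fourth root. -/
noncomputable def regInv (ε t : ℝ) : ℝ := (√√(max t 0 + ε ^ 4))⁻¹

theorem continuous_regInv {ε : ℝ} (hε : 0 < ε) : Continuous (regInv ε) := by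
  unfold regInv
  refine Continuous.inv₀ (by fun_prop) fun t => ?_
  have : 0 < max t 0 + ε ^ 4 := add_pos_of_nonneg_of_pos (le_max_right _ _) (by positivity)
  exact (Real.sqrt_pos.2 (Real.sqrt_pos.2 this)).ne'

theorem abs_mul_regInv_sub_oddRoot_le {ε : ℝ} (hε : 0 < ε) (t : ℝ) :
    |t * regInv ε (t ^ 2) - oddRoot t| ≤ ε := by
  have key : ∀ s : ℝ, 0 ≤ s → |s * regInv ε (s ^ 2) - √s| ≤ ε := by
    intro s hs
    set q := √s
    set r := √√(max (s ^ 2) 0 + ε ^ 4)
    have hq : q ^ 2 = s := Real.sq_sqrt hs
    have hr4 : r ^ 4 = s ^ 2 + ε ^ 4 := by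
      rw [show r ^ 4 = (r ^ 2) ^ 2 by ring, Real.sq_sqrt (Real.sqrt_nonneg _),
        Real.sq_sqrt (by positivity), max_eq_left (sq_nonneg s)]
    have hr0 : 0 < r := by
      have : (0:ℝ) < max (s ^ 2) 0 + ε ^ 4 :=
        add_pos_of_nonneg_of_pos (le_max_right _ _) (by positivity)
      exact Real.sqrt_pos.2 (Real.sqrt_pos.2 this)
    have hq0 : 0 ≤ q := Real.sqrt_nonneg _
    have hqr : q ≤ r := by
      refine (pow_le_pow_iff_left₀ hq0 hr0.le (show 4 ≠ 0 by norm_num)).1 ?_
      nlinarith [pow_nonneg hε.le 4]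
    have hrq : r ≤ q + ε := by
      refine (pow_le_pow_iff_left₀ hr0.le (by linarith) (show 4 ≠ 0 by norm_num)).1 ?_
      rw [hr4, ← hq]
      nlinarith [mul_nonneg hq0 hε.le, pow_nonneg hq0 3, pow_nonneg hε.le 3, sq_nonneg (q * ε)]
    have : s * regInv ε (s ^ 2) - q = -(q * (r - q) / r) := by
      show s * r⁻¹ - q = _
      rw [← hq]; field_simp; ring
    rw [this, abs_neg, abs_of_nonneg (div_nonneg (mul_nonneg hq0 (sub_nonneg.2 hqr)) hr0.le)]
    rw [div_le_iff₀ hr0]
    nlinarith
  rcases le_total 0 t with h | h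
  · rw [oddRoot, Real.sqrt_eq_zero'.2 (neg_nonpos.2 h), sub_zero]
    exact key t h
  · have := key (-t) (neg_nonneg.2 h)
    rw [oddRoot, Real.sqrt_eq_zero'.2 h, zero_sub, ← abs_neg]
    simpa [neg_sq, sub_eq_add_neg, add_comm] using this

/-- Real functionals, elaborated over a generic C*-algebra (fixes the real module structure). -/
abbrev RealFun (B : Type*) [CStarAlgebra B] := B →ₗ[ℝ] ℝ

section Matrix

variable {E : Type*} [CStarAlgebra E] [PartialOrder E] [StarOrderedRing E]
variable {κ : Type*} [Fintype κ] [DecidableEq κ]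

noncomputable instance matrixRealCFC :
    ContinuousFunctionalCalculus ℝ (CStarMatrix κ κ E) IsSelfAdjoint :=
  IsSelfAdjoint.instContinuousFunctionalCalculus

/-- The trace on matrices induced by a trace. -/
noncomputable def matTrace (τ : E →ₗ[ℝ] ℝ) : RealFun (CStarMatrix κ κ E) where
  toFun M := ∑ i, τ (M i i)
  map_add' M N := by simp [Finset.sum_add_distrib]
  map_smul' c M := by
    show ∑ i, τ ((c : ℂ) • M i i) = c * ∑ i, τ (M i i)
    simp [Complex.coe_smul, Finset.mul_sum]

theorem matTrace_apply (τ : E →ₗ[ℝ] ℝ) (M : CStarMatrix κ κ E) :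
    matTrace τ M = ∑ i, τ (M i i) := rfl

theorem isTrace_matTrace {τ : E →ₗ[ℝ] ℝ} (hτ : IsTrace τ) :
    IsTrace (matTrace (κ := κ) τ) where
  nonneg M := by
    simp only [matTrace_apply, CStarMatrix.mul_apply, CStarMatrix.star_apply, map_sum]
    exact Finset.sum_nonneg fun i _ => Finset.sum_nonneg fun j _ => hτ.nonneg _
  comm M N := by
    simp only [matTrace_apply, CStarMatrix.mul_apply, map_sum]
    rw [Finset.sum_comm]
    exact Finset.sum_congr rfl fun i _ => Finset.sum_congr rfl fun j _ => hτ.comm _ _
  map_star M := by simp [matTrace_apply, CStarMatrix.star_apply, hτ.map_star]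

/-- Constant diagonal matrices. -/
def constDiag : E →⋆ₐ[ℂ] CStarMatrix κ κ E where
  toFun x := CStarMatrix.ofMatrix (Matrix.diagonal fun _ => x)
  map_one' := Matrix.diagonal_one
  map_mul' x y := (Matrix.diagonal_mul_diagonal _ _).symm
  map_zero' := Matrix.diagonal_zero
  map_add' x y := (Matrix.diagonal_add _ _).symm
  commutes' c := by
    ext i j
    by_cases h : i = j
    · subst h; simp [Algebra.algebraMap_eq_smul_one]
    · simp [Algebra.algebraMap_eq_smul_one, h]
  map_star' x := by
    ext i j
    by_cases h : i = j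
    · subst h; simp [CStarMatrix.star_apply]
    · simp [CStarMatrix.star_apply, h, Ne.symm h]

theorem constDiag_apply (x : E) (i j : κ) :
    constDiag (κ := κ) x i j = if i = j then x else 0 := by
  by_cases h : i = j
  · subst h; exact (Matrix.diagonal_apply_eq _ _).trans (if_pos rfl).symm
  · exact (Matrix.diagonal_apply_ne _ h).trans (if_neg h).symm

end Matrix

section Comp

variable {E : Type*} [CStarAlgebra E] [PartialOrder E] [StarOrderedRing E]
variable {ι : Type*} [Fintype ι] [DecidableEq ι]

/-- The self-adjoint dilation `[[0, v*], [v, 0]]` of a column. -/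
def dil (v : ι → E) : CStarMatrix (Option ι) (Option ι) E :=
  CStarMatrix.ofMatrix fun a b =>
    match a, b with
    | none, some i => star (v i)
    | some i, none => v i
    | _, _ => 0

/-- The diagonal matrix of signs, vanishing at the corner. -/
def sgnMat (σ : ι → ℝ) : CStarMatrix (Option ι) (Option ι) E :=
  CStarMatrix.ofMatrix (Matrix.diagonal fun a => a.elim (0 : E) fun i => (σ i : ℂ) • 1)

/-- The compressed element `c^{-1/4} u c^{-1/4}`. -/
noncomputable def comp (v : ι → E) (σ : ι → ℝ) : E :=
  (cfc oddRoot (dil v) * sgnMat σ * cfc oddRoot (dil v) : CStarMatrix (Option ι) (Option ι) E)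
    none none

@[simp] theorem dil_none_none (v : ι → E) : dil v none none = 0 := rfl
@[simp] theorem dil_none_some (v : ι → E) (i : ι) : dil v none (some i) = star (v i) := rfl
@[simp] theorem dil_some_none (v : ι → E) (i : ι) : dil v (some i) none = v i := rfl
@[simp] theorem dil_some_some (v : ι → E) (i j : ι) : dil v (some i) (some j) = 0 := rfl

@[simp] theorem sgnMat_none (σ : ι → ℝ) (b : Option ι) :
    (sgnMat σ : CStarMatrix (Option ι) (Option ι) E) none b = 0 := by
  rcases b with _ | j <;> rfl

@[simp] theorem sgnMat_some_none (σ : ι → ℝ) (i : ι) :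
    (sgnMat σ : CStarMatrix (Option ι) (Option ι) E) (some i) none = 0 := rfl

@[simp] theorem sgnMat_some_some (σ : ι → ℝ) (i j : ι) :
    (sgnMat σ : CStarMatrix (Option ι) (Option ι) E) (some i) (some j)
      = if i = j then (σ i : ℂ) • (1 : E) else 0 := by
  by_cases h : i = j
  · subst h; exact (Matrix.diagonal_apply_eq _ _).trans (if_pos rfl).symm
  · exact (Matrix.diagonal_apply_ne _ (by simpa using h)).trans (if_neg h).symm

theorem dil_isSelfAdjoint (v : ι → E) : IsSelfAdjoint (dil v) := by
  refine CStarMatrix.ext fun a b => ?_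
  rcases a with _ | i <;> rcases b with _ | j <;> simp [CStarMatrix.star_apply]

theorem sgnMat_isSelfAdjoint (σ : ι → ℝ) :
    IsSelfAdjoint (sgnMat σ : CStarMatrix (Option ι) (Option ι) E) := by
  refine CStarMatrix.ext fun a b => ?_
  rcases a with _ | i <;> rcases b with _ | j <;> simp [CStarMatrix.star_apply]
  by_cases h : i = j
  · subst h; simp [Complex.conj_ofReal]
  · simp [h, Ne.symm h]

theorem dil_sub (v w : ι → E) : dil v - dil w = dil (v - w) := by
  refine CStarMatrix.ext fun a b => ?_
  rcases a with _ | i <;> rcases b with _ | j <;> simp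

theorem comp_isSelfAdjoint (v : ι → E) (σ : ι → ℝ) : IsSelfAdjoint (comp v σ) := by
  have h : IsSelfAdjoint (cfc oddRoot (dil v) * sgnMat σ * cfc oddRoot (dil v)) := by
    simpa [(IsSelfAdjoint.cfc : IsSelfAdjoint (cfc oddRoot (dil v))).star_eq] using
      (sgnMat_isSelfAdjoint (E := E) σ).conjugate (cfc oddRoot (dil v))
  exact congrFun₂ h.star_eq none none

/-- `∑ v i * v i`. -/
def colSq (v : ι → E) : E := ∑ i, star (v i) * v i

/-- `∑ σ i • (v i)* v i`. -/
def colSgn (v : ι → E) (σ : ι → ℝ) : E := ∑ i, (σ i : ℂ) • (star (v i) * v i)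

theorem colSq_isSelfAdjoint (v : ι → E) : IsSelfAdjoint (colSq v) := by
  simp [colSq, IsSelfAdjoint, star_sum]

theorem comp_tendsto (v : ι → E) (σ : ι → ℝ) :
    Tendsto (fun ε => cfc (regInv ε) (colSq v) * colSgn v σ * cfc (regInv ε) (colSq v))
      (𝓝[>] 0) (𝓝 (comp v σ)) := by
  set H := dil v
  set S : CStarMatrix (Option ι) (Option ι) E := sgnMat σ
  set E0 : CStarMatrix (Option ι) (Option ι) E :=
    CStarMatrix.ofMatrix (Matrix.single none none 1)
  have hH := dil_isSelfAdjoint v
  have hH2 : IsSelfAdjoint (H ^ 2) := hH.pow 2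
  have hD : IsSelfAdjoint (constDiag (κ := Option ι) (colSq v)) :=
    (colSq_isSelfAdjoint v).map _
  have hr : H ^ 2 * E0 = E0 * constDiag (colSq v) := by
    refine CStarMatrix.ext fun a b => ?_
    rcases a with _ | i <;> rcases b with _ | j <;>
      simp [sq, H, E0, CStarMatrix.mul_apply, Matrix.single_apply, constDiag_apply,
        Fintype.sum_option, colSq, -map_sum]
  have hl : E0 * H ^ 2 = constDiag (colSq v) * E0 := by
    refine CStarMatrix.ext fun a b => ?_
    rcases a with _ | i <;> rcases b with _ | j <;>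
      simp [sq, H, E0, CStarMatrix.mul_apply, Matrix.single_apply, constDiag_apply,
        Fintype.sum_option, colSq, -map_sum]
  have hmid : (H * S * H) none none = colSgn v σ := by
    simp [H, S, colSgn, CStarMatrix.mul_apply, Fintype.sum_option]
  have hf : ∀ ε : ℝ, 0 < ε → Continuous fun t => t * regInv ε (t ^ 2) := fun ε hε =>
    continuous_id.mul ((continuous_regInv hε).comp (continuous_pow 2))
  have heq : ∀ ε : ℝ, 0 < ε →
      (cfc (fun t => t * regInv ε (t ^ 2)) H * S * cfc (fun t => t * regInv ε (t ^ 2)) H) none none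
        = cfc (regInv ε) (colSq v) * colSgn v σ * cfc (regInv ε) (colSq v) := by
    intro ε hε
    have hc := continuous_regInv hε
    set K := cfc (regInv ε) (H ^ 2)
    have hK : cfc (fun t => regInv ε (t ^ 2)) H = K := by
      rw [cfc_comp' (regInv ε) (fun t => t ^ 2) H hc.continuousOn (by fun_prop), cfc_pow_id H 2]
    have h1 : cfc (fun t => t * regInv ε (t ^ 2)) H = H * K := by
      rw [cfc_mul (fun t => t) (fun t => regInv ε (t ^ 2)) H (by fun_prop)
        (hc.comp (continuous_pow 2)).continuousOn,
        cfc_id' ℝ H, hK]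
    have h2 : H * K = K * H := by
      have := Vale.P101.intertwine_cfc (x := H) hH2 hH2 (by rw [← pow_succ, ← pow_succ']) hc
      exact this
    have hmap : cfc (regInv ε) (constDiag (κ := Option ι) (colSq v))
        = constDiag (cfc (regInv ε) (colSq v)) :=
      (StarAlgHomClass.map_cfc (constDiag (κ := Option ι) (E := E)) (regInv ε) (colSq v)
        hc.continuousOn (by fun_prop) (colSq_isSelfAdjoint v) hD).symm
    have k1 : K * E0 = E0 * constDiag (cfc (regInv ε) (colSq v)) := by
      rw [← hmap]; exact (Vale.P101.intertwine_cfc hD hH2 hr.symm hc).symm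
    have k2 : E0 * K = constDiag (cfc (regInv ε) (colSq v)) * E0 := by
      rw [← hmap]; exact Vale.P101.intertwine_cfc hH2 hD hl hc
    have key : E0 * (K * (H * S * H) * K) * E0
        = constDiag (cfc (regInv ε) (colSq v)) * (E0 * (H * S * H) * E0)
          * constDiag (cfc (regInv ε) (colSq v)) := by
      calc E0 * (K * (H * S * H) * K) * E0 = (E0 * K) * (H * S * H) * (K * E0) := by
            simp only [mul_assoc]
        _ = _ := by rw [k1, k2]; simp only [mul_assoc]
    have := congrFun₂ key none none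
    rw [← hmid]
    conv_lhs => rw [h1]
    conv_lhs => enter [1, 1]; rw [h2]
    have e1 : ∀ M : CStarMatrix (Option ι) (Option ι) E, (E0 * M * E0) none none = M none none :=
      fun M => by simp [E0, CStarMatrix.mul_apply, Matrix.single_apply]
    have e2 : ∀ (a b : E) (M : CStarMatrix (Option ι) (Option ι) E),
        (constDiag (κ := Option ι) a * M * constDiag (κ := Option ι) b) none none = a * M none none * b :=
      fun a b M => by simp [CStarMatrix.mul_apply, constDiag_apply, -map_sum]
    rw [e1, e2, e1] at this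
    simpa only [mul_assoc] using this
  have hlim : Tendsto (fun ε => cfc (fun t => t * regInv ε (t ^ 2)) H) (𝓝[>] 0)
      (𝓝 (cfc oddRoot H)) := by
    rw [tendsto_iff_norm_sub_tendsto_zero]
    refine squeeze_zero' (Eventually.of_forall fun ε => norm_nonneg _) ?_
      (tendsto_nhdsWithin_of_tendsto_nhds tendsto_id)
    filter_upwards [self_mem_nhdsWithin] with ε hε
    rw [← cfc_sub _ _ H (hf ε hε).continuousOn continuous_oddRoot.continuousOn]
    exact norm_cfc_le hε.le fun t _ => abs_mul_regInv_sub_oddRoot_le hε t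
  have hent : Continuous fun M : CStarMatrix (Option ι) (Option ι) E => M none none :=
    (continuous_apply none).comp (continuous_apply none)
  refine ((hent.tendsto _).comp ((hlim.mul_const S).mul hlim)).congr' ?_
  filter_upwards [self_mem_nhdsWithin] with ε hε
  exact heq ε hε

/-- `comp` depends only on `∑ v* v` and `∑ σ v* v`. -/
theorem comp_congr {κ : Type*} [Fintype κ] [DecidableEq κ] (v : ι → E) (σ : ι → ℝ) (w : κ → E)
    (ρ : κ → ℝ) (h₁ : colSq v = colSq w) (h₂ : colSgn v σ = colSgn w ρ) :
    comp v σ = comp w ρ :=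
  tendsto_nhds_unique (comp_tendsto v σ) (by rw [h₁, h₂]; exact comp_tendsto w ρ)

/-- Unital star homomorphisms commute with `comp`. -/
theorem map_comp {B : Type*} [CStarAlgebra B] [PartialOrder B] [StarOrderedRing B]
    (φ : E →⋆ₐ[ℂ] B) (v : ι → E) (σ : ι → ℝ) : φ (comp v σ) = comp (fun i => φ (v i)) σ := by
  have hc : φ (colSq v) = colSq fun i => φ (v i) := by simp [colSq, map_sum, map_star]
  have hu : φ (colSgn v σ) = colSgn (fun i => φ (v i)) σ := by
    simp [colSgn, map_sum, map_star, -Complex.coe_smul]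
  refine tendsto_nhds_unique (((map_continuous φ).tendsto _).comp (comp_tendsto v σ)) ?_
  refine (comp_tendsto (fun i => φ (v i)) σ).congr' ?_
  filter_upwards [self_mem_nhdsWithin] with ε hε
  rw [Function.comp_apply, map_mul, map_mul, hu,
    StarAlgHomClass.map_cfc φ (regInv ε) (colSq v) (continuous_regInv hε).continuousOn
      (map_continuous φ) (colSq_isSelfAdjoint v) ((colSq_isSelfAdjoint v).map φ), hc]

/-- A continuous functional killing every regularisation kills `comp`. -/
theorem apply_comp_eq_zero {β : Type*} [TopologicalSpace β] [T2Space β] [Zero β] (v : ι → E)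
    (σ : ι → ℝ) (L : E → β) (hL : Continuous L)
    (h : ∀ ε > 0, L (cfc (regInv ε) (colSq v) * colSgn v σ * cfc (regInv ε) (colSq v)) = 0) :
    L (comp v σ) = 0 := by
  refine tendsto_nhds_unique ((hL.tendsto _).comp (comp_tendsto v σ)) ?_
  refine tendsto_const_nhds.congr' ?_
  filter_upwards [self_mem_nhdsWithin] with ε hε
  exact (h ε hε).symm

end Comp

end Vale.P095
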