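import Vale.Agent.P095.Tracial.TraceIneq
import Vale.Agent.P095.Tracial.Compress

/-!
# P095 (tracial route): the key tree

Positions and keys are lists of signs, the head being the last level.  `s k g` is the translate by
`g` of the payload at position `k`.
-/

noncomputable section

namespace Vale.P095.Tracial

/-- Payloads at the positions of length `< J`, with their translates; `D k` is the copy containing
all translates and witnesses at position `k`.  All identities are for every trace of the algebra. -/
structure Pay (G B : Type*) [CStarAlgebra B] (δ : ℝ) (J : ℕ) where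
  /-- The payload at a position, translated. -/
  s : List Bool → G → B
  /-- The copy at a position. -/
  D : List Bool → Set B
  mem : ∀ k g, k.length < J → s k g ∈ D k
  sa : ∀ k g, IsSelfAdjoint (s k g)
  norm_le : ∀ k g, ‖s k g‖ ≤ 1
  comm : ∀ k k', k.length < J → k'.length < J → k ≠ k' → ∀ x ∈ D k, ∀ y ∈ D k', Commute x y
  bal : ∀ τ : B →ₗ[ℝ] ℝ, IsTrace τ → ∀ k g M, k.length < J → (∀ x ∈ D k, Commute M x) →
    τ (M * s k g) = 0
  sym : ∀ τ : B →ₗ[ℝ] ℝ, IsTrace τ → ∀ k g M, k.length < J → (∀ x ∈ D k, Commute M x) →
    τ (star M * (1 - s k g * s k g) * M) ≤ δ * τ (star M * M)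

variable {G B : Type*} [CStarAlgebra B] {δ : ℝ} {J : ℕ} (P : Pay G B δ J)

/-- `(1 ± s)/2`. -/
def Pay.half (k : List Bool) (b : Bool) (g : G) : B :=
  (1 / 2 : ℝ) • (if b then 1 + P.s k g else 1 - P.s k g)

/-- The key partition of a single translate. -/
def Pay.key (g : G) : List Bool → B
  | [] => 1
  | b :: k => Pay.key g k * P.half k b g

/-- The Følner average of a key. -/
def Pay.avg (F : Finset G) (k : List Bool) : B :=
  (F.card : ℝ)⁻¹ • ∑ g ∈ F, P.key g k

/-- The rows of a node. -/
def Pay.row (F : Finset G) (k : List Bool) (i : F × Bool) : B :=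
  cfc Real.sqrt ((F.card : ℝ)⁻¹ • P.key i.1 (i.2 :: k))

/-- The nodes of a level. -/
def keys : ℕ → Finset (List Bool)
  | 0 => {[]}
  | j + 1 => (keys j).image (List.cons true) ∪ (keys j).image (List.cons false)

variable [DecidableEq G] [PartialOrder B] [StarOrderedRing B]

/-- The element of one node. -/
def Pay.node (F : Finset G) (k : List Bool) : B :=
  Vale.P095.comp (P.row F k) fun i : F × Bool => if i.2 then 1 else -1

/-- The almost invariant element. -/
def Pay.X (F : Finset G) : B :=
  (Real.sqrt J)⁻¹ • ∑ j ∈ Finset.range J, ∑ k ∈ keys j, P.node F k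

end Vale.P095.Tracial
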