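import Vale.Agent.P095.Tracial.Tree

/-!
# P095 (tracial route): keys, rows and their column sums
-/

noncomputable section

set_option linter.unusedSectionVars false

namespace Vale.P095.Tracial

variable {G B : Type*} [CStarAlgebra B] {δ : ℝ} {J : ℕ} (P : Pay G B δ J)

theorem length_of_mem_keys : ∀ {j : ℕ} {k : List Bool}, k ∈ keys j → k.length = j := by
    intro j
    induction j with
    | zero => simp [keys]
    | succ n ih =>
      intro k hk
      simp only [keys, Finset.mem_union, Finset.mem_image] at hk
      rcases hk with ⟨k', hk', rfl⟩ | ⟨k', hk', rfl⟩ <;> simp [ih hk']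

theorem sum_keys_succ {M : Type*} [AddCommMonoid M] (f : List Bool → M) (j : ℕ) :
    ∑ k ∈ keys (j + 1), f k = ∑ k ∈ keys j, (f (true :: k) + f (false :: k)) := by
  rw [keys, Finset.sum_union, Finset.sum_image (by simp), Finset.sum_image (by simp),
    Finset.sum_add_distrib]
  simp [Finset.disjoint_left]

theorem Pay.s_commute (g : G) {k k' : List Bool} (hk : k.length < J) (hk' : k'.length < J) :
    Commute (P.s k g) (P.s k' g) := by
  by_cases h : k = k'
  · subst h; exact Commute.refl _
  · exact P.comm k k' hk hk' h _ (P.mem k g hk) _ (P.mem k' g hk')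

theorem Pay.half_add (k : List Bool) (g : G) : P.half k true g + P.half k false g = 1 := by
  simp only [Pay.half, ↓reduceIte, Bool.false_eq_true]
  module

theorem Pay.half_sub (k : List Bool) (g : G) :
    P.half k true g - P.half k false g = P.s k g := by
  simp only [Pay.half, ↓reduceIte, Bool.false_eq_true]
  module

theorem Pay.half_isSelfAdjoint (k : List Bool) (b : Bool) (g : G) :
    IsSelfAdjoint (P.half k b g) := by
  refine IsSelfAdjoint.smul (IsSelfAdjoint.all _) ?_
  cases b
  · exact (IsSelfAdjoint.one _).sub (P.sa k g)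
  · exact (IsSelfAdjoint.one _).add (P.sa k g)

/-- Whatever commutes with the payload commutes with its halves. -/
theorem Pay.commute_half {x : B} {k : List Bool} {g : G} (h : Commute x (P.s k g)) (b : Bool) :
    Commute x (P.half k b g) := by
  refine Commute.smul_right ?_ _
  cases b
  · exact (Commute.one_right x).sub_right h
  · exact (Commute.one_right x).add_right h

/-- Whatever commutes with the payloads at the proper tails commutes with the key. -/
theorem Pay.commute_key {x : B} {g : G} :
    ∀ k : List Bool, (∀ k', k'.length < k.length → Commute x (P.s k' g)) → Commute x (P.key g k)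
  | [], _ => Commute.one_right x
  | b :: k, h => by
      exact (Pay.commute_key k fun k' hk' => h k' (by simp; omega)).mul_right
        (P.commute_half (h k (by simp)) b)

theorem Pay.key_commute_half (g : G) {k k' : List Bool} (hk : k.length ≤ J) (hk' : k'.length < J)
    (b : Bool) : Commute (P.key g k) (P.half k' b g) :=
  P.commute_half
    (Commute.symm (P.commute_key k fun k'' h => P.s_commute g hk' (lt_of_lt_of_le h hk))) b

theorem Pay.key_isSelfAdjoint (g : G) : ∀ k : List Bool, k.length ≤ J → IsSelfAdjoint (P.key g k)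
  | [], _ => IsSelfAdjoint.one _
  | b :: k, h => (Pay.key_isSelfAdjoint g k (by simp at h; omega)).commute_iff
      (P.half_isSelfAdjoint k b g) |>.1
      (P.key_commute_half g (by simp at h; omega) (by simp at h; omega) b)

theorem Pay.key_add (g : G) (k : List Bool) :
    P.key g (true :: k) + P.key g (false :: k) = P.key g k := by
  rw [Pay.key, Pay.key, ← mul_add, P.half_add, mul_one]

theorem Pay.key_sub (g : G) (k : List Bool) :
    P.key g (true :: k) - P.key g (false :: k) = P.key g k * P.s k g := by
  rw [Pay.key, Pay.key, ← mul_sub, P.half_sub]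

theorem Pay.sum_key (g : G) : ∀ j : ℕ, ∑ k ∈ keys j, P.key g k = 1
  | 0 => by simp [keys, Pay.key]
  | j + 1 => by
      rw [sum_keys_succ, Finset.sum_congr rfl fun k _ => P.key_add g k, Pay.sum_key g j]

theorem Pay.sum_avg {F : Finset G} (hF : F.Nonempty) (j : ℕ) :
    ∑ k ∈ keys j, P.avg F k = 1 := by
  simp only [Pay.avg, ← Finset.smul_sum]
  rw [Finset.sum_comm, Finset.sum_congr rfl fun g _ => P.sum_key g j, Finset.sum_const,
    ← Nat.cast_smul_eq_nsmul ℝ, smul_smul,
    inv_mul_cancel₀ (by exact_mod_cast hF.card_pos.ne'), one_smul]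

section Order

variable [PartialOrder B] [StarOrderedRing B]

theorem Pay.half_nonneg (k : List Bool) (b : Bool) (g : G) : 0 ≤ P.half k b g := by
  have h1 := (P.sa k g).le_algebraMap_norm_self
  have h2 := (P.sa k g).neg_algebraMap_norm_le_self
  have h3 : algebraMap ℝ B ‖P.s k g‖ ≤ 1 := by
    simpa using algebraMap_mono B (P.norm_le k g)
  refine smul_nonneg (by norm_num) ?_
  cases b
  · simpa using h1.trans h3
  · have : -1 ≤ P.s k g := (neg_le_neg h3).trans h2
    simpa [neg_le_iff_add_nonneg'] using this

theorem Pay.key_nonneg (g : G) : ∀ k : List Bool, k.length ≤ J → 0 ≤ P.key g k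
  | [], _ => zero_le_one
  | b :: k, h => (P.key_commute_half g (by simp at h; omega) (by simp at h; omega) b).mul_nonneg
      (Pay.key_nonneg g k (by simp at h; omega)) (P.half_nonneg k b g)

theorem Pay.row_isSelfAdjoint (F : Finset G) (k : List Bool) (i : F × Bool) :
    IsSelfAdjoint (P.row F k i) := cfc_predicate _ _

theorem Pay.row_star_mul_self (F : Finset G) {k : List Bool} (hk : k.length < J) (i : F × Bool) :
    star (P.row F k i) * P.row F k i = (F.card : ℝ)⁻¹ • P.key i.1 (i.2 :: k) := by
  have h0 : 0 ≤ (F.card : ℝ)⁻¹ • P.key i.1 (i.2 :: k) :=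
    smul_nonneg (by positivity) (P.key_nonneg _ _ (by simp; omega))
  rw [(P.row_isSelfAdjoint F k i).star_eq, Pay.row]
  rw [← cfc_mul Real.sqrt Real.sqrt _ Real.continuous_sqrt.continuousOn
    Real.continuous_sqrt.continuousOn]
  conv_rhs => rw [← cfc_id' ℝ ((F.card : ℝ)⁻¹ • P.key i.1 (i.2 :: k)) h0.isSelfAdjoint]
  refine cfc_congr fun t ht => Real.mul_self_sqrt ?_
  exact spectrum_nonneg_of_nonneg h0 ht

theorem Pay.colSq_row (F : Finset G) {k : List Bool} (hk : k.length < J) :
    colSq (P.row F k) = P.avg F k := by
  simp only [colSq, P.row_star_mul_self F hk, Fintype.sum_prod_type, Fintype.sum_bool, ← smul_add,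
    P.key_add, Pay.avg, Finset.smul_sum]
  exact Finset.sum_coe_sort F fun g => (F.card : ℝ)⁻¹ • P.key g k

theorem Pay.colSgn_row (F : Finset G) {k : List Bool} (hk : k.length < J) :
    colSgn (P.row F k) (fun i : F × Bool => if i.2 then 1 else -1)
      = (F.card : ℝ)⁻¹ • ∑ g ∈ F, P.key g k * P.s k g := by
  simp only [colSgn, P.row_star_mul_self F hk, Fintype.sum_prod_type, Fintype.sum_bool, ↓reduceIte,
    Bool.false_eq_true, Complex.ofReal_one, Complex.ofReal_neg, one_smul, neg_smul,
    ← sub_eq_add_neg, ← smul_sub, P.key_sub, Finset.smul_sum]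
  exact Finset.sum_coe_sort F fun g => (F.card : ℝ)⁻¹ • (P.key g k * P.s k g)

end Order

end Vale.P095.Tracial
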